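import Vale.Agent.P101.ZBasic

/-!
The one-sided Elliott intertwining argument.
-/

namespace Vale.Agent.P101

open Filter Topology

/-- the pointwise limit of a sequence of `*`-homomorphisms -/
noncomputable def limHom {A B : Type*} [CStarAlgebra A] [CStarAlgebra B]
    (φ : ℕ → A →⋆ₐ[ℂ] B) (ψ : A → B) (h : ∀ x, Tendsto (fun n => φ n x) atTop (𝓝 (ψ x))) :
    A →⋆ₐ[ℂ] B where
  toFun := ψ
  map_one' := tendsto_nhds_unique (h 1) (by simp only [map_one]; exact tendsto_const_nhds)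
  map_mul' x y := tendsto_nhds_unique (h (x * y))
    (by simp only [map_mul]; exact (h x).mul (h y))
  map_zero' := tendsto_nhds_unique (h 0) (by simp only [map_zero]; exact tendsto_const_nhds)
  map_add' x y := tendsto_nhds_unique (h (x + y))
    (by simp only [map_add]; exact (h x).add (h y))
  commutes' r := tendsto_nhds_unique (h (algebraMap ℂ A r))
    (by simp only [AlgHomClass.commutes]; exact tendsto_const_nhds)
  map_star' x := tendsto_nhds_unique (h (star x))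
    (by simp only [map_star]; exact (h x).star)

lemma inter_tail {B : Type*} [CStarAlgebra B] (f : ℕ → B) (m : ℕ)
    (h : ∀ n, m ≤ n → ‖f (n + 1) - f n‖ ≤ (1 / 2 : ℝ) ^ n) (n : ℕ) (hn : m ≤ n) :
    ‖f n - f m‖ ≤ 2 * (1 / 2 : ℝ) ^ m - 2 * (1 / 2 : ℝ) ^ n := by
  induction n, hn using Nat.le_induction with
  | base => simp
  | succ n hn ih =>
    have h1 := h n hn
    have h2 : ‖f (n + 1) - f m‖ ≤ ‖f (n + 1) - f n‖ + ‖f n - f m‖ := by
      have := norm_add_le (f (n + 1) - f n) (f n - f m)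
      rwa [sub_add_sub_cancel] at this
    rw [pow_succ]
    linarith

lemma inter_tail' {B : Type*} [CStarAlgebra B] (f : ℕ → B) (m : ℕ)
    (h : ∀ n, m ≤ n → ‖f (n + 1) - f n‖ ≤ (1 / 2 : ℝ) ^ n) (n : ℕ) (hn : m ≤ n) :
    ‖f n - f m‖ ≤ 2 * (1 / 2 : ℝ) ^ m := by
  have h1 := inter_tail f m h n hn
  have h2 : 0 ≤ (1 / 2 : ℝ) ^ n := by positivity
  linarith

lemma exists_half_pow_lt {ε : ℝ} (hε : 0 < ε) (k : ℕ) :
    ∃ m, k ≤ m ∧ (1 / 2 : ℝ) ^ m < ε := by
  have h : Tendsto (fun n : ℕ => (1 / 2 : ℝ) ^ n) atTop (𝓝 0) :=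
    tendsto_pow_atTop_nhds_zero_of_lt_one (by norm_num) (by norm_num)
  exact ((eventually_ge_atTop k).and (h.eventually (gt_mem_nhds hε))).exists

/-- the abstract limit argument -/
lemma nonempty_equiv_of_seq {A B : Type*} [CStarAlgebra A] [CStarAlgebra B]
    (φ : ℕ → A →⋆ₐ[ℂ] B) (hφ : ∀ n, Function.Injective (φ n)) (F : ℕ → Finset A)
    (hF : Monotone F) (a : ℕ → A) (ha : DenseRange a) (haF : ∀ n, a n ∈ F (n + 1))
    (b : ℕ → B) (hb : DenseRange b)
    (h1 : ∀ n, ∀ x ∈ F n, ‖φ (n + 1) x - φ n x‖ ≤ (1 / 2 : ℝ) ^ n)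
    (h2 : ∀ n, ∀ j ≤ n, ∃ x ∈ F (n + 1), ‖b j - φ (n + 1) x‖ ≤ (1 / 2 : ℝ) ^ n) :
    Nonempty (A ≃⋆ₐ[ℂ] B) := by
  have hn : ∀ n x, ‖φ n x‖ = ‖x‖ := fun n x => NonUnitalStarAlgHom.norm_map (φ n) (hφ n) x
  have ht : ∀ m, ∀ x ∈ F m, ∀ n, m ≤ n → ‖φ n x - φ m x‖ ≤ 2 * (1 / 2 : ℝ) ^ m :=
    fun m x hx n hmn => inter_tail' (fun n => φ n x) m (fun k hk => h1 k x (hF hk hx)) n hmn
  have hc : ∀ x, CauchySeq fun n => φ n x := by
    intro x
    rw [Metric.cauchySeq_iff']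
    intro ε hε
    obtain ⟨j, hj⟩ := ha.exists_dist_lt x (show 0 < ε / 4 by positivity)
    obtain ⟨m, hm, hm'⟩ := exists_half_pow_lt (show 0 < ε / 4 by positivity) (j + 1)
    refine ⟨m, fun n hmn => ?_⟩
    have e1 := ht m (a j) (hF hm (haF j)) n hmn
    have e2 : φ n x - φ m x =
        φ n (x - a j) + (φ n (a j) - φ m (a j)) - φ m (x - a j) := by
      simp only [map_sub]; abel
    rw [dist_eq_norm] at hj
    rw [dist_eq_norm, e2]
    have e3 := norm_sub_le (φ n (x - a j) + (φ n (a j) - φ m (a j))) (φ m (x - a j))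
    have e4 := norm_add_le (φ n (x - a j)) (φ n (a j) - φ m (a j))
    rw [hn] at e3 e4
    linarith
  choose ψ hψ using fun x => cauchySeq_tendsto_of_complete (hc x)
  let Ψ := limHom φ ψ hψ
  have hΨ : ∀ x, Ψ x = ψ x := fun _ => rfl
  have hnorm : ∀ x, ‖Ψ x‖ = ‖x‖ := fun x =>
    tendsto_nhds_unique (hψ x).norm (by simp only [hn]; exact tendsto_const_nhds)
  have hiso : Isometry Ψ := AddMonoidHomClass.isometry_of_norm Ψ hnorm
  have hcl : IsClosed (Set.range Ψ) := hiso.isClosedEmbedding.isClosed_range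
  have hd : Dense (Set.range Ψ) := by
    rw [Metric.dense_iff]
    intro y ε hε
    obtain ⟨j, hj⟩ := hb.exists_dist_lt y (show 0 < ε / 3 by positivity)
    obtain ⟨m, hm, hm'⟩ := exists_half_pow_lt (show 0 < ε / 3 by positivity) j
    obtain ⟨x, hx, hx'⟩ := h2 m j hm
    have e1 : ‖ψ x - φ (m + 1) x‖ ≤ 2 * (1 / 2 : ℝ) ^ (m + 1) :=
      le_of_tendsto ((hψ x).sub_const _).norm
        ((eventually_ge_atTop (m + 1)).mono fun n hn => ht (m + 1) x hx n hn)
    refine ⟨Ψ x, ?_, x, rfl⟩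
    rw [Metric.mem_ball, dist_comm, dist_eq_norm, hΨ]
    rw [dist_eq_norm] at hj
    have e2 : y - ψ x = (y - b j) + (b j - φ (m + 1) x) - (ψ x - φ (m + 1) x) := by abel
    have e3 := norm_sub_le ((y - b j) + (b j - φ (m + 1) x)) (ψ x - φ (m + 1) x)
    have e4 := norm_add_le (y - b j) (b j - φ (m + 1) x)
    rw [pow_succ] at e1
    rw [e2]
    linarith
  have hs : Function.Surjective Ψ := by
    rw [← Set.range_eq_univ, ← hcl.closure_eq]
    exact hd.closure_eq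
  exact ⟨StarAlgEquiv.ofBijective Ψ ⟨hiso.injective, hs⟩⟩

lemma norm_conj_unitary {B : Type*} [CStarAlgebra B] (w : unitary B) (x : B) :
    ‖(w : B) * x * star (w : B)‖ = ‖x‖ := by
  rw [← Unitary.coe_star, CStarRing.norm_mul_coe_unitary, CStarRing.norm_coe_unitary_mul]

lemma inter_step {A B : Type*} [CStarAlgebra A] [CStarAlgebra B] (θ : A →⋆ₐ[ℂ] B)
    (h : ∀ (F : Finset A) (G : Finset B) (ε : ℝ), 0 < ε → ∃ v ∈ unitary B,
      (∀ a ∈ F, ‖v * θ a - θ a * v‖ ≤ ε) ∧ ∀ b ∈ G, ∃ a, ‖star v * b * v - θ a‖ ≤ ε)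
    (a : ℕ → A) (b : ℕ → B) (n : ℕ) (s : unitary B × Finset A) :
    ∃ t : unitary B × Finset A, s.2 ⊆ t.2 ∧ a n ∈ t.2 ∧
      (∀ x ∈ s.2, ‖(t.1 : B) * θ x * star (t.1 : B) - (s.1 : B) * θ x * star (s.1 : B)‖ ≤
        (1 / 2 : ℝ) ^ n) ∧
      ∀ j ≤ n, ∃ x ∈ t.2, ‖b j - (t.1 : B) * θ x * star (t.1 : B)‖ ≤ (1 / 2 : ℝ) ^ n := by
  classical
  obtain ⟨w, F⟩ := s
  obtain ⟨v, hv, h1, h2⟩ := h F ((Finset.range (n + 1)).image fun j => star (w : B) * b j * w)
    ((1 / 2 : ℝ) ^ n) (by positivity)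
  have h3 : ∀ j, ∃ x, j ≤ n →
      ‖star v * (star (w : B) * b j * w) * v - θ x‖ ≤ (1 / 2 : ℝ) ^ n := by
    intro j
    by_cases hj : j ≤ n
    · obtain ⟨x, hx⟩ := h2 _ (Finset.mem_image_of_mem _
        (Finset.mem_range.2 (Nat.lt_succ_of_le hj)))
      exact ⟨x, fun _ => hx⟩
    · exact ⟨0, fun h => absurd h hj⟩
  choose c hc using h3
  have hvv : v * star v = 1 := hv.2
  have hww : (w : B) * star (w : B) = 1 := w.2.2
  refine ⟨(w * ⟨v, hv⟩, insert (a n) (F ∪ (Finset.range (n + 1)).image c)), ?_, ?_, ?_, ?_⟩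
  · exact Finset.subset_union_left.trans (Finset.subset_insert _ _)
  · exact Finset.mem_insert_self _ _
  · intro x hx
    have e : (w : B) * v * θ x * star ((w : B) * v) - (w : B) * θ x * star (w : B) =
        ((w : B) * (v * θ x - θ x * v)) * star ((w : B) * v) := by
      rw [star_mul]
      have : (w : B) * θ x * star (w : B) = (w : B) * θ x * (v * star v) * star (w : B) := by
        rw [hvv, mul_one]
      rw [this]
      noncomm_ring
    change ‖(w : B) * v * θ x * star ((w : B) * v) - (w : B) * θ x * star (w : B)‖ ≤ _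
    rw [e, CStarRing.norm_mul_mem_unitary _ (Unitary.star_mem (mul_mem w.2 hv)),
      CStarRing.norm_coe_unitary_mul]
    exact h1 x hx
  · intro j hj
    refine ⟨c j, Finset.mem_insert_of_mem (Finset.mem_union_right _
      (Finset.mem_image_of_mem _ (Finset.mem_range.2 (Nat.lt_succ_of_le hj)))), ?_⟩
    have e : b j - (w : B) * v * θ (c j) * star ((w : B) * v) =
        ((w : B) * v) * (star v * (star (w : B) * b j * w) * v - θ (c j)) *
          star ((w : B) * v) := by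
      have : b j = ((w : B) * (v * star v) * star (w : B)) * b j *
          ((w : B) * (v * star v) * star (w : B)) := by
        rw [hvv, mul_one, hww, one_mul, mul_one]
      rw [star_mul]
      conv_lhs => rw [this]
      noncomm_ring
    change ‖b j - (w : B) * v * θ (c j) * star ((w : B) * v)‖ ≤ _
    rw [e]
    exact (norm_conj_unitary (w * ⟨v, hv⟩) _).trans_le (hc j hj)

theorem nonempty_equiv_of_approx {A B : Type*} [CStarAlgebra A] [CStarAlgebra B]
    [TopologicalSpace.SeparableSpace A] [TopologicalSpace.SeparableSpace B]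
    (θ : A →⋆ₐ[ℂ] B) (hθ : Function.Injective θ)
    (h : ∀ (F : Finset A) (G : Finset B) (ε : ℝ), 0 < ε → ∃ v ∈ unitary B,
      (∀ a ∈ F, ‖v * θ a - θ a * v‖ ≤ ε) ∧ ∀ b ∈ G, ∃ a, ‖star v * b * v - θ a‖ ≤ ε) :
    Nonempty (A ≃⋆ₐ[ℂ] B) := by
  obtain ⟨a, ha⟩ := TopologicalSpace.exists_dense_seq A
  obtain ⟨b, hb⟩ := TopologicalSpace.exists_dense_seq B
  choose st hst using inter_step θ h a b
  let s : ℕ → unitary B × Finset A := fun n => Nat.rec (1, ∅) (fun k t => st k t) n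
  let φ : ℕ → A →⋆ₐ[ℂ] B := fun n =>
    ((Unitary.conjStarAlgAut ℂ B (s n).1 : B ≃⋆ₐ[ℂ] B) : B →⋆ₐ[ℂ] B).comp θ
  refine nonempty_equiv_of_seq φ
    (fun n => (Unitary.conjStarAlgAut ℂ B (s n).1).injective.comp hθ) (fun n => (s n).2)
    (monotone_nat_of_le_succ fun n => (hst n (s n)).1) a ha (fun n => (hst n (s n)).2.1) b hb
    (fun n x hx => ?_) (fun n j hj => ?_)
  · exact (hst n (s n)).2.2.1 x hx
  · exact (hst n (s n)).2.2.2 j hj

end Vale.Agent.P101
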