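import Vale.Agent.P101.ZHalf
import Vale.Agent.P101.ZInter

/-!
Absorption of the Jiang-Su algebra.
-/

namespace Vale.Agent.P101

open Filter Topology
open scoped Matrix.Norms.L2Operator

/-- block diagonal matrices -/
noncomputable def blockHom {J J' : Type*} [Fintype J] [DecidableEq J] [Fintype J'] [DecidableEq J']
    {k : ℕ} (e : J × Fin k ≃ J') : (Fin k → Matrix J J ℂ) →⋆ₐ[ℂ] Matrix J' J' ℂ where
  toFun x := Matrix.reindex e e (Matrix.blockDiagonal x)
  map_one' := by rw [Matrix.blockDiagonal_one]; simp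
  map_mul' x y := by
    rw [show x * y = fun i => x i * y i from rfl, Matrix.blockDiagonal_mul]
    simp
  map_zero' := by rw [Matrix.blockDiagonal_zero]; simp
  map_add' x y := by rw [Matrix.blockDiagonal_add]; rfl
  commutes' c := by
    rw [Algebra.algebraMap_eq_smul_one, Algebra.algebraMap_eq_smul_one, Matrix.blockDiagonal_smul,
      Matrix.blockDiagonal_one]
    simp [Matrix.submatrix_smul]
  map_star' x := by
    rw [Matrix.star_eq_conjTranspose, Matrix.conjTranspose_reindex,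
      Matrix.blockDiagonal_conjTranspose]
    rfl

/-- maps in diagonal form with small oscillation are almost conjugations of a constant -/
theorem exists_path_of_diag {p q : ℕ} (G : Finset (dimDrop p q)) {ε : ℝ} (hε : 0 < ε) :
    ∃ δ > 0, ∀ (p' q' : ℕ) (φ : dimDrop p q →⋆ₐ[ℂ] dimDrop p' q'), IsDiagonalForm φ δ →
      ∃ W : C(unitInterval, Matrix (Fin p' × Fin q') (Fin p' × Fin q') ℂ),
        (∀ t, W t ∈ unitary (Matrix (Fin p' × Fin q') (Fin p' × Fin q') ℂ)) ∧ W 0 = 1 ∧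
        ∀ f ∈ G, ∀ t, ‖(φ f).1 t - W t * (φ f).1 0 * star (W t)‖ ≤ ε := by
  have h1 : ∀ f : dimDrop p q, ∀ᶠ δ in 𝓝[>] (0 : ℝ), ∀ x y : unitInterval,
      |(x : ℝ) - y| ≤ δ → ‖f.1 x - f.1 y‖ ≤ ε := by
    intro f
    obtain ⟨δ, hδ, h⟩ := Metric.uniformContinuous_iff.1
      (CompactSpace.uniformContinuous_of_continuous f.1.continuous) ε hε
    filter_upwards [Ioo_mem_nhdsGT hδ] with η hη x y hxy
    rw [← dist_eq_norm]
    exact (h (lt_of_le_of_lt hxy hη.2)).le
  obtain ⟨δ, hδ, hδ0⟩ := (((G.eventually_all).2 fun f _ => h1 f).and self_mem_nhdsWithin).exists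
  refine ⟨δ, hδ0, ?_⟩
  rintro p' q' φ ⟨k, e, u, ξ, hu, hξ, hφ⟩
  refine ⟨star u * ContinuousMap.const _ (u 0), fun t => ?_, (hu 0).1, fun f hf t => ?_⟩
  · exact mul_mem (Unitary.star_mem (hu t)) (hu 0)
  · have e1 : (star u * ContinuousMap.const unitInterval (u 0)) t * (φ f).1 0 *
        star ((star u * ContinuousMap.const unitInterval (u 0)) t) =
        star (u t) * blockHom e (fun i => f.1 (ξ i 0)) * u t := by
      rw [hφ]
      change star (u t) * u 0 * (star (u 0) * blockHom e (fun i => f.1 (ξ i 0)) * u 0) *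
        star (star (u t) * u 0) = _
      rw [star_mul, star_star]
      calc _ = star (u t) * (u 0 * star (u 0)) * blockHom e (fun i => f.1 (ξ i 0)) *
            (u 0 * star (u 0)) * u t := by noncomm_ring
        _ = _ := by rw [(hu 0).2, mul_one, mul_one]
    rw [e1, hφ]
    refine norm_conj_sub_le (hu t) (norm_map_sub_le (blockHom e) ?_)
    exact (pi_norm_le_iff_of_nonneg hε.le).2 fun i => hδ f hf _ _ (hξ i t 0)

/-- almost unitary elements are close to unitaries -/
lemma exists_unitary_near {B : Type*} [CStarAlgebra B] {x : B} (h1 : ‖star x * x - 1‖ < 1)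
    (h2 : ‖x * star x - 1‖ < 1) : ∃ w ∈ unitary B, ‖w - x‖ ≤ ‖star x * x - 1‖ := by
  let := CStarAlgebra.spectralOrder B
  have := CStarAlgebra.spectralOrderedRing B
  set a := star x * x with ha
  have ha0 : 0 ≤ a := star_mul_self_nonneg x
  have hsa : IsSelfAdjoint a := ha0.isSelfAdjoint
  have u1 : IsUnit a := by
    have := (Units.oneSub (1 - a) (by rwa [norm_sub_rev])).isUnit
    simpa using this
  have u2 : IsUnit (x * star x) := by
    have := (Units.oneSub (1 - x * star x) (by rwa [norm_sub_rev])).isUnit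
    simpa using this
  have hx : IsUnit x := by
    obtain ⟨b, hb⟩ := u1.exists_left_inv
    obtain ⟨c, hc⟩ := u2.exists_right_inv
    rw [ha, ← mul_assoc] at hb
    rw [mul_assoc] at hc
    have : b * star x = star x * c := left_inv_eq_right_inv hb hc
    exact ⟨⟨x, star x * c, hc, this ▸ hb⟩, rfl⟩
  have hpos : ∀ t ∈ spectrum ℝ a, 0 < t := fun t ht =>
    lt_of_le_of_ne (spectrum_nonneg_of_nonneg ha0 ht) fun h =>
      (spectrum.zero_notMem_iff ℝ).2 u1 (h ▸ ht)
  have hb : ∀ t ∈ spectrum ℝ a, |t - 1| ≤ ‖a - 1‖ := by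
    intro t ht
    have e : a - 1 = cfc (fun t : ℝ => t - 1) a := by
      rw [cfc_sub .., cfc_id' ℝ a, cfc_const_one ℝ a]
    rw [e]
    exact norm_apply_le_norm_cfc (fun t : ℝ => t - 1) a ht
  have hc : ContinuousOn (fun t : ℝ => (√t)⁻¹) (spectrum ℝ a) :=
    Real.continuous_sqrt.continuousOn.inv₀ fun t ht => (Real.sqrt_pos.2 (hpos t ht)).ne'
  set r := cfc (fun t : ℝ => (√t)⁻¹) a with hr
  have hrs : star r = r := (cfc_predicate (fun t : ℝ => (√t)⁻¹) a).star_eq
  have key : ∀ f : ℝ → ℝ, ContinuousOn f (spectrum ℝ a) →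
      cfc f a * a * cfc f a = cfc (fun t => f t * t * f t) a := by
    intro f hf
    rw [cfc_mul (fun t => f t * t) f a (hf.mul continuousOn_id) hf,
      cfc_mul f (fun t => t) a hf continuousOn_id, cfc_id' ℝ a]
  have e1 : star (x * r) * (x * r) = 1 := by
    calc star (x * r) * (x * r) = r * a * r := by rw [star_mul, hrs, ha]; noncomm_ring
      _ = 1 := by
        rw [hr, key _ hc, ← cfc_const_one ℝ a]
        refine cfc_congr fun t ht => ?_
        have h0 := Real.sqrt_pos.2 (hpos t ht)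
        have h1 := Real.mul_self_sqrt (hpos t ht).le
        field_simp
        nlinarith
  have e0 : IsUnit (x * r) := by
    refine hx.mul ?_
    have : cfc (fun t : ℝ => √t) a * r = 1 := by
      rw [hr, ← cfc_mul _ _ a Real.continuous_sqrt.continuousOn hc, ← cfc_const_one ℝ a]
      exact cfc_congr fun t ht => mul_inv_cancel₀ (Real.sqrt_pos.2 (hpos t ht)).ne'
    have h' : r * cfc (fun t : ℝ => √t) a = 1 := by
      rw [hr, ← cfc_mul _ _ a hc Real.continuous_sqrt.continuousOn, ← cfc_const_one ℝ a]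
      exact cfc_congr fun t ht => inv_mul_cancel₀ (Real.sqrt_pos.2 (hpos t ht)).ne'
    exact ⟨⟨r, _, h', this⟩, rfl⟩
  refine ⟨x * r, ⟨e1, ?_⟩, ?_⟩
  · obtain ⟨c, hc⟩ := e0.exists_right_inv
    rwa [left_inv_eq_right_inv e1 hc]
  · have hc' : ContinuousOn (fun t : ℝ => (√t)⁻¹ - 1) (spectrum ℝ a) := hc.sub continuousOn_const
    have e2 : r - 1 = cfc (fun t : ℝ => (√t)⁻¹ - 1) a := by
      rw [cfc_sub _ _ a hc continuousOn_const, cfc_const_one ℝ a]
    have e3 : star (x * r - x) * (x * r - x) = (r - 1) * a * (r - 1) := by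
      rw [star_sub, star_mul, hrs, ha]; noncomm_ring
    refine (mul_self_le_mul_self_iff (norm_nonneg _) (norm_nonneg _)).2 ?_
    rw [← CStarRing.norm_star_mul_self, e3, e2, key _ hc']
    refine norm_cfc_le (by positivity) fun t ht => ?_
    have h0 := Real.sqrt_pos.2 (hpos t ht)
    have h1 := Real.mul_self_sqrt (hpos t ht).le
    have e4 : ((√t)⁻¹ - 1) * t * ((√t)⁻¹ - 1) = (1 - √t) * (1 - √t) := by
      conv_lhs => rw [show ((√t)⁻¹ - 1) * t = ((√t)⁻¹ - 1) * (√t * √t) by rw [h1]]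
      field_simp
    have e5 : |1 - √t| ≤ |t - 1| := by
      have : t - 1 = (√t - 1) * (√t + 1) := by nlinarith
      rw [this, abs_mul, abs_sub_comm]
      refine le_mul_of_one_le_right (abs_nonneg _) ?_
      rw [abs_of_pos (by linarith)]
      linarith
    rw [e4, Real.norm_eq_abs, abs_mul]
    exact mul_self_le_mul_self (abs_nonneg _) (e5.trans (hb t ht))

/-- unitaries of the ultrapower lift to sequences of unitaries -/
theorem exists_unitary_lift {B : Type*} [CStarAlgebra B] {ω : Ultrafilter ℕ}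
    {u : Ultrapower B ω} (hu : u ∈ unitary (Ultrapower B ω)) :
    ∃ x : BoundedContinuousFunction ℕ B, umk ω x = u ∧ ∀ n, x n ∈ unitary B := by
  obtain ⟨y, rfl⟩ := umk_surjective u
  have h1 : Tendsto (fun n => ‖star (y n) * y n - 1‖) (ω : Filter ℕ) (𝓝 0) := by
    have := hu.1
    rw [← map_star, ← map_mul, ← map_one (umk ω), umk_eq_iff] at this
    exact this
  have h2 : Tendsto (fun n => ‖y n * star (y n) - 1‖) (ω : Filter ℕ) (𝓝 0) := by
    have := hu.2
    rw [← map_star, ← map_mul, ← map_one (umk ω), umk_eq_iff] at this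
    exact this
  have h3 : ∀ n, ∃ w ∈ unitary B, ‖star (y n) * y n - 1‖ < 1 → ‖y n * star (y n) - 1‖ < 1 →
      ‖w - y n‖ ≤ ‖star (y n) * y n - 1‖ := by
    intro n
    by_cases h : ‖star (y n) * y n - 1‖ < 1 ∧ ‖y n * star (y n) - 1‖ < 1
    · obtain ⟨w, hw, hw'⟩ := exists_unitary_near h.1 h.2
      exact ⟨w, hw, fun _ _ => hw'⟩
    · exact ⟨1, one_mem _, fun a b => absurd ⟨a, b⟩ h⟩
  choose w hw hw' using h3
  refine ⟨BoundedContinuousFunction.ofNormedAddCommGroupDiscrete w ‖(1 : B)‖ fun n => ?_, ?_, hw⟩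
  · have := CStarRing.norm_mem_unitary_mul (1 : B) (hw n)
    rw [mul_one] at this
    exact this.le
  · rw [umk_eq_iff]
    refine squeeze_zero' (Eventually.of_forall fun _ => norm_nonneg _) ?_ h1
    filter_upwards [h1.eventually (gt_mem_nhds one_pos), h2.eventually (gt_mem_nhds one_pos)]
      with n a b using hw' n a b

theorem IsJiangSu.separableSpace {Z : Type*} [CStarAlgebra Z] (hZ : IsJiangSu Z) :
    TopologicalSpace.SeparableSpace Z := by
  obtain ⟨p, q, ι, -, -, hd, -⟩ := hZ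
  rw [← TopologicalSpace.isSeparable_univ_iff, ← hd.closure_eq]
  refine TopologicalSpace.IsSeparable.closure (TopologicalSpace.IsSeparable.iUnion fun n => ?_)
  exact TopologicalSpace.isSeparable_range (continuous_starAlgHom (ι n))

theorem IsJiangSu.nontrivial {Z : Type*} [CStarAlgebra Z] (hZ : IsJiangSu Z) : Nontrivial Z := by
  obtain ⟨p, q, ι, hp, hi, -, -⟩ := hZ
  obtain ⟨h1, h2, -⟩ := hp 0
  refine ⟨⟨ι 0 0, ι 0 1, fun h => ?_⟩⟩
  have h3 := congrArg (fun f : dimDrop (p 0) (q 0) =>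
    f.1 0 (⟨0, by omega⟩, ⟨0, by omega⟩) (⟨0, by omega⟩, ⟨0, by omega⟩)) (hi 0 h)
  simp at h3

lemma IsDiagonalForm.mono {p q p' q' : ℕ} {φ : dimDrop p q →⋆ₐ[ℂ] dimDrop p' q'} {δ δ' : ℝ}
    (h : IsDiagonalForm φ δ) (hδ : δ ≤ δ') : IsDiagonalForm φ δ' := by
  obtain ⟨k, e, u, ξ, hu, hξ, hφ⟩ := h
  exact ⟨k, e, u, ξ, hu, fun i x y => (hξ i x y).trans hδ, hφ⟩

theorem exists_unitary_key {A B Z : Type*} [CStarAlgebra A] [CStarAlgebra B]
    [CStarAlgebra Z] (ω : Ultrafilter ℕ) (hZ : IsJiangSu Z)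
    (hF : ∀ p q : ℕ, 2 ≤ p → 2 ≤ q → Nat.Coprime p q →
      Nonempty (dimDrop p q →⋆ₐ[ℂ] centralSeq A ω))
    (θ : A →⋆ₐ[ℂ] B) (β : Z →⋆ₐ[ℂ] B) (hc : ∀ a z, Commute (θ a) (β z))
    (F : Finset A) (T : Finset Z) {η : ℝ} (hη : 0 < η) :
    ∃ v ∈ unitary B, (∀ a ∈ F, ‖v * θ a - θ a * v‖ ≤ η) ∧
      ∀ z ∈ T, ∃ a, ‖star v * β z * v - θ a‖ ≤ η := by
  classical
  obtain ⟨p, q, ι, hp, -, hd, hφ⟩ := hZ
  have h1 : ∀ z : Z, ∀ᶠ m in atTop, ∃ f, ‖z - ι m f‖ ≤ η / 3 := by
    intro z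
    obtain ⟨y, hy, hzy⟩ := Metric.mem_closure_iff.1 (hd z) (η / 3) (by positivity)
    obtain ⟨m, f, rfl⟩ := Set.mem_iUnion.1 hy
    filter_upwards [eventually_gt_atTop m] with n hn
    obtain ⟨φ, h, -⟩ := hφ m n hn
    exact ⟨φ f, by rw [h, ← dist_eq_norm]; exact hzy.le⟩
  obtain ⟨m, hm⟩ := ((T.eventually_all).2 fun z _ => h1 z).exists
  choose! f hf using hm
  obtain ⟨δ, hδ, hW⟩ := exists_path_of_diag (T.image f) (show 0 < η / 12 by positivity)
  obtain ⟨k, hk⟩ := exists_pow_lt_of_lt_one hδ (show (1 / 2 : ℝ) < 1 by norm_num)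
  obtain ⟨φ, hφ1, hφ2⟩ := hφ m (m + k + 1) (by omega)
  obtain ⟨W, hW1, hW0, hW2⟩ := hW _ _ φ (hφ2.mono (by
    rw [show m + k + 1 - m = k + 1 by omega, pow_succ]
    have : (0 : ℝ) < (1 / 2) ^ k := by positivity
    linarith))
  obtain ⟨hp2, hq2, hpq⟩ := hp (m + k + 1)
  obtain ⟨γ⟩ := hF _ _ hp2 hq2 hpq
  let C : StarSubalgebra ℂ (Ultrapower B ω) :=
    StarSubalgebra.centralizer ℂ (Set.range fun a => uconst ω (θ a))
  have hCc : IsClosed (C : Set (Ultrapower B ω)) := isClosed_centralizer _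
  have hC : ∀ x, x ∈ C ↔ ∀ a, uconst ω (θ a) * x = x * uconst ω (θ a) := by
    intro x
    rw [StarSubalgebra.mem_centralizer_iff]
    constructor
    · intro h a
      exact (h _ ⟨a, rfl⟩).1
    · rintro h _ ⟨a, rfl⟩
      refine ⟨h a, ?_⟩
      simpa only [map_star] using h (star a)
  let α : dimDrop (p (m + k + 1)) (q (m + k + 1)) →⋆ₐ[ℂ] C :=
    ((umap ω θ).comp ((centralSeq A ω).subtype.comp γ)).codRestrict C fun g => (hC _).2 fun a => by
      have := congrArg (umap ω θ) (mem_centralSeq.1 (γ g).2 a)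
      simp only [map_mul, umap_uconst] at this
      exact this
  let β' : dimDrop (p (m + k + 1)) (q (m + k + 1)) →⋆ₐ[ℂ] C :=
    ((uconst ω).comp (β.comp (ι (m + k + 1)))).codRestrict C fun g => (hC _).2 fun a =>
      ((hc a _).map (uconst ω)).eq
  have hαβ : ∀ g g', Commute (α g) (β' g') := by
    intro g g'
    refine Subtype.ext ?_
    change umap ω θ (γ g).1 * uconst ω (β (ι _ g')) = uconst ω (β (ι _ g')) * umap ω θ (γ g).1
    obtain ⟨y, hy⟩ := umk_surjective (γ g).1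
    rw [← hy, umap_umk, uconst_apply, ← map_mul, ← map_mul]
    congr 1
    ext n
    exact (hc _ _).eq
  obtain ⟨u, hu, hest⟩ := half_flip (by omega) (by omega) α β' hαβ W hW1 hW0
  obtain ⟨x, hx, hxu⟩ := exists_unitary_lift (map_mem_unitary C.subtype hu)
  have e1 : ∀ a, ∀ᶠ n in (ω : Filter ℕ), ‖x n * θ a - θ a * x n‖ ≤ η := by
    intro a
    have := ((hC _).1 u.2 a).symm
    change C.subtype u * _ = _ * C.subtype u at this
    rw [← hx, uconst_apply, ← map_mul, ← map_mul, umk_eq_iff] at this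
    exact this.eventually (ge_mem_nhds hη)
  have e2 : ∀ z ∈ T, ∀ᶠ n in (ω : Filter ℕ), ∃ a, ‖star (x n) * β z * x n - θ a‖ ≤ η := by
    intro z hz
    have h2 := hest (φ (f z)) (η / 12) (hW2 _ (Finset.mem_image_of_mem f hz))
    obtain ⟨y, hy⟩ := umk_surjective (γ (φ (f z))).1
    have h3 : ‖umk ω (star x * constSeq B (β (ι m (f z))) * x - seqMap θ y)‖ ≤ 4 * (η / 12) := by
      rw [map_sub, map_mul, map_mul, map_star, hx, ← umap_umk, hy, ← uconst_apply, ← hφ1]
      exact h2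
    filter_upwards [(tendsto_norm_umk _).eventually
      (gt_mem_nhds (show _ < 2 * η / 3 from h3.trans_lt (by linarith)))] with n hn
    refine ⟨y n, ?_⟩
    have h4 := norm_conj_sub_le (hxu n) (norm_map_sub_le β (hf z hz))
    calc _ ≤ _ := norm_sub_le_norm_sub_add_norm_sub _ _ _
      _ ≤ η / 3 + 2 * η / 3 := add_le_add h4 hn.le
      _ = η := by ring
  obtain ⟨n, hn1, hn2⟩ := (((F.eventually_all).2 fun a _ => e1 a).and
    ((T.eventually_all).2 e2)).exists
  exact ⟨x n, hxu n, hn1, hn2⟩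

theorem nonempty_equiv_of_dimDrop {A B Z : Type*} [CStarAlgebra A] [CStarAlgebra B]
    [CStarAlgebra Z] [TopologicalSpace.SeparableSpace A] (ω : Ultrafilter ℕ) (hZ : IsJiangSu Z)
    (hF : ∀ p q : ℕ, 2 ≤ p → 2 ≤ q → Nat.Coprime p q →
      Nonempty (dimDrop p q →⋆ₐ[ℂ] centralSeq A ω))
    (θ : A →⋆ₐ[ℂ] B) (hθ : Function.Injective θ) (β : Z →⋆ₐ[ℂ] B)
    (hc : ∀ a z, Commute (θ a) (β z))
    (hd : Dense (Submodule.span ℂ {b : B | ∃ a z, b = θ a * β z} : Set B)) :
    Nonempty (A ≃⋆ₐ[ℂ] B) := by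
  classical
  have := hZ.separableSpace
  have : TopologicalSpace.SeparableSpace B := by
    rw [← TopologicalSpace.isSeparable_univ_iff, ← hd.closure_eq]
    refine (TopologicalSpace.IsSeparable.span ?_).closure
    have e : {b : B | ∃ a z, b = θ a * β z} = Set.range fun x : A × Z => θ x.1 * β x.2 := by
      ext b
      simp [eq_comm]
    rw [e]
    have h1 := continuous_starAlgHom θ
    have h2 := continuous_starAlgHom β
    exact TopologicalSpace.isSeparable_range (by fun_prop)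
  choose v hv hv1 hv2 using fun i : Finset A × Finset Z × ℕ =>
    exists_unitary_key ω hZ hF θ β hc i.1 i.2.1 (Nat.one_div_pos_of_nat (α := ℝ) (n := i.2.2))
  have small : ∀ ε > 0, ∀ᶠ i : Finset A × Finset Z × ℕ in atTop,
      1 / ((i.2.2 : ℝ) + 1) ≤ ε := by
    intro ε hε
    obtain ⟨n, hn⟩ := exists_nat_one_div_lt hε
    filter_upwards [eventually_ge_atTop ((∅ : Finset A), (∅ : Finset Z), n)] with i hi
    exact (Nat.one_div_le_one_div hi.2.2).trans hn.le
  have c1 : ∀ a, ∀ ε > 0, ∀ᶠ i in atTop, ‖v i * θ a - θ a * v i‖ ≤ ε := by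
    intro a ε hε
    filter_upwards [small ε hε, eventually_ge_atTop (({a} : Finset A), (∅ : Finset Z), 0)]
      with i h1 h2
    exact (hv1 i a (h2.1 (Finset.mem_singleton_self a))).trans h1
  have c2 : ∀ z, ∀ ε > 0, ∀ᶠ i in atTop, ∃ a, ‖star (v i) * β z * v i - θ a‖ ≤ ε := by
    intro z ε hε
    filter_upwards [small ε hε, eventually_ge_atTop ((∅ : Finset A), ({z} : Finset Z), 0)]
      with i h1 h2
    obtain ⟨a, ha⟩ := hv2 i z (h2.2.1 (Finset.mem_singleton_self z))
    exact ⟨a, ha.trans h1⟩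
  have c3 : ∀ b ∈ Submodule.span ℂ {b : B | ∃ a z, b = θ a * β z}, ∀ ε > 0,
      ∀ᶠ i in atTop, ∃ a, ‖star (v i) * b * v i - θ a‖ ≤ ε := by
    intro b hb
    induction hb using Submodule.span_induction with
    | mem b hb =>
      obtain ⟨a, z, rfl⟩ := hb
      intro ε hε
      have hK : 0 < ‖θ a‖ + ‖β z‖ + 1 := by positivity
      filter_upwards [c1 a _ (div_pos hε hK), c2 z _ (div_pos hε hK)] with i h1 ⟨a', h2⟩
      refine ⟨a * a', ?_⟩
      have e : star (v i) * (θ a * β z) * v i - θ (a * a') =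
          -(star (v i) * (v i * θ a - θ a * v i) * (star (v i) * β z * v i)) +
            θ a * (star (v i) * β z * v i - θ a') := by
        have e1 := (hv i).1
        have e2 := (hv i).2
        calc _ = star (v i) * (θ a * (v i * star (v i)) * β z) * v i - θ a * θ a' +
              (1 - star (v i) * v i) * (θ a * (star (v i) * β z * v i)) := by
              rw [e1, e2, map_mul]; noncomm_ring
          _ = _ := by noncomm_ring
      rw [e]
      have n1 : ‖star (v i) * (v i * θ a - θ a * v i) * (star (v i) * β z * v i)‖ ≤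
          ε / (‖θ a‖ + ‖β z‖ + 1) * ‖β z‖ := by
        refine (norm_mul_le _ _).trans (mul_le_mul ?_ ?_ (norm_nonneg _) (by positivity))
        · rwa [CStarRing.norm_mem_unitary_mul _ (Unitary.star_mem (hv i))]
        · rw [CStarRing.norm_mul_mem_unitary _ (hv i),
            CStarRing.norm_mem_unitary_mul _ (Unitary.star_mem (hv i))]
      have n2 : ‖θ a * (star (v i) * β z * v i - θ a')‖ ≤ ‖θ a‖ * (ε / (‖θ a‖ + ‖β z‖ + 1)) :=
        (norm_mul_le _ _).trans (mul_le_mul_of_nonneg_left h2 (norm_nonneg _))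
      refine (norm_add_le _ _).trans ?_
      rw [norm_neg]
      refine (add_le_add n1 n2).trans ?_
      rw [mul_comm ‖θ a‖, ← mul_add, div_mul_eq_mul_div, div_le_iff₀ hK]
      nlinarith
    | zero => exact fun ε hε => Eventually.of_forall fun i => ⟨0, by simpa using hε.le⟩
    | add b b' _ _ h h' =>
      intro ε hε
      filter_upwards [h _ (half_pos hε), h' _ (half_pos hε)] with i ⟨a, h1⟩ ⟨a', h2⟩
      refine ⟨a + a', ?_⟩
      rw [show star (v i) * (b + b') * v i - θ (a + a') = (star (v i) * b * v i - θ a) +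
        (star (v i) * b' * v i - θ a') by rw [map_add]; noncomm_ring]
      exact (norm_add_le _ _).trans (by linarith)
    | smul c b _ h =>
      intro ε hε
      have hK : 0 < ‖c‖ + 1 := by positivity
      filter_upwards [h _ (div_pos hε hK)] with i ⟨a, h1⟩
      refine ⟨c • a, ?_⟩
      rw [map_smul, mul_smul_comm, smul_mul_assoc, ← smul_sub, norm_smul]
      refine (mul_le_mul_of_nonneg_left h1 (norm_nonneg c)).trans ?_
      rw [← mul_div_assoc, div_le_iff₀ hK]
      nlinarith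
  have c4 : ∀ b, ∀ ε > 0, ∀ᶠ i in atTop, ∃ a, ‖star (v i) * b * v i - θ a‖ ≤ ε := by
    intro b ε hε
    obtain ⟨b', hb', hbb⟩ := Metric.mem_closure_iff.1 (hd b) _ (half_pos hε)
    filter_upwards [c3 b' hb' _ (half_pos hε)] with i ⟨a, h1⟩
    refine ⟨a, ?_⟩
    rw [dist_eq_norm] at hbb
    have h2 := norm_conj_sub_le (hv i) hbb.le
    exact (norm_sub_le_norm_sub_add_norm_sub _ _ _).trans (by linarith)
  refine nonempty_equiv_of_approx θ hθ fun F G ε hε => ?_
  obtain ⟨i, h1, h2⟩ := (((F.eventually_all).2 fun a _ => c1 a ε hε).and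
    ((G.eventually_all).2 fun b _ => c4 b ε hε)).exists
  exact ⟨v i, hv i, h1, h2⟩

end Vale.Agent.P101
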