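import Vale.Agent.P101.ZBasic

/-!
The unitary on the square implementing the half flip, abstract form.
-/

namespace Vale.Agent.P101

/-- `lam x = x ⊗ 1`, `rho x = 1 ⊗ x` on `(H₁ ⊗ H₂) ⊗ (H₁ ⊗ H₂)`; `σ` flips the two copies of
`H₁`, `τ` flips the two copies of `H₂`; `N₁ = B(H₁) ⊗ 1`, `N₂ = 1 ⊗ B(H₂)`. -/
structure LegData {N M : Type*} [CStarAlgebra N] [CStarAlgebra M] (lam rho : N →⋆ₐ[ℂ] M)
    (σ τ : M) (N₁ N₂ : Set N) : Prop where
  comm : ∀ x y, Commute (lam x) (rho y)
  σ_star : star σ = σ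
  σ_sq : σ * σ = 1
  τ_star : star τ = τ
  τ_sq : τ * τ = 1
  σ_τ : Commute σ τ
  flip : ∀ x, σ * lam x * σ = τ * rho x * τ
  σ_lam : ∀ y ∈ N₂, Commute σ (lam y)
  σ_rho : ∀ y ∈ N₂, Commute σ (rho y)
  τ_lam : ∀ x ∈ N₁, Commute τ (lam x)
  τ_rho : ∀ x ∈ N₁, Commute τ (rho x)

section aux

variable {M : Type*} [CStarAlgebra M]

lemma norm_conj_sub_le {u x y : M} (hu : u ∈ unitary M) {ε : ℝ} (h : ‖x - y‖ ≤ ε) :
    ‖star u * x * u - star u * y * u‖ ≤ ε := by
  rw [← sub_mul, ← mul_sub, CStarRing.norm_mul_mem_unitary _ hu,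
    CStarRing.norm_mem_unitary_mul _ (Unitary.star_mem hu)]
  exact h

lemma norm_sub_conj_le {u x y : M} (hu : u ∈ unitary M) {ε : ℝ}
    (h : ‖x - u * y * star u‖ ≤ ε) : ‖star u * x * u - y‖ ≤ ε := by
  have := norm_conj_sub_le hu h
  rwa [show star u * (u * y * star u) * u = (star u * u) * y * (star u * u) by noncomm_ring,
    hu.1, one_mul, mul_one] at this

lemma conj_eq_of_commute {u x : M} (hu : u ∈ unitary M) (h : Commute u x) :
    star u * x * u = x := by
  rw [mul_assoc, ← h.eq, ← mul_assoc, hu.1, one_mul]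

lemma map_mem_unitary {N : Type*} [CStarAlgebra N] (f : N →⋆ₐ[ℂ] M) {u : N}
    (hu : u ∈ unitary N) : f u ∈ unitary M :=
  ⟨by rw [← map_star, ← map_mul, hu.1, map_one], by rw [← map_star, ← map_mul, hu.2, map_one]⟩

lemma continuous_starAlgHom {N : Type*} [CStarAlgebra N] (f : N →⋆ₐ[ℂ] M) : Continuous f :=
  AddMonoidHomClass.continuous_of_bound f 1 fun x => by
    rw [one_mul]; exact NonUnitalStarAlgHom.norm_apply_le f x

lemma norm_map_sub_le {N : Type*} [CStarAlgebra N] (f : N →⋆ₐ[ℂ] M) {x y : N} {ε : ℝ}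
    (h : ‖x - y‖ ≤ ε) : ‖f x - f y‖ ≤ ε := by
  rw [← map_sub]
  exact (NonUnitalStarAlgHom.norm_apply_le f _).trans h

end aux

namespace LegData

variable {N M : Type*} [CStarAlgebra N] [CStarAlgebra M]
  {lam rho : N →⋆ₐ[ℂ] M} {σ τ : M} {N₁ N₂ : Set N}

lemma σ_mem (h : LegData lam rho σ τ N₁ N₂) : σ ∈ unitary M :=
  ⟨by rw [h.σ_star, h.σ_sq], by rw [h.σ_star, h.σ_sq]⟩

lemma τ_mem (h : LegData lam rho σ τ N₁ N₂) : τ ∈ unitary M :=
  ⟨by rw [h.τ_star, h.τ_sq], by rw [h.τ_star, h.τ_sq]⟩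

lemma flip' (h : LegData lam rho σ τ N₁ N₂) (x : N) : σ * rho x * σ = τ * lam x * τ := by
  have h1 : σ * τ * (τ * rho x * τ) * (τ * σ) = σ * rho x * σ := by
    calc _ = σ * (τ * τ) * rho x * (τ * τ) * σ := by noncomm_ring
      _ = _ := by rw [h.τ_sq, mul_one, mul_one]
  rw [← h1, ← h.flip, h.σ_τ.eq]
  calc τ * σ * (σ * lam x * σ) * (τ * σ) = τ * (σ * σ) * lam x * (σ * (τ * σ)) := by noncomm_ring
    _ = _ := by rw [← h.σ_τ.eq, ← mul_assoc σ σ τ, h.σ_sq, mul_one, one_mul]

lemma σ_lam_σ (h : LegData lam rho σ τ N₁ N₂) {x : N} (hx : x ∈ N₁) :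
    σ * lam x * σ = rho x := by
  rw [h.flip, (h.τ_rho x hx).eq, mul_assoc, h.τ_sq, mul_one]

end LegData

/-- the path conjugated by `rho w` -/
noncomputable def legX {N M : Type*} [CStarAlgebra N] [CStarAlgebra M] (rho : N →⋆ₐ[ℂ] M)
    (σ : M) (w : N) (θ : ℝ) : M := star (rho w) * flipPath σ θ * rho w

/-- the middle part of the unitary -/
noncomputable def legC {N M : Type*} [CStarAlgebra N] [CStarAlgebra M] (rho : N →⋆ₐ[ℂ] M)
    (σ τ : M) (w : N) (z : unitInterval × unitInterval) : M :=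
  if z.1 ≤ z.2 then flipPath τ (min 1 (2 * z.1)) * legX rho σ w (max 0 (2 * z.2 - 1))
  else τ * legX rho σ w (max 0 (2 * z.1 - 1)) * τ * flipPath τ (min 1 (2 * z.2))

namespace LegData

variable {N M : Type*} [CStarAlgebra N] [CStarAlgebra M]
  {lam rho : N →⋆ₐ[ℂ] M} {σ τ : M} {N₁ N₂ : Set N} {w : N}

lemma legX_mem (h : LegData lam rho σ τ N₁ N₂) (hw : w ∈ unitary N) (θ : ℝ) :
    legX rho σ w θ ∈ unitary M :=
  mul_mem (mul_mem (Unitary.star_mem (map_mem_unitary rho hw)) (flipPath_mem_unitary h.σ_star h.σ_sq θ))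
    (map_mem_unitary rho hw)

lemma _root_.Vale.Agent.P101.legX_zero (hw : w ∈ unitary N) : legX rho σ w 0 = 1 := by
  rw [legX, flipPath_zero, mul_one, (map_mem_unitary rho hw).1]

lemma _root_.Vale.Agent.P101.legX_one : legX rho σ w 1 = star (rho w) * σ * rho w := by
  rw [legX, flipPath_one]

lemma _root_.Vale.Agent.P101.continuous_legX : Continuous (legX rho σ w) :=
  (continuous_const.mul (continuous_flipPath σ)).mul continuous_const

lemma legC_mem (h : LegData lam rho σ τ N₁ N₂) (hw : w ∈ unitary N)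
    (z : unitInterval × unitInterval) : legC rho σ τ w z ∈ unitary M := by
  unfold legC
  split_ifs
  · exact mul_mem (flipPath_mem_unitary h.τ_star h.τ_sq _) (h.legX_mem hw _)
  · exact mul_mem (mul_mem (mul_mem h.τ_mem (h.legX_mem hw _)) h.τ_mem)
      (flipPath_mem_unitary h.τ_star h.τ_sq _)

lemma continuous_legC (h : LegData lam rho σ τ N₁ N₂) (hw : w ∈ unitary N) :
    Continuous (legC rho σ τ w) := by
  have h1 := continuous_flipPath τ
  have h2 : Continuous (legX rho σ w) := continuous_legX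
  refine Continuous.if_le (by fun_prop) (by fun_prop) continuous_fst continuous_snd ?_
  rintro ⟨t, s⟩ (rfl : t = s)
  rcases le_total (2 * (t : ℝ)) 1 with ht | ht
  · simp only
    rw [max_eq_left (by linarith), legX_zero hw, mul_one, mul_one, h.τ_sq, one_mul]
  · simp only
    rw [min_eq_left ht, flipPath_one, mul_assoc _ τ τ, h.τ_sq, mul_one]

lemma legX_est (h : LegData lam rho σ τ N₁ N₂) (hw : w ∈ unitary N) {x y : N} (hy : y ∈ N₂)
    {ε : ℝ} (hε : ‖y - w * x * star w‖ ≤ ε) (θ : ℝ) :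
    ‖star (legX rho σ w θ) * rho x * legX rho σ w θ - rho x‖ ≤ 2 * ε := by
  have hr := map_mem_unitary rho hw
  have hf := flipPath_mem_unitary h.σ_star h.σ_sq θ
  have e1 : ‖rho y - rho w * rho x * star (rho w)‖ ≤ ε := by
    simpa only [map_mul, map_star] using norm_map_sub_le rho hε
  have e2 := norm_sub_conj_le hr e1
  have e3 := norm_conj_sub_le hr (norm_conj_sub_le hf e1)
  rw [conj_eq_of_commute hf (Commute.flipPath_left (h.σ_rho y hy) θ)] at e3
  have e4 : star (legX rho σ w θ) * rho x * legX rho σ w θ = star (rho w) *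
      (star (flipPath σ θ) * (rho w * rho x * star (rho w)) * flipPath σ θ) * rho w := by
    simp only [legX, star_mul, star_star, mul_assoc]
  rw [e4]
  rw [norm_sub_rev] at e3
  calc _ ≤ _ := norm_sub_le_norm_sub_add_norm_sub _ (star (rho w) * rho y * rho w) _
    _ ≤ ε + ε := add_le_add e3 e2
    _ = 2 * ε := by ring

lemma legC_est (h : LegData lam rho σ τ N₁ N₂) (hw : w ∈ unitary N) {x y : N} (hx : x ∈ N₁)
    (hy : y ∈ N₂) {ε : ℝ} (hε : ‖y - w * x * star w‖ ≤ ε) (z : unitInterval × unitInterval) :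
    ‖star (legC rho σ τ w z) * rho x * legC rho σ τ w z - rho x‖ ≤ 2 * ε := by
  have hS : ∀ θ, star (flipPath τ θ) * rho x * flipPath τ θ = rho x := fun θ =>
    conj_eq_of_commute (flipPath_mem_unitary h.τ_star h.τ_sq θ)
      (Commute.flipPath_left (h.τ_rho x hx) θ)
  have hτ : star τ * rho x * τ = rho x := conj_eq_of_commute h.τ_mem (h.τ_rho x hx)
  unfold legC
  split_ifs
  · generalize min 1 (2 * (z.1 : ℝ)) = a
    generalize max 0 (2 * (z.2 : ℝ) - 1) = b
    have : star (flipPath τ a * legX rho σ w b) * rho x * (flipPath τ a * legX rho σ w b) =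
        star (legX rho σ w b) * (star (flipPath τ a) * rho x * flipPath τ a) *
          legX rho σ w b := by simp only [star_mul, mul_assoc]
    rw [this, hS]
    exact h.legX_est hw hy hε b
  · generalize min 1 (2 * (z.2 : ℝ)) = a
    generalize max 0 (2 * (z.1 : ℝ) - 1) = b
    have : star (τ * legX rho σ w b * τ * flipPath τ a) * rho x *
        (τ * legX rho σ w b * τ * flipPath τ a) = star (flipPath τ a) * (star τ *
          (star (legX rho σ w b) * (star τ * rho x * τ) * legX rho σ w b) * τ) *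
          flipPath τ a := by simp only [star_mul, mul_assoc]
    rw [this, hτ]
    have e := norm_conj_sub_le (flipPath_mem_unitary h.τ_star h.τ_sq a)
      (norm_conj_sub_le h.τ_mem (h.legX_est hw hy hε b))
    rwa [hτ, hS] at e

lemma legC_zero_left (s : unitInterval) :
    legC rho σ τ w (0, s) = legX rho σ w (max 0 (2 * s - 1)) := by
  rw [legC, if_pos (unitInterval.nonneg' (t := s))]
  simp

lemma legC_zero_right (h : LegData lam rho σ τ N₁ N₂) (hw : w ∈ unitary N) (t : unitInterval) :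
    legC rho σ τ w (t, 0) = τ * legX rho σ w (max 0 (2 * t - 1)) * τ := by
  rw [legC]
  split_ifs with ht
  · have : t = 0 := le_antisymm ht unitInterval.nonneg'
    subst this
    simp [legX_zero hw, h.τ_sq]
  · simp

lemma legC_one_right (t : unitInterval) :
    legC rho σ τ w (t, 1) = flipPath τ (min 1 (2 * t)) * (star (rho w) * σ * rho w) := by
  rw [legC, if_pos (unitInterval.le_one' (t := t))]
  norm_num [legX_one]

lemma legC_one_left (h : LegData lam rho σ τ N₁ N₂) (s : unitInterval) :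
    legC rho σ τ w (1, s) = τ * (star (rho w) * σ * rho w) * τ * flipPath τ (min 1 (2 * s)) := by
  rw [legC]
  split_ifs with hs
  · have : s = 1 := le_antisymm unitInterval.le_one' hs
    subst this
    norm_num [legX_one, mul_assoc, h.τ_sq]
  · norm_num [legX_one]

end LegData

theorem LegData.exists_unitary {N M : Type*} [CStarAlgebra N] [CStarAlgebra M]
    {lam rho : N →⋆ₐ[ℂ] M} {σ τ : M} {N₁ N₂ : Set N} (h : LegData lam rho σ τ N₁ N₂)
    (W : C(unitInterval, N)) (hW : ∀ t, W t ∈ unitary N) (hW0 : W 0 = 1) :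
    ∃ v : C(unitInterval × unitInterval, M), (∀ z, v z ∈ unitary M) ∧
      (∀ s, ∀ y ∈ N₂, Commute (v (0, s)) (lam y)) ∧ (∀ s, ∀ x ∈ N₁, Commute (v (1, s)) (lam x)) ∧
      (∀ t, ∀ y ∈ N₂, Commute (v (t, 0)) (rho y)) ∧ (∀ t, ∀ x ∈ N₁, Commute (v (t, 1)) (rho x)) ∧
      ∀ (g : C(unitInterval, N)) (ε : ℝ), g 0 ∈ N₁ → g 1 ∈ N₂ →
        (∀ t, ‖g t - W t * g 0 * star (W t)‖ ≤ ε) →
        ∀ t s, ‖star (v (t, s)) * lam (g t) * v (t, s) - rho (g s)‖ ≤ 4 * ε := by
  have hlam : Continuous lam := continuous_starAlgHom lam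
  have hrho : Continuous rho := continuous_starAlgHom rho
  have hC := h.continuous_legC (hW 1)
  refine ⟨⟨fun z => lam (W z.1) * σ * legC rho σ τ (W 1) z * star (rho (W z.2)), by fun_prop⟩,
    fun z => ?_, fun s y hy => ?_, fun s x hx => ?_, fun t y hy => ?_, fun t x hx => ?_,
    fun g ε h0 h1 hg t s => ?_⟩
  · exact mul_mem (mul_mem (mul_mem (map_mem_unitary lam (hW _)) h.σ_mem) (h.legC_mem (hW 1) z))
      (Unitary.star_mem (map_mem_unitary rho (hW _)))
  · simp only [ContinuousMap.coe_mk, hW0, map_one, one_mul, LegData.legC_zero_left, legX,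
      ← map_star]
    exact ((h.σ_lam y hy).mul_left (((h.comm _ _).symm.mul_left
      (Commute.flipPath_left (h.σ_lam y hy) _)).mul_left (h.comm _ _).symm)).mul_left
      (h.comm _ _).symm
  · simp only [ContinuousMap.coe_mk, h.legC_one_left, ← map_star]
    have e : lam (W 1) * σ * (τ * (rho (star (W 1)) * σ * rho (W 1)) * τ *
        flipPath τ (min 1 (2 * s))) = τ * rho (W 1) * τ * flipPath τ (min 1 (2 * s)) := by
      have e1 : τ * (rho (star (W 1)) * σ * rho (W 1)) =
          (τ * rho (star (W 1)) * τ) * (τ * σ) * rho (W 1) := by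
        calc _ = τ * rho (star (W 1)) * (τ * τ) * σ * rho (W 1) := by
              rw [h.τ_sq]; noncomm_ring
          _ = _ := by noncomm_ring
      rw [e1, ← h.flip, ← h.σ_τ.eq]
      calc _ = lam (W 1) * (σ * σ) * lam (star (W 1)) * (σ * σ) * τ * rho (W 1) * τ *
            flipPath τ (min 1 (2 * s)) := by noncomm_ring
        _ = _ := by rw [h.σ_sq, mul_one, mul_one, ← map_mul, (hW 1).2, map_one, one_mul]
    rw [e]
    exact ((((h.τ_lam x hx).mul_left (h.comm _ _).symm).mul_left (h.τ_lam x hx)).mul_left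
      (Commute.flipPath_left (h.τ_lam x hx) _)).mul_left (h.comm _ _).symm
  · simp only [ContinuousMap.coe_mk, hW0, map_one, star_one, mul_one, h.legC_zero_right (hW 1),
      legX, ← map_star]
    have e : ∀ θ, τ * (rho (star (W 1)) * flipPath σ θ * rho (W 1)) * τ =
        (σ * lam (star (W 1)) * σ) * flipPath σ θ * (σ * lam (W 1) * σ) := by
      intro θ
      rw [h.flip, h.flip]
      have e1 : τ * flipPath σ θ * τ = flipPath σ θ := by
        rw [← (Commute.flipPath_left h.σ_τ θ).eq, mul_assoc, h.τ_sq, mul_one]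
      calc _ = τ * (rho (star (W 1)) * (τ * flipPath σ θ * τ) * rho (W 1)) * τ := by rw [e1]
        _ = _ := by noncomm_ring
    rw [e]
    have hσ := h.σ_rho y hy
    exact ((h.comm _ _).mul_left hσ).mul_left ((((hσ.mul_left (h.comm _ _)).mul_left hσ).mul_left
      (Commute.flipPath_left hσ _)).mul_left ((hσ.mul_left (h.comm _ _)).mul_left hσ))
  · simp only [ContinuousMap.coe_mk, LegData.legC_one_right, ← map_star]
    have e : lam (W t) * σ * (flipPath τ (min 1 (2 * t)) * (rho (star (W 1)) * σ * rho (W 1))) *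
        rho (star (W 1)) = lam (W t) * flipPath τ (min 1 (2 * t)) *
          (τ * lam (star (W 1)) * τ) := by
      rw [← h.flip']
      calc _ = lam (W t) * (σ * flipPath τ (min 1 (2 * t))) * rho (star (W 1)) * σ *
            (rho (W 1) * rho (star (W 1))) := by noncomm_ring
        _ = _ := by
          rw [← map_mul, (hW 1).2, map_one rho, ← (Commute.flipPath_left h.σ_τ.symm _).eq]
          noncomm_ring
    rw [e]
    have hτ := h.τ_rho x hx
    exact ((h.comm _ _).mul_left (Commute.flipPath_left hτ _)).mul_left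
      ((hτ.mul_left (h.comm _ _)).mul_left hτ)
  · simp only [ContinuousMap.coe_mk]
    set c := legC rho σ τ (W 1) (t, s)
    have hc : c ∈ unitary M := h.legC_mem (hW 1) _
    have hl := map_mem_unitary lam (hW t)
    have hr := map_mem_unitary rho (hW s)
    have e1 : ‖star (lam (W t)) * lam (g t) * lam (W t) - lam (g 0)‖ ≤ ε :=
      norm_sub_conj_le hl (by simpa only [map_mul, map_star] using norm_map_sub_le lam (hg t))
    have e2 := norm_conj_sub_le h.σ_mem e1
    rw [h.σ_star, h.σ_lam_σ h0] at e2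
    have e3 := norm_conj_sub_le (Unitary.star_mem hr) (norm_conj_sub_le hc e2)
    have e4 := norm_conj_sub_le (Unitary.star_mem hr) (h.legC_est (hW 1) h0 h1 (hg 1) (t, s))
    have e5 : ‖star (star (rho (W s))) * rho (g 0) * star (rho (W s)) - rho (g s)‖ ≤ ε := by
      rw [norm_sub_rev, star_star]
      simpa only [map_mul, map_star] using norm_map_sub_le rho (hg s)
    have e6 : star (lam (W t) * σ * c * star (rho (W s))) * lam (g t) *
        (lam (W t) * σ * c * star (rho (W s))) = star (star (rho (W s))) * (star c *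
          (σ * (star (lam (W t)) * lam (g t) * lam (W t)) * σ) * c) * star (rho (W s)) := by
      simp only [star_mul, h.σ_star, mul_assoc]
    rw [e6]
    calc _ ≤ _ := norm_sub_le_norm_sub_add_norm_sub _ _ _
      _ ≤ ε + (2 * ε + ε) := add_le_add e3
        ((norm_sub_le_norm_sub_add_norm_sub _ _ _).trans (add_le_add e4 e5))
      _ = 4 * ε := by ring

end Vale.Agent.P101
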