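import Vale.Agent.P101.ZTens
import Vale.Agent.P101.ZHalfAlg

/-!
The approximately inner half flip.
-/

namespace Vale.Agent.P101

open scoped Matrix.Norms.L2Operator

/-- the permutation matrix -/
noncomputable def permM {J : Type*} [DecidableEq J] (T : J ≃ J) : Matrix J J ℂ :=
  T.toPEquiv.toMatrix

section perm

variable {J : Type*} [Fintype J] [DecidableEq J] {T : J ≃ J}

lemma permM_mul (X : Matrix J J ℂ) : permM T * X = X.submatrix T id :=
  PEquiv.toMatrix_toPEquiv_mul T X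

lemma mul_permM (X : Matrix J J ℂ) : X * permM T = X.submatrix id T.symm :=
  PEquiv.mul_toMatrix_toPEquiv X T

lemma permM_conj (hT : T.symm = T) (X : Matrix J J ℂ) :
    permM T * X * permM T = X.submatrix T T := by
  rw [permM_mul, mul_permM, hT]
  rfl

omit [Fintype J] in
lemma permM_apply (x y : J) : permM T x y = if y = T x then 1 else 0 := by
  simp [permM, PEquiv.toMatrix_apply, eq_comm]

omit [Fintype J] in
lemma star_permM (hT : T.symm = T) : star (permM T) = permM T := by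
  ext x y
  rw [Matrix.star_apply, permM_apply, permM_apply]
  have : x = T y ↔ y = T x := by
    rw [← Equiv.symm_apply_eq, hT, eq_comm]
  by_cases h : y = T x
  · rw [if_pos h, if_pos (this.2 h), star_one]
  · rw [if_neg h, if_neg (mt this.1 h), star_zero]

lemma permM_sq (hT : T.symm = T) : permM T * permM T = 1 := by
  rw [permM_mul]
  ext x y
  have : T (T x) = x := by
    conv_lhs => rw [← hT]
    rw [hT, ← Equiv.eq_symm_apply, hT]
  simp [permM_apply, this, Matrix.one_apply, eq_comm]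

lemma commute_permM (hT : T.symm = T) {X : Matrix J J ℂ} (h : X.submatrix T T = X) :
    Commute (permM T) X := by
  have h1 := permM_conj hT X
  rw [h] at h1
  change permM T * X = X * permM T
  calc permM T * X = permM T * X * (permM T * permM T) := by rw [permM_sq hT, mul_one]
    _ = X * permM T := by rw [← mul_assoc, h1]

end perm

/-- exchange of the first legs -/
def swapFst (P Q : Type*) : (P × Q) × (P × Q) ≃ (P × Q) × (P × Q) where
  toFun x := ((x.2.1, x.1.2), (x.1.1, x.2.2))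
  invFun x := ((x.2.1, x.1.2), (x.1.1, x.2.2))
  left_inv _ := rfl
  right_inv _ := rfl

/-- exchange of the second legs -/
def swapSnd (P Q : Type*) : (P × Q) × (P × Q) ≃ (P × Q) × (P × Q) where
  toFun x := ((x.1.1, x.2.2), (x.2.1, x.1.2))
  invFun x := ((x.1.1, x.2.2), (x.2.1, x.1.2))
  left_inv _ := rfl
  right_inv _ := rfl

open scoped Kronecker in
lemma commute_kL_kR {P Q : Type*} [Fintype P] [DecidableEq P] [Fintype Q] [DecidableEq Q]
    (x : Matrix P P ℂ) (y : Matrix Q Q ℂ) : Commute (kL P Q x) (kR P Q y) := by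
  have h1 : kL P Q x = x ⊗ₖ (1 : Matrix Q Q ℂ) := by
    ext a b
    by_cases h : a.2 = b.2 <;> simp [kap_apply, Matrix.kroneckerMap_apply, Matrix.one_apply, h]
  have h2 : kR P Q y = (1 : Matrix P P ℂ) ⊗ₖ y := by
    ext a b
    by_cases h : a.1 = b.1 <;> simp [kap_apply, Matrix.kroneckerMap_apply, Matrix.one_apply, h]
  rw [h1, h2, Commute, SemiconjBy, ← Matrix.mul_kronecker_mul, ← Matrix.mul_kronecker_mul,
    mul_one, mul_one, one_mul, one_mul]

lemma legData (P Q : Type*) [Fintype P] [DecidableEq P] [Fintype Q] [DecidableEq Q] :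
    LegData (kL (P × Q) (P × Q)) (kR (P × Q) (P × Q)) (permM (swapFst P Q)) (permM (swapSnd P Q))
      (Set.range (kL P Q)) (Set.range (kR P Q)) where
  comm := commute_kL_kR
  σ_star := star_permM rfl
  σ_sq := permM_sq rfl
  τ_star := star_permM rfl
  τ_sq := permM_sq rfl
  σ_τ := commute_permM rfl (by
    ext ⟨⟨a, b⟩, c, d⟩ ⟨⟨a', b'⟩, c', d'⟩
    simp only [permM_apply, swapFst, swapSnd, Matrix.submatrix_apply, Equiv.coe_fn_mk,
      Prod.mk.injEq]
    congr 1
    exact propext (by tauto))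
  flip x := by
    rw [permM_conj rfl, permM_conj rfl]
    ext ⟨⟨a, b⟩, c, d⟩ ⟨⟨a', b'⟩, c', d'⟩
    simp [kap_apply, swapFst, swapSnd]
  σ_lam := by
    rintro _ ⟨y, rfl⟩
    refine commute_permM rfl ?_
    ext ⟨⟨a, b⟩, c, d⟩ ⟨⟨a', b'⟩, c', d'⟩
    by_cases h1 : a = a' <;> by_cases h2 : c = c' <;> simp [kap_apply, swapFst, h1, h2]
  σ_rho := by
    rintro _ ⟨y, rfl⟩
    refine commute_permM rfl ?_
    ext ⟨⟨a, b⟩, c, d⟩ ⟨⟨a', b'⟩, c', d'⟩
    by_cases h1 : a = a' <;> by_cases h2 : c = c' <;> simp [kap_apply, swapFst, h1, h2]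
  τ_lam := by
    rintro _ ⟨y, rfl⟩
    refine commute_permM rfl ?_
    ext ⟨⟨a, b⟩, c, d⟩ ⟨⟨a', b'⟩, c', d'⟩
    by_cases h1 : b = b' <;> by_cases h2 : d = d' <;> simp [kap_apply, swapSnd, h1, h2]
  τ_rho := by
    rintro _ ⟨y, rfl⟩
    refine commute_permM rfl ?_
    ext ⟨⟨a, b⟩, c, d⟩ ⟨⟨a', b'⟩, c', d'⟩
    by_cases h1 : b = b' <;> by_cases h2 : d = d' <;> simp [kap_apply, swapSnd, h1, h2]

instance isClosed_sqAlg (p q : ℕ) : IsClosed (sqAlg p q : Set C(unitInterval × unitInterval,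
    Matrix ((Fin p × Fin q) × (Fin p × Fin q)) ((Fin p × Fin q) × (Fin p × Fin q)) ℂ)) := by
  have key : ∀ (z : unitInterval × unitInterval) (Y : Matrix ((Fin p × Fin q) × (Fin p × Fin q))
      ((Fin p × Fin q) × (Fin p × Fin q)) ℂ), IsClosed {v : C(unitInterval × unitInterval,
        Matrix ((Fin p × Fin q) × (Fin p × Fin q)) ((Fin p × Fin q) × (Fin p × Fin q)) ℂ) |
          Commute (v z) Y} := fun z Y =>
    isClosed_eq ((continuous_eval_const z).mul continuous_const)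
      (continuous_const.mul (continuous_eval_const z))
  change IsClosed {v | _ ∧ _ ∧ _ ∧ _}
  simp only [Set.ofPred_and, Set.ofPred_forall]
  exact (isClosed_iInter fun _ => isClosed_iInter fun _ => key _ _).inter
    ((isClosed_iInter fun _ => isClosed_iInter fun _ => key _ _).inter
    ((isClosed_iInter fun _ => isClosed_iInter fun _ => key _ _).inter
    (isClosed_iInter fun _ => isClosed_iInter fun _ => key _ _)))

noncomputable instance cstarAlgebraSqAlg (p q : ℕ) : CStarAlgebra (sqAlg p q) :=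
  StarSubalgebra.cstarAlgebra _

theorem half_flip {C : Type*} [CStarAlgebra C] {p q : ℕ} (hp : 0 < p) (hq : 0 < q)
    (α β : dimDrop p q →⋆ₐ[ℂ] C) (hc : ∀ f g, Commute (α f) (β g))
    (W : C(unitInterval, Matrix (Fin p × Fin q) (Fin p × Fin q) ℂ))
    (hW : ∀ t, W t ∈ unitary (Matrix (Fin p × Fin q) (Fin p × Fin q) ℂ)) (hW0 : W 0 = 1) :
    ∃ u ∈ unitary C, ∀ (g : dimDrop p q) (ε : ℝ),
      (∀ t, ‖g.1 t - W t * g.1 0 * star (W t)‖ ≤ ε) → ‖star u * β g * u - α g‖ ≤ 4 * ε := by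
  obtain ⟨Φ, hβ, hα⟩ := exists_sqHom hp hq α β hc
  have L := legData (Fin p) (Fin q)
  obtain ⟨v, hv, v1, v2, v3, v4, hest⟩ := L.exists_unitary W hW hW0
  let V : sqAlg p q := ⟨v, fun s y => v1 s _ ⟨y, rfl⟩, fun s y => v2 s _ ⟨y, rfl⟩,
    fun s y => v3 s _ ⟨y, rfl⟩, fun s y => v4 s _ ⟨y, rfl⟩⟩
  have hV : V ∈ unitary (sqAlg p q) :=
    ⟨Subtype.ext (ContinuousMap.ext fun z => (hv z).1),
      Subtype.ext (ContinuousMap.ext fun z => (hv z).2)⟩
  refine ⟨Φ V, map_mem_unitary Φ hV, fun g ε hg => ?_⟩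
  obtain ⟨⟨c₀, h0⟩, c₁, h1⟩ := mem_dimDrop.1 g.2
  have hLR : ∀ (x : Matrix (Fin p) (Fin p) ℂ) (y : Matrix (Fin q) (Fin q) ℂ),
      Commute (kL (Fin p) (Fin q) x) (kR (Fin p) (Fin q) y) := commute_kL_kR
  have hl := continuous_starAlgHom (kL (Fin p × Fin q) (Fin p × Fin q))
  have hr := continuous_starAlgHom (kR (Fin p × Fin q) (Fin p × Fin q))
  let Lg : sqAlg p q := ⟨⟨fun z => kL _ _ (g.1 z.1), by fun_prop⟩,
    fun s y => by
      simp only [ContinuousMap.coe_mk, h0]
      exact (hLR c₀ y).map (kL (Fin p × Fin q) (Fin p × Fin q)),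
    fun s x => by
      simp only [ContinuousMap.coe_mk, h1]
      exact (hLR x c₁).symm.map (kL (Fin p × Fin q) (Fin p × Fin q)),
    fun t y => L.comm _ _, fun t x => L.comm _ _⟩
  let Rg : sqAlg p q := ⟨⟨fun z => kR _ _ (g.1 z.2), by fun_prop⟩,
    fun s y => (L.comm _ _).symm, fun s x => (L.comm _ _).symm,
    fun t y => by
      simp only [ContinuousMap.coe_mk, h0]
      exact (hLR c₀ y).map (kR (Fin p × Fin q) (Fin p × Fin q)),
    fun t x => by
      simp only [ContinuousMap.coe_mk, h1]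
      exact (hLR x c₁).symm.map (kR (Fin p × Fin q) (Fin p × Fin q))⟩
  rw [← hβ g Lg (fun _ _ => rfl), ← hα g Rg (fun _ _ => rfl), ← map_star, ← map_mul, ← map_mul]
  refine norm_map_sub_le Φ ?_
  have hε : 0 ≤ ε := (norm_nonneg _).trans (hg 0)
  change ‖(star V * Lg * V - Rg).1‖ ≤ _
  refine (ContinuousMap.norm_le _ (by positivity)).2 fun z => ?_
  exact hest g.1 ε ⟨c₀, h0.symm⟩ ⟨c₁, h1.symm⟩ hg z.1 z.2

end Vale.Agent.P101
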