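import Vale.Agent.P101.ZBasic

/-!
The two embeddings into the spatial tensor product.
-/

namespace Vale.Agent.P101

open scoped TensorProduct

variable {A B H K : Type*} [CStarAlgebra A] [CStarAlgebra B]
  [NormedAddCommGroup H] [InnerProductSpace ℂ H] [CompleteSpace H]
  [NormedAddCommGroup K] [InnerProductSpace ℂ K] [CompleteSpace K]

instance isClosed_spatialTensor (π : A →⋆ₐ[ℂ] (H →L[ℂ] H)) (σ : B →⋆ₐ[ℂ] (K →L[ℂ] K)) :
    IsClosed (spatialTensor π σ : Set (HilbertTensor H K →L[ℂ] HilbertTensor H K)) :=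
  StarSubalgebra.isClosed_topologicalClosure _

noncomputable instance cstarAlgebraSpatialTensor (π : A →⋆ₐ[ℂ] (H →L[ℂ] H))
    (σ : B →⋆ₐ[ℂ] (K →L[ℂ] K)) : CStarAlgebra (spatialTensor π σ) :=
  StarSubalgebra.cstarAlgebra _

namespace ZSpatial

open UniformSpace

omit [CompleteSpace H] [CompleteSpace K]

/-- the inclusion of the algebraic tensor product -/
noncomputable def emb (x : H ⊗[ℂ] K) : HilbertTensor H K := (x : Completion (H ⊗[ℂ] K))

lemma op_emb (S : H →L[ℂ] H) (T : K →L[ℂ] K) (x : H ⊗[ℂ] K) :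
    opTensor S T (emb x) = emb (TensorProduct.mapL S T x) :=
  ContinuousLinearMap.completion_apply_coe _ x

lemma emb_add (x y : H ⊗[ℂ] K) : emb (x + y) = emb x + emb y := Completion.coe_add x y

lemma emb_smul (c : ℂ) (x : H ⊗[ℂ] K) : emb (c • x) = c • emb x := Completion.coe_smul c x

lemma emb_inner (x y : H ⊗[ℂ] K) : inner ℂ (emb x) (emb y) = inner ℂ x y :=
  Completion.inner_coe x y

lemma dense_emb : DenseRange (emb : H ⊗[ℂ] K → HilbertTensor H K) := Completion.denseRange_coe

lemma ext_emb {S T : HilbertTensor H K →L[ℂ] HilbertTensor H K}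
    (h : ∀ x, S (emb x) = T (emb x)) : S = T :=
  ContinuousLinearMap.ext fun y =>
    congrFun (dense_emb.equalizer S.continuous T.continuous (funext h)) y

lemma op_mul (S S' : H →L[ℂ] H) (T T' : K →L[ℂ] K) :
    opTensor (S * S') (T * T') = opTensor S T * opTensor S' T' :=
  ext_emb fun x => by
    rw [ContinuousLinearMap.mul_apply, op_emb, op_emb, op_emb, TensorProduct.mapL_mul]; rfl

lemma op_one : opTensor (1 : H →L[ℂ] H) (1 : K →L[ℂ] K) = 1 :=
  ext_emb fun x => by
    rw [op_emb, ContinuousLinearMap.one_def, ContinuousLinearMap.one_def, TensorProduct.mapL_id_id]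
    rfl

lemma op_add_left (S S' : H →L[ℂ] H) (T : K →L[ℂ] K) :
    opTensor (S + S') T = opTensor S T + opTensor S' T :=
  ext_emb fun x => by
    rw [ContinuousLinearMap.add_apply, op_emb, op_emb, op_emb, TensorProduct.mapL_add_left,
      ← emb_add]; rfl

lemma op_add_right (S : H →L[ℂ] H) (T T' : K →L[ℂ] K) :
    opTensor S (T + T') = opTensor S T + opTensor S T' :=
  ext_emb fun x => by
    rw [ContinuousLinearMap.add_apply, op_emb, op_emb, op_emb, TensorProduct.mapL_add_right,
      ← emb_add]; rfl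

lemma op_smul_left (c : ℂ) (S : H →L[ℂ] H) (T : K →L[ℂ] K) :
    opTensor (c • S) T = c • opTensor S T :=
  ext_emb fun x => by
    rw [ContinuousLinearMap.smul_apply, op_emb, op_emb, TensorProduct.mapL_smul_left,
      ← emb_smul]; rfl

lemma op_smul_right (c : ℂ) (S : H →L[ℂ] H) (T : K →L[ℂ] K) :
    opTensor S (c • T) = c • opTensor S T :=
  ext_emb fun x => by
    rw [ContinuousLinearMap.smul_apply, op_emb, op_emb, TensorProduct.mapL_smul_right,
      ← emb_smul]; rfl

lemma op_star [CompleteSpace H] [CompleteSpace K] (S : H →L[ℂ] H) (T : K →L[ℂ] K) :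
    opTensor (star S) (star T) = star (opTensor S T) := by
  rw [ContinuousLinearMap.star_eq_adjoint (opTensor S T)]
  refine (ContinuousLinearMap.eq_adjoint_iff _ _).2 fun x y => ?_
  refine dense_emb.induction_on₂ (p := fun x y => inner ℂ (opTensor (star S) (star T) x) y =
    inner ℂ x (opTensor S T y)) (isClosed_eq (by fun_prop) (by fun_prop)) (fun a b => ?_) x y
  rw [op_emb, op_emb, emb_inner, emb_inner]
  induction a with
  | zero => simp
  | add a a' h h' => rw [map_add, inner_add_left, inner_add_left, h, h']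
  | tmul a a' =>
    induction b with
    | zero => simp
    | add b b' h h' => rw [map_add, inner_add_right, inner_add_right, h, h']
    | tmul b b' =>
      simp [ContinuousLinearMap.star_eq_adjoint, ContinuousLinearMap.adjoint_inner_left]

lemma op_left_eq_zero {S : H →L[ℂ] H} {y : K} (hy : y ≠ 0)
    (h : opTensor S (1 : K →L[ℂ] K) = 0) : S = 0 := by
  ext x
  have h1 : emb (S x ⊗ₜ[ℂ] y) = 0 := by
    have := op_emb S (1 : K →L[ℂ] K) (x ⊗ₜ y)
    rw [h, TensorProduct.mapL_tmul] at this
    exact this.symm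
  have h2 := emb_inner (S x ⊗ₜ[ℂ] y) (S x ⊗ₜ[ℂ] y)
  rw [h1, inner_zero_left, TensorProduct.inner_tmul] at h2
  simpa [hy] using h2.symm

end ZSpatial

open ZSpatial in
theorem exists_embeddings [Nontrivial B] (π : A →⋆ₐ[ℂ] (H →L[ℂ] H))
    (σ : B →⋆ₐ[ℂ] (K →L[ℂ] K)) (hπ : Function.Injective π) (hσ : Function.Injective σ) :
    ∃ (θ : A →⋆ₐ[ℂ] spatialTensor π σ) (β : B →⋆ₐ[ℂ] spatialTensor π σ),
      Function.Injective θ ∧ (∀ a z, Commute (θ a) (β z)) ∧
      Dense (Submodule.span ℂ {b : spatialTensor π σ | ∃ a z, b = θ a * β z} :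
        Set (spatialTensor π σ)) := by
  have hmem : ∀ a b, opTensor (π a) (σ b) ∈ spatialTensor π σ := fun a b =>
    StarSubalgebra.le_topologicalClosure _ (StarAlgebra.subset_adjoin ℂ _ ⟨a, b, rfl⟩)
  let θ : A →⋆ₐ[ℂ] spatialTensor π σ :=
    { toFun := fun a => ⟨_, hmem a 1⟩
      map_one' := Subtype.ext (by simp [op_one])
      map_mul' := fun a b => Subtype.ext (by simp [← op_mul])
      map_zero' := Subtype.ext (by simpa using op_smul_left 0 (1 : H →L[ℂ] H) (1 : K →L[ℂ] K))
      map_add' := fun a b => Subtype.ext (by simp [op_add_left])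
      commutes' := fun c => Subtype.ext (by
        simp [Algebra.algebraMap_eq_smul_one, op_smul_left, op_one])
      map_star' := fun a => Subtype.ext (by simp [← op_star, map_star]) }
  let β : B →⋆ₐ[ℂ] spatialTensor π σ :=
    { toFun := fun b => ⟨_, hmem 1 b⟩
      map_one' := Subtype.ext (by simp [op_one])
      map_mul' := fun a b => Subtype.ext (by simp [← op_mul])
      map_zero' := Subtype.ext (by simpa using op_smul_right 0 (1 : H →L[ℂ] H) (1 : K →L[ℂ] K))
      map_add' := fun a b => Subtype.ext (by simp [op_add_right])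
      commutes' := fun c => Subtype.ext (by
        simp [Algebra.algebraMap_eq_smul_one, op_smul_right, op_one])
      map_star' := fun a => Subtype.ext (by simp [← op_star, map_star]) }
  have h1 : ∀ a z, (θ a * β z).1 = opTensor (π a) (σ z) := fun a z => by
    change opTensor (π a) (σ 1) * opTensor (π 1) (σ z) = _
    simp [← op_mul]
  have h2 : ∀ a z, (β z * θ a).1 = opTensor (π a) (σ z) := fun a z => by
    change opTensor (π 1) (σ z) * opTensor (π a) (σ 1) = _
    simp [← op_mul]
  refine ⟨θ, β, ?_, fun a z => Subtype.ext ((h1 a z).trans (h2 a z).symm), ?_⟩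
  · obtain ⟨y, hy⟩ : ∃ y : K, y ≠ 0 := by
      by_contra hc
      push Not at hc
      exact one_ne_zero (hσ (ContinuousLinearMap.ext fun y => (hc _).trans (hc _).symm) :
        (1 : B) = 0)
    refine (injective_iff_map_eq_zero θ).2 fun a ha => hπ ?_
    have := congrArg Subtype.val ha
    rw [map_zero]
    exact op_left_eq_zero hy (by simpa [θ] using this)
  · rw [Subtype.dense_iff]
    refine closure_mono fun T hT => ?_
    set V := Submodule.span ℂ {b : spatialTensor π σ | ∃ a z, b = θ a * β z} with hV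
    have hmul : ∀ x ∈ V, ∀ y ∈ V, x * y ∈ V := by
      intro x hx y hy
      have := Submodule.mul_mem_mul hx hy
      rw [hV, Submodule.span_mul_span] at this
      refine Submodule.span_mono ?_ this
      rintro _ ⟨_, ⟨a, z, rfl⟩, _, ⟨a', z', rfl⟩, rfl⟩
      refine ⟨a * a', z * z', Subtype.ext ?_⟩
      change (θ a * β z).1 * (θ a' * β z').1 = _
      rw [h1, h1, h1, map_mul, map_mul, op_mul]
    have hstar : ∀ x ∈ V, star x ∈ V := by
      intro x hx
      induction hx using Submodule.span_induction with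
      | mem x hx =>
        obtain ⟨a, z, rfl⟩ := hx
        refine Submodule.subset_span ⟨star a, star z, Subtype.ext ?_⟩
        change star (θ a * β z).1 = _
        rw [h1, h1, map_star, map_star, op_star]
      | zero => simp
      | add x y _ _ hx hy => rw [star_add]; exact V.add_mem hx hy
      | smul c x _ hx => rw [star_smul]; exact V.smul_mem _ hx
    induction hT using StarAlgebra.adjoin_induction with
    | mem x hx =>
      obtain ⟨a, z, rfl⟩ := hx
      exact ⟨_, Submodule.subset_span ⟨a, z, rfl⟩, h1 a z⟩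
    | algebraMap c =>
      refine ⟨c • (θ 1 * β 1), V.smul_mem c (Submodule.subset_span ⟨1, 1, rfl⟩), ?_⟩
      simp [Algebra.algebraMap_eq_smul_one]
    | add x y _ _ hx hy =>
      obtain ⟨x, hx, rfl⟩ := hx
      obtain ⟨y, hy, rfl⟩ := hy
      exact ⟨x + y, V.add_mem hx hy, rfl⟩
    | mul x y _ _ hx hy =>
      obtain ⟨x, hx, rfl⟩ := hx
      obtain ⟨y, hy, rfl⟩ := hy
      exact ⟨x * y, hmul x hx y hy, rfl⟩
    | star x _ hx =>
      obtain ⟨x, hx, rfl⟩ := hx
      exact ⟨star x, hstar x hx, rfl⟩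

end Vale.Agent.P101
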