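import Vale.Agent.P101.Defs

/-!
The C*-algebra structure of the ultrapower and of the central sequence algebra.
-/

namespace Vale.Agent.P101

open Filter Topology

variable {A : Type*} [CStarAlgebra A] {ω : Ultrafilter ℕ}

lemma mem_nullIdeal {x : BoundedContinuousFunction ℕ A} :
    x ∈ nullIdeal A ω ↔ Tendsto (fun n => ‖x n‖) (ω : Filter ℕ) (𝓝 0) := Iff.rfl

instance isClosed_nullIdeal (A : Type*) [CStarAlgebra A] (ω : Ultrafilter ℕ) :
    IsClosed (nullIdeal A ω : Set (BoundedContinuousFunction ℕ A)) := by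
  refine isClosed_of_closure_subset fun x hx => ?_
  change Tendsto (fun n => ‖x n‖) (ω : Filter ℕ) (𝓝 0)
  rw [Metric.tendsto_nhds]
  intro ε hε
  obtain ⟨y, hy, hxy⟩ := Metric.mem_closure_iff.1 hx (ε / 2) (half_pos hε)
  have h1 := Metric.tendsto_nhds.1 (mem_nullIdeal.1 hy) (ε / 2) (half_pos hε)
  filter_upwards [h1] with n hn
  rw [dist_zero_right, norm_norm] at hn ⊢
  have h2 : ‖(x - y) n‖ ≤ ‖x - y‖ := (x - y).norm_coe_le_norm n
  rw [dist_eq_norm] at hxy
  have h3 : x n = (x - y) n + y n := by simp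
  calc ‖x n‖ ≤ ‖(x - y) n‖ + ‖y n‖ := by rw [h3]; simpa using norm_add_le ((x - y) n) (y n)
    _ < ε := by linarith

/-- the quotient map `ℓ^∞(ℕ, A) → A_ω` -/
noncomputable def umk (ω : Ultrafilter ℕ) :
    BoundedContinuousFunction ℕ A →⋆ₐ[ℂ] Ultrapower A ω where
  toAlgHom := Ideal.Quotient.mkₐ ℂ (nullIdeal A ω)
  map_star' _ := rfl

lemma umk_apply (x : BoundedContinuousFunction ℕ A) :
    umk ω x = Ideal.Quotient.mk (nullIdeal A ω) x := rfl

lemma umk_surjective : Function.Surjective (umk ω : _ → Ultrapower A ω) :=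
  Ideal.Quotient.mk_surjective

lemma umk_eq_zero {x : BoundedContinuousFunction ℕ A} :
    umk ω x = 0 ↔ Tendsto (fun n => ‖x n‖) (ω : Filter ℕ) (𝓝 0) :=
  Ideal.Quotient.eq_zero_iff_mem

lemma umk_eq_iff {x y : BoundedContinuousFunction ℕ A} :
    umk ω x = umk ω y ↔ Tendsto (fun n => ‖x n - y n‖) (ω : Filter ℕ) (𝓝 0) := by
  rw [← sub_eq_zero, ← map_sub, umk_eq_zero]
  rfl

lemma norm_umk_le (x : BoundedContinuousFunction ℕ A) : ‖umk ω x‖ ≤ ‖x‖ :=
  Submodule.Quotient.norm_mk_le (nullIdeal A ω) x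

/-- the norm of the ultrapower is the limit of the norms along `ω` -/
lemma tendsto_norm_umk (x : BoundedContinuousFunction ℕ A) :
    Tendsto (fun n => ‖x n‖) (ω : Filter ℕ) (𝓝 ‖umk ω x‖) := by
  obtain ⟨l, -, hl⟩ : ∃ l ∈ Set.Icc (0 : ℝ) ‖x‖,
      Tendsto (fun n => ‖x n‖) (ω : Filter ℕ) (𝓝 l) := by
    have := (isCompact_Icc (a := (0 : ℝ)) (b := ‖x‖)).ultrafilter_le_nhds
      (ω.map fun n => ‖x n‖) (by
        rw [Ultrafilter.coe_map, le_principal_iff, mem_map]
        exact Eventually.of_forall fun n => ⟨norm_nonneg _, x.norm_coe_le_norm n⟩)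
    simpa [Tendsto] using this
  have hl0 : 0 ≤ l := ge_of_tendsto' hl fun _ => norm_nonneg _
  suffices ‖umk ω x‖ = l by rwa [this]
  refine le_antisymm (le_of_forall_pos_le_add fun ε hε => ?_)
    (le_of_forall_pos_le_add fun ε hε => ?_)
  · classical
    let y : BoundedContinuousFunction ℕ A := BoundedContinuousFunction.ofNormedAddCommGroupDiscrete
      (fun n => if ‖x n‖ ≤ l + ε then x n else 0) (l + ε) (fun n => by
        split_ifs with h
        · exact h
        · simp only [norm_zero]; linarith)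
    have hy : ‖y‖ ≤ l + ε := (BoundedContinuousFunction.norm_le (by linarith)).2 fun n => by
      change ‖if ‖x n‖ ≤ l + ε then x n else 0‖ ≤ _
      split_ifs with h
      · exact h
      · simp only [norm_zero]; linarith
    have hxy : umk ω x = umk ω y := by
      rw [umk_eq_iff]
      refine tendsto_const_nhds.congr' ?_
      filter_upwards [hl.eventually (gt_mem_nhds (show l < l + ε by linarith))] with n hn
      change 0 = ‖x n - if ‖x n‖ ≤ l + ε then x n else 0‖
      rw [if_pos hn.le, sub_self, norm_zero]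
    rw [hxy]
    exact (norm_umk_le y).trans hy
  · obtain ⟨y, hy, hy'⟩ := Submodule.Quotient.norm_mk_lt (S := nullIdeal A ω) (umk ω x) hε
    have hxy : umk ω x = umk ω y := hy.symm
    rw [umk_eq_iff] at hxy
    have h1 : Tendsto (fun n => ‖x n - y n‖ + ‖y‖) (ω : Filter ℕ) (𝓝 (0 + ‖y‖)) :=
      hxy.add tendsto_const_nhds
    have h2 : l ≤ 0 + ‖y‖ := le_of_tendsto_of_tendsto' hl h1 fun n => by
      have := norm_add_le (x n - y n) (y n)
      rw [sub_add_cancel] at this
      linarith [y.norm_coe_le_norm n]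
    linarith

noncomputable instance normedRingUltrapower (A : Type*) [CStarAlgebra A] (ω : Ultrafilter ℕ) :
    NormedRing (Ultrapower A ω) where
  __ : Ring (Ultrapower A ω) := inferInstance
  __ : NormedAddCommGroup (Ultrapower A ω) := inferInstance
  norm_mul_le := fun x y => by
    obtain ⟨x, rfl⟩ := umk_surjective x
    obtain ⟨y, rfl⟩ := umk_surjective y
    rw [← map_mul]
    exact le_of_tendsto_of_tendsto' (tendsto_norm_umk (x * y))
      ((tendsto_norm_umk x).mul (tendsto_norm_umk y)) fun n => norm_mul_le (x n) (y n)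

noncomputable instance cstarAlgebraUltrapower (A : Type*) [CStarAlgebra A] (ω : Ultrafilter ℕ) :
    CStarAlgebra (Ultrapower A ω) where
  __ : NormedRing (Ultrapower A ω) := inferInstance
  __ : StarRing (Ultrapower A ω) := inferInstance
  __ : Algebra ℂ (Ultrapower A ω) := inferInstance
  __ : StarModule ℂ (Ultrapower A ω) := inferInstance
  toCompleteSpace := Submodule.Quotient.completeSpace (nullIdeal A ω)
  norm_mul_self_le := fun x => by
    obtain ⟨x, rfl⟩ := umk_surjective x
    rw [← map_star, ← map_mul]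
    exact le_of_tendsto_of_tendsto' ((tendsto_norm_umk x).mul (tendsto_norm_umk x))
      (tendsto_norm_umk (star x * x)) fun n => CStarRing.norm_mul_self_le (x n)
  norm_smul_le := fun c x => by
    obtain ⟨x, rfl⟩ := umk_surjective x
    rw [← map_smul]
    exact le_of_tendsto_of_tendsto' (tendsto_norm_umk (c • x))
      ((tendsto_norm_umk x).const_mul ‖c‖) fun n => norm_smul_le c (x n)

/-- the constant sequences -/
noncomputable def constSeq (A : Type*) [CStarAlgebra A] :
    A →⋆ₐ[ℂ] BoundedContinuousFunction ℕ A where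
  toFun a := BoundedContinuousFunction.const ℕ a
  map_one' := rfl
  map_mul' _ _ := rfl
  map_zero' := rfl
  map_add' _ _ := rfl
  commutes' _ := rfl
  map_star' _ := rfl

@[simp] lemma constSeq_apply (a : A) (n : ℕ) : constSeq A a n = a := rfl

/-- the diagonal embedding `A → A_ω` -/
noncomputable def uconst (ω : Ultrafilter ℕ) : A →⋆ₐ[ℂ] Ultrapower A ω :=
  (umk ω).comp (constSeq A)

lemma uconst_apply (a : A) : uconst ω a = umk ω (constSeq A a) := rfl

lemma isClosed_centralizer {B : Type*} [CStarAlgebra B] (S : Set B) :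
    IsClosed (StarSubalgebra.centralizer ℂ S : Set B) := by
  have : (StarSubalgebra.centralizer ℂ S : Set B) =
      ⋂ g ∈ S, ({z | g * z = z * g} ∩ {z | star g * z = z * star g}) := by
    ext z
    simp only [SetLike.mem_coe, StarSubalgebra.mem_centralizer_iff, Set.mem_iInter,
      Set.mem_inter_iff, Set.mem_ofPred_eq]
  rw [this]
  exact isClosed_biInter fun g _ =>
    (isClosed_eq (by fun_prop) (by fun_prop)).inter (isClosed_eq (by fun_prop) (by fun_prop))

instance isClosed_centralSeq (A : Type*) [CStarAlgebra A] (ω : Ultrafilter ℕ) :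
    IsClosed (centralSeq A ω : Set (Ultrapower A ω)) := isClosed_centralizer _

noncomputable instance cstarAlgebraCentralSeq (A : Type*) [CStarAlgebra A] (ω : Ultrafilter ℕ) :
    CStarAlgebra (centralSeq A ω) := StarSubalgebra.cstarAlgebra _

lemma mem_centralSeq {x : Ultrapower A ω} :
    x ∈ centralSeq A ω ↔ ∀ a : A, uconst ω a * x = x * uconst ω a := by
  rw [centralSeq, StarSubalgebra.mem_centralizer_iff]
  constructor
  · intro h a
    exact (h _ ⟨a, rfl⟩).1
  · rintro h _ ⟨a, rfl⟩
    exact ⟨h a, h (star a)⟩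

lemma umk_mem_centralSeq {x : BoundedContinuousFunction ℕ A} :
    umk ω x ∈ centralSeq A ω ↔
      ∀ a : A, Tendsto (fun n => ‖a * x n - x n * a‖) (ω : Filter ℕ) (𝓝 0) := by
  rw [mem_centralSeq]
  refine forall_congr' fun a => ?_
  rw [uconst_apply, ← map_mul, ← map_mul, umk_eq_iff]
  rfl

section Map

variable {B : Type*} [CStarAlgebra B]

/-- a `*`-homomorphism acting on bounded sequences -/
noncomputable def seqMap (θ : A →⋆ₐ[ℂ] B) :
    BoundedContinuousFunction ℕ A →⋆ₐ[ℂ] BoundedContinuousFunction ℕ B where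
  toFun x := BoundedContinuousFunction.ofNormedAddCommGroupDiscrete (fun n => θ (x n)) ‖x‖
    fun n => (NonUnitalStarAlgHom.norm_apply_le θ (x n)).trans (x.norm_coe_le_norm n)
  map_one' := by ext n; exact map_one θ
  map_mul' x y := by ext n; exact map_mul θ (x n) (y n)
  map_zero' := by ext n; exact map_zero θ
  map_add' x y := by ext n; exact map_add θ (x n) (y n)
  commutes' c := by ext n; exact θ.commutes c
  map_star' x := by ext n; exact map_star θ (x n)

@[simp] lemma seqMap_apply (θ : A →⋆ₐ[ℂ] B) (x : BoundedContinuousFunction ℕ A) (n : ℕ) :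
    seqMap θ x n = θ (x n) := rfl

/-- the `*`-homomorphism induced on ultrapowers -/
noncomputable def umap (ω : Ultrafilter ℕ) (θ : A →⋆ₐ[ℂ] B) :
    Ultrapower A ω →⋆ₐ[ℂ] Ultrapower B ω where
  toAlgHom := Ideal.Quotient.liftₐ (nullIdeal A ω) ((umk ω).comp (seqMap θ)).toAlgHom
    fun x hx => umk_eq_zero.2 (squeeze_zero (fun _ => norm_nonneg _)
      (fun n => NonUnitalStarAlgHom.norm_apply_le θ (x n)) hx)
  map_star' x := by
    obtain ⟨x, rfl⟩ := umk_surjective x
    exact map_star ((umk ω).comp (seqMap θ)) x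

@[simp] lemma umap_umk (θ : A →⋆ₐ[ℂ] B) (x : BoundedContinuousFunction ℕ A) :
    umap ω θ (umk ω x) = umk ω (seqMap θ x) := rfl

@[simp] lemma umap_uconst (θ : A →⋆ₐ[ℂ] B) (a : A) :
    umap ω θ (uconst ω a) = uconst ω (θ a) := rfl

end Map

end Vale.Agent.P101
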