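import Vale.Agent.P101.SDefs
import Vale.Agent.P101.Ultra

/-!
Comparison of the unbundled definitions of the statement with the bundled working definitions.
-/

namespace Vale.Agent.P101

open Filter Topology
open scoped TensorProduct

section Char

variable {A : Type*} [CStarAlgebra A] {ω : Ultrafilter ℕ}

/-- the class in `F_ω(A)` of a central sequence -/
noncomputable def sbCls {x : ℕ → A} (hx : S.IsCentral ω x) : centralSeq A ω :=
  ⟨umk ω (BoundedContinuousFunction.ofNormedAddCommGroupDiscrete x hx.1.choose hx.1.choose_spec),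
    umk_mem_centralSeq.2 fun a => (hx.2 a).congr fun _ => norm_sub_rev _ _⟩

lemma sbCls_eq {x : ℕ → A} (hx : S.IsCentral ω x) (y : BoundedContinuousFunction ℕ A)
    (h : ∀ n, x n = y n) : (sbCls hx : Ultrapower A ω) = umk ω y := by
  change umk ω _ = umk ω y
  congr 1
  ext n
  exact h n

lemma sbCentral (y : BoundedContinuousFunction ℕ A) (hy : umk ω y ∈ centralSeq A ω) :
    S.IsCentral ω y :=
  ⟨⟨‖y‖, y.norm_coe_le_norm⟩, fun a => by
    simpa only [norm_sub_rev] using umk_mem_centralSeq.1 hy a⟩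

theorem noCharacter_of_S (h : S.NoCharacter A ω) : NoCharacter A ω := by
  classical
  intro χ
  let χ' : (ℕ → A) → ℂ := fun x => if hx : S.IsCentral ω x then χ (sbCls hx) else 0
  have key : ∀ (y : BoundedContinuousFunction ℕ A) (hy : umk ω y ∈ centralSeq A ω) (x : ℕ → A),
      (∀ n, x n = y n) → χ' x = χ ⟨umk ω y, hy⟩ := by
    intro y hy x hxy
    have hx : S.IsCentral ω x := by
      rw [show x = y from funext hxy]; exact sbCentral y hy
    simp only [χ', dif_pos hx]
    congr 1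
    exact Subtype.ext (sbCls_eq hx y hxy)
  have rep : ∀ x, S.IsCentral ω x → ∃ (y : BoundedContinuousFunction ℕ A)
      (_ : umk ω y ∈ centralSeq A ω), ∀ n, x n = y n := fun x hx =>
    ⟨_, (sbCls hx).2, fun _ => rfl⟩
  have h0 := h χ' ?_ ?_
  · ext ⟨z, hz⟩
    obtain ⟨y, rfl⟩ := umk_surjective z
    rw [← key y hz y fun _ => rfl, h0 y (sbCentral y hz)]
    rfl
  · intro x hx
    obtain ⟨y, hy, hxy⟩ := rep x hx
    refine ⟨fun x' hx' => ?_, fun c => ?_, ?_⟩
    · obtain ⟨y', hy', hxy'⟩ := rep x' hx'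
      constructor
      · rw [key y hy x hxy, key y' hy' x' hxy', ← map_add,
          key (y + y') (by rw [map_add]; exact add_mem hy hy') (x + x')
            (fun n => by simp [hxy, hxy'])]
        congr 1
      · rw [key y hy x hxy, key y' hy' x' hxy', ← map_mul,
          key (y * y') (by rw [map_mul]; exact mul_mem hy hy') (x * x')
            (fun n => by simp [hxy, hxy'])]
        congr 1
    · rw [key y hy x hxy, ← map_smul,
        key (c • y) (by rw [map_smul]; exact SMulMemClass.smul_mem c hy) (c • x)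
          (fun n => by simp [hxy])]
      congr 1
    · rw [key y hy x hxy, ← map_star,
        key (star y) (by rw [map_star]; exact star_mem hy) (star x)
          (fun n => by simp [hxy])]
      congr 1
  · intro x hx hn
    obtain ⟨y, hy, hxy⟩ := rep x hx
    rw [key y hy x hxy, ← map_zero χ]
    congr 1
    refine Subtype.ext (umk_eq_zero.2 ?_)
    simpa only [← hxy] using hn

end Char

section JS

variable {p q : ℕ}

lemma sb_mem (f : dimDrop p q) : (f.1 : unitInterval → _) ∈ S.dimDrop p q :=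
  ⟨f.1.continuous, f.2.1, f.2.2⟩

/-- bundle an element of the unbundled dimension drop algebra -/
def sbMk {f : unitInterval → Matrix (Fin p × Fin q) (Fin p × Fin q) ℂ} (hf : f ∈ S.dimDrop p q) :
    dimDrop p q := ⟨⟨f, hf.1⟩, hf.2.1, hf.2.2⟩

/-- a star homomorphism out of a dimension drop algebra from unbundled data -/
noncomputable def sbHom {Z : Type*} [Ring Z] [Algebra ℂ Z] [Star Z]
    (ι : (unitInterval → Matrix (Fin p × Fin q) (Fin p × Fin q) ℂ) → Z)
    (h : S.IsStarHomOn (S.dimDrop p q) ι) (h1 : ι 1 = 1) : dimDrop p q →⋆ₐ[ℂ] Z where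
  toFun f := ι f.1
  map_one' := h1
  map_mul' f g := ((h _ (sb_mem f)).1 _ (sb_mem g)).2
  map_zero' := by
    have := (h _ (sb_mem (1 : dimDrop p q))).2.1 0
    rw [zero_smul, zero_smul] at this
    exact this
  map_add' f g := ((h _ (sb_mem f)).1 _ (sb_mem g)).1
  commutes' c := by
    have := (h _ (sb_mem (1 : dimDrop p q))).2.1 c
    rw [Algebra.algebraMap_eq_smul_one, Algebra.algebraMap_eq_smul_one, ← h1]
    exact this
  map_star' f := (h _ (sb_mem f)).2.2

theorem isJiangSu_of_S {Z : Type*} [CStarAlgebra Z] (h : S.IsJiangSu Z) : IsJiangSu Z := by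
  obtain ⟨p, q, ι, h1, h2, h3, h4⟩ := h
  refine ⟨p, q, fun n => sbHom (ι n) (h2 n).1 (h2 n).2.1, h1, fun n f g hfg => ?_, ?_,
    fun m n hmn => ?_⟩
  · exact Subtype.ext (DFunLike.coe_injective ((h2 n).2.2 (sb_mem f) (sb_mem g) hfg))
  · refine h3.mono (Set.iUnion_mono fun n => ?_)
    rintro _ ⟨f, hf, rfl⟩
    exact ⟨sbMk hf, rfl⟩
  · obtain ⟨φ, ⟨k, e, u, ξ, hu, hu', hξ, hξ', hφ⟩, h5⟩ := h4 m n hmn
    have inj := (h2 n).2.2
    have hn := (h2 n).1
    have hm := (h2 m).1
    let ψ : (unitInterval → Matrix (Fin (p m) × Fin (q m)) (Fin (p m) × Fin (q m)) ℂ) →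
        dimDrop (p n) (q n) := fun f => by
      classical exact if hf : f ∈ S.dimDrop (p m) (q m) then sbMk (h5 f hf).1 else 0
    have hψ : ∀ f (hf : f ∈ S.dimDrop (p m) (q m)), ψ f = sbMk (h5 f hf).1 := fun f hf => dif_pos hf
    have hι : ∀ f ∈ S.dimDrop (p m) (q m), ι n (ψ f).1 = ι m f := fun f hf => by
      rw [hψ f hf]; exact (h5 f hf).2
    have ext : ∀ a b : dimDrop (p n) (q n), ι n a.1 = ι n b.1 → a = b := fun a b hab =>
      Subtype.ext (DFunLike.coe_injective (inj (sb_mem a) (sb_mem b) hab))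
    refine ⟨sbHom ψ (fun f hf => ⟨fun g hg => ⟨ext _ _ ?_, ext _ _ ?_⟩, fun c => ext _ _ ?_,
      ext _ _ ?_⟩) (ext _ _ ?_), fun f => hι _ (sb_mem f), k, e, ⟨u, hu⟩, fun i => ⟨ξ i, hξ i⟩,
      fun x => ⟨(hu' x).1, (hu' x).2⟩, hξ', fun f x => ?_⟩
    · rw [hι (f + g) (sb_mem (sbMk hf + sbMk hg)), ((hm f hf).1 g hg).1, ← hι f hf, ← hι g hg]
      exact (((hn _ (sb_mem _)).1 _ (sb_mem _)).1).symm
    · rw [hι (f * g) (sb_mem (sbMk hf * sbMk hg)), ((hm f hf).1 g hg).2, ← hι f hf, ← hι g hg]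
      exact (((hn _ (sb_mem _)).1 _ (sb_mem _)).2).symm
    · rw [hι (c • f) (sb_mem (c • sbMk hf)), (hm f hf).2.1 c, ← hι f hf]
      exact ((hn _ (sb_mem _)).2.1 c).symm
    · rw [hι (star f) (sb_mem (star (sbMk hf))), (hm f hf).2.2, ← hι f hf]
      exact ((hn _ (sb_mem _)).2.2).symm
    · rw [hι 1 (sb_mem 1), (h2 m).2.1]
      exact (h2 n).2.1.symm
    · change (ψ f.1).1 x = _
      rw [hψ _ (sb_mem f)]
      exact hφ _ x

theorem S_isJiangSu_of {Z : Type*} [CStarAlgebra Z] (h : IsJiangSu Z) : S.IsJiangSu Z := by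
  classical
  obtain ⟨p, q, ι, h1, h2, h3, h4⟩ := h
  let ι' : ∀ n, (unitInterval → Matrix (Fin (p n) × Fin (q n)) (Fin (p n) × Fin (q n)) ℂ) → Z :=
    fun n f => if hf : f ∈ S.dimDrop (p n) (q n) then ι n (sbMk hf) else 0
  have key : ∀ n (g : dimDrop (p n) (q n)), ι' n g.1 = ι n g := fun n g => dif_pos (sb_mem g)
  refine ⟨p, q, ι', h1, fun n => ⟨fun f hf => ⟨fun g hg => ⟨?_, ?_⟩, fun c => ?_, ?_⟩, ?_,
    fun f hf g hg hfg => ?_⟩, ?_, fun m n hmn => ?_⟩
  · exact (key n (sbMk hf + sbMk hg)).trans ((map_add _ _ _).trans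
      (congrArg₂ (· + ·) (key n (sbMk hf)).symm (key n (sbMk hg)).symm))
  · exact (key n (sbMk hf * sbMk hg)).trans ((map_mul _ _ _).trans
      (congrArg₂ (· * ·) (key n (sbMk hf)).symm (key n (sbMk hg)).symm))
  · exact (key n (c • sbMk hf)).trans ((map_smul _ _ _).trans
      (congrArg (c • ·) (key n (sbMk hf)).symm))
  · exact (key n (star (sbMk hf))).trans ((map_star _ _).trans
      (congrArg star (key n (sbMk hf)).symm))
  · exact (key n 1).trans (map_one _)
  · have := h2 n ((key n (sbMk hf)).symm.trans (hfg.trans (key n (sbMk hg))))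
    exact congrArg (fun a : dimDrop (p n) (q n) => (a.1 : unitInterval → _)) this
  · refine h3.mono (Set.iUnion_mono fun n => ?_)
    rintro _ ⟨f, rfl⟩
    exact ⟨_, sb_mem f, key n f⟩
  · obtain ⟨φ, h5, k, e, u, ξ, hu, hξ, hφ⟩ := h4 m n hmn
    refine ⟨fun f x => star (u x) * Matrix.reindex e e (Matrix.blockDiagonal fun i => f (ξ i x)) * u x,
      ⟨k, e, u, fun i => ξ i, u.continuous, fun x => ⟨(hu x).1, (hu x).2⟩,
        fun i => (ξ i).continuous, hξ, fun _ _ => rfl⟩, fun f hf => ?_⟩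
    have : (fun x => star (u x) * Matrix.reindex e e (Matrix.blockDiagonal fun i => f (ξ i x)) * u x)
        = ((φ (sbMk hf)).1 : unitInterval → _) := funext fun x => (hφ (sbMk hf) x).symm
    beta_reduce
    rw [this]
    exact ⟨sb_mem _, (key n _).trans ((h5 _).trans (key m (sbMk hf)).symm)⟩

end JS

theorem isoToGenerated_of {A B H K : Type*} [CStarAlgebra A] [CStarAlgebra B]
    [NormedAddCommGroup H] [InnerProductSpace ℂ H] [CompleteSpace H]
    [NormedAddCommGroup K] [InnerProductSpace ℂ K] [CompleteSpace K]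
    (π : A →⋆ₐ[ℂ] (H →L[ℂ] H)) (σ : B →⋆ₐ[ℂ] (K →L[ℂ] K))
    (h : Nonempty (A ≃⋆ₐ[ℂ] spatialTensor π σ)) :
    S.IsoToGenerated A
      {T : UniformSpace.Completion (H ⊗[ℂ] K) →L[ℂ] UniformSpace.Completion (H ⊗[ℂ] K) |
        ∃ a z, T = (TensorProduct.mapL (π a) (σ z)).completion} := by
  obtain ⟨e⟩ := h
  have : ∃ φ : A →⋆ₐ[ℂ] (HilbertTensor H K →L[ℂ] HilbertTensor H K), Function.Injective φ ∧
      Set.range φ = closure (StarAlgebra.adjoin ℂ
        {T : HilbertTensor H K →L[ℂ] HilbertTensor H K | ∃ a b, T = opTensor (π a) (σ b)} : Set _) := by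
    refine ⟨(spatialTensor π σ).subtype.comp (e : A →⋆ₐ[ℂ] spatialTensor π σ),
      Subtype.val_injective.comp e.injective, ?_⟩
    ext T
    constructor
    · rintro ⟨a, rfl⟩
      exact (e a).2
    · intro hT
      exact ⟨e.symm ⟨T, hT⟩, congrArg Subtype.val (e.apply_symm_apply ⟨T, hT⟩)⟩
  exact this

end Vale.Agent.P101
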