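import Vale.Agent.P101.ZBasic

/-!
`C([0,1], B)` is the maximal tensor product of `C([0,1])` and `B`.
-/

namespace Vale.Agent.P101

open Filter Topology

variable {B C : Type*} [CStarAlgebra B] [CStarAlgebra C]

namespace ZCont

open scoped TensorProduct ComplexStarModule

theorem norm_le_of_le [PartialOrder C] [StarOrderedRing C] {s : C} (hs : IsSelfAdjoint s) {M : ℝ}
    (hM : 0 ≤ M) (h1 : s ≤ algebraMap ℝ C M) (h2 : algebraMap ℝ C (-M) ≤ s) : ‖s‖ ≤ M := by
  rcases subsingleton_or_nontrivial C with h | h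
  · simpa [Subsingleton.elim s 0] using hM
  · rw [le_algebraMap_iff_spectrum_le] at h1
    rw [algebraMap_le_iff_le_spectrum] at h2
    rcases CStarAlgebra.norm_or_neg_norm_mem_spectrum hs with h3 | h3
    · exact h1 _ h3
    · exact neg_le_neg_iff.1 (h2 _ h3)

theorem sum_le [PartialOrder C] [StarOrderedRing C] {κ : Type*} [Fintype κ] {p y : κ → C}
    (hp : ∀ k, 0 ≤ p k) (h1 : ∑ k, p k = 1) (hy : ∀ k, IsSelfAdjoint (y k)) {M : ℝ}
    (hM : ∀ k, ‖y k‖ ≤ M) (hc : ∀ k, Commute (p k) (y k)) :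
    ∑ k, p k * y k ≤ algebraMap ℝ C M := by
  have e : algebraMap ℝ C M - ∑ k, p k * y k = ∑ k, p k * (algebraMap ℝ C M - y k) := by
    simp only [mul_sub, Finset.sum_sub_distrib, ← Finset.sum_mul, h1, one_mul]
  rw [← sub_nonneg, e]
  refine Finset.sum_nonneg fun k _ => Commute.mul_nonneg (hp k) ?_
    ((Algebra.commute_algebraMap_right M (p k)).sub_right (hc k))
  rw [sub_nonneg]
  refine (hy k).le_algebraMap_norm_self.trans ?_
  rw [← sub_nonneg, ← map_sub, Algebra.algebraMap_eq_smul_one]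
  exact smul_nonneg (sub_nonneg.2 (hM k)) zero_le_one

theorem norm_sum_le [PartialOrder C] [StarOrderedRing C] {κ : Type*} [Fintype κ] {p y : κ → C}
    (hp : ∀ k, 0 ≤ p k) (h1 : ∑ k, p k = 1) (hy : ∀ k, IsSelfAdjoint (y k)) {M : ℝ} (h0 : 0 ≤ M)
    (hM : ∀ k, ‖y k‖ ≤ M) (hc : ∀ k, Commute (p k) (y k)) : ‖∑ k, p k * y k‖ ≤ M := by
  refine norm_le_of_le ?_ h0 (sum_le hp h1 hy hM hc) ?_
  · refine isSelfAdjoint_sum _ fun k _ => ?_
    rw [IsSelfAdjoint, star_mul, (hy k).star_eq, (IsSelfAdjoint.of_nonneg (hp k)).star_eq,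
      (hc k).eq]
  · have := sum_le hp h1 (fun k => (hy k).neg) (M := M) (fun k => by simpa using hM k)
      fun k => (hc k).neg_right
    simp only [mul_neg, Finset.sum_neg_distrib] at this
    rw [map_neg]
    exact neg_le.1 this

/-- the complex valued Bernstein polynomials -/
noncomputable def bc (n k : ℕ) : C(unitInterval, ℂ) :=
  ⟨fun t => ((bernstein n k t : ℝ) : ℂ), by fun_prop⟩

theorem bc_eq (n k : ℕ) : ∃ s : C(unitInterval, ℂ), bc n k = star s * s := by
  refine ⟨⟨fun t => ((√(bernstein n k t) : ℝ) : ℂ), by fun_prop⟩, ?_⟩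
  ext t
  simp only [bc, ContinuousMap.coe_mk, ContinuousMap.mul_apply, ContinuousMap.star_apply,
    Complex.star_def, Complex.conj_ofReal]
  rw [← Complex.ofReal_mul, Real.mul_self_sqrt bernstein_nonneg]

theorem sum_bc (n : ℕ) : ∑ k : Fin (n + 1), bc n k = 1 := by
  ext t
  simp only [bc, ContinuousMap.coe_sum, Finset.sum_apply, ContinuousMap.coe_mk,
    ContinuousMap.one_apply]
  rw [← Complex.ofReal_sum, bernstein.probability, Complex.ofReal_one]

theorem approx_eq (n : ℕ) (g : C(unitInterval, B)) : bernsteinApproximation n g =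
    ∑ k : Fin (n + 1), bc n k • ContinuousMap.const unitInterval (g (bernstein.z k)) := by
  ext t
  simp [bernsteinApproximation.apply, bc]

theorem approx_eq' (n : ℕ) (φ : C(unitInterval, ℂ)) : bernsteinApproximation n φ =
    ∑ k : Fin (n + 1), φ (bernstein.z k) • bc n k := by
  ext t
  simp [bernsteinApproximation.apply, bc, mul_comm]

variable (γ : C(unitInterval, ℂ) →⋆ₐ[ℂ] C) (ι : B →⋆ₐ[ℂ] C)

theorem norm_bc_le (hc : ∀ φ b, Commute (γ φ) (ι b)) (n : ℕ) (x : Fin (n + 1) → B) {M : ℝ}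
    (h0 : 0 ≤ M) (hM : ∀ k, ‖x k‖ ≤ M) :
    ‖∑ k : Fin (n + 1), γ (bc n k) * ι (x k)‖ ≤ 2 * M := by
  let _ := CStarAlgebra.spectralOrder C
  have := CStarAlgebra.spectralOrderedRing C
  have key : ∀ y : Fin (n + 1) → selfAdjoint B, (∀ k, ‖(y k : B)‖ ≤ M) →
      ‖∑ k : Fin (n + 1), γ (bc n k) * ι (y k)‖ ≤ M := fun y hy =>
    norm_sum_le (fun k => by
        obtain ⟨s, hs⟩ := bc_eq n k
        rw [hs, map_mul, map_star]
        exact star_mul_self_nonneg _)
      (by rw [← map_sum, sum_bc, map_one]) (fun k => (y k).2.map ι) h0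
      (fun k => (NonUnitalStarAlgHom.norm_apply_le ι _).trans (hy k)) fun k => hc _ _
  have e : ∑ k : Fin (n + 1), γ (bc n k) * ι (x k) =
      ∑ k : Fin (n + 1), γ (bc n k) * ι (ℜ (x k) : selfAdjoint B) +
        Complex.I • ∑ k : Fin (n + 1), γ (bc n k) * ι (ℑ (x k) : selfAdjoint B) := by
    rw [Finset.smul_sum, ← Finset.sum_add_distrib]
    refine Finset.sum_congr rfl fun k _ => ?_
    rw [← mul_smul_comm, ← mul_add, ← map_smul, ← map_add, realPart_add_I_smul_imaginaryPart]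
  rw [e, two_mul]
  refine (norm_add_le _ _).trans (add_le_add (key _ fun k => ?_) ?_)
  · exact (realPart.norm_le _).trans (hM k)
  · rw [norm_smul, Complex.norm_I, one_mul]
    exact key _ fun k => (imaginaryPart.norm_le _).trans (hM k)

/-- the constant functions -/
noncomputable def cst : B →⋆ₐ[ℂ] C(unitInterval, B) where
  toFun := ContinuousMap.const unitInterval
  map_one' := rfl
  map_mul' _ _ := rfl
  map_zero' := rfl
  map_add' _ _ := rfl
  commutes' _ := rfl
  map_star' _ := rfl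

/-- the scalar functions -/
noncomputable def scl : C(unitInterval, ℂ) →⋆ₐ[ℂ] C(unitInterval, B) where
  toFun φ := φ • 1
  map_one' := by ext t; simp
  map_mul' φ ψ := by ext t; simp [smul_smul, mul_comm]
  map_zero' := by ext t; simp
  map_add' φ ψ := by ext t; simp [add_smul]
  commutes' r := by ext t; simp [Algebra.algebraMap_eq_smul_one]
  map_star' φ := by ext t; simp

theorem scl_apply (φ : C(unitInterval, ℂ)) (t : unitInterval) : (scl φ : C(_, B)) t = φ t • 1 := rfl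

theorem cst_apply (b : B) (t : unitInterval) : cst b t = b := rfl

theorem scl_mul_cst (φ : C(unitInterval, ℂ)) (b : B) :
    scl φ * cst b = φ • ContinuousMap.const unitInterval b := by
  ext t
  simp [scl_apply, cst_apply]

theorem scl_comm (φ : C(unitInterval, ℂ)) (b : B) : Commute (scl φ) (cst b) := by
  ext t
  simp [scl_apply, cst_apply]

/-- the algebraic tensor product map -/
noncomputable def lft (hc : ∀ φ b, Commute (γ φ) (ι b)) : C(unitInterval, ℂ) ⊗[ℂ] B →ₐ[ℂ] C :=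
  Algebra.TensorProduct.lift (γ : C(unitInterval, ℂ) →ₐ[ℂ] C) (ι : B →ₐ[ℂ] C) hc

theorem lft_tmul (hc : ∀ φ b, Commute (γ φ) (ι b)) (φ : C(unitInterval, ℂ)) (b : B) :
    lft γ ι hc (φ ⊗ₜ b) = γ φ * ι b := rfl

theorem lft_star (hc : ∀ φ b, Commute (γ φ) (ι b)) (x : C(unitInterval, ℂ) ⊗[ℂ] B) :
    lft γ ι hc (star x) = star (lft γ ι hc x) := by
  induction x with
  | zero => simp
  | tmul φ b =>
    rw [TensorProduct.star_tmul, lft_tmul, lft_tmul, star_mul, ← map_star, ← map_star, (hc _ _).eq]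
  | add x y hx hy => rw [star_add, map_add, map_add, star_add, hx, hy]

theorem denseRange_lft : DenseRange (lft (scl (B := B)) cst scl_comm) := by
  intro g
  refine mem_closure_of_tendsto (bernsteinApproximation_uniform g) (Eventually.of_forall fun n => ?_)
  refine ⟨∑ k : Fin (n + 1), bc n k ⊗ₜ g (bernstein.z k), ?_⟩
  simp only [map_sum, lft_tmul, scl_mul_cst, approx_eq]

theorem tendsto_lft (hc : ∀ φ b, Commute (γ φ) (ι b)) (x : C(unitInterval, ℂ) ⊗[ℂ] B) :
    Tendsto (fun n => ∑ k : Fin (n + 1),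
      γ (bc n k) * ι (lft (scl (B := B)) cst scl_comm x (bernstein.z k))) atTop
      (𝓝 (lft γ ι hc x)) := by
  induction x with
  | zero => simp
  | tmul φ b =>
    have hγ : Continuous γ := 
      AddMonoidHomClass.continuous_of_bound γ 1 fun x => by
        simpa using NonUnitalStarAlgHom.norm_apply_le γ x
    have h := (hγ.tendsto _).comp (bernsteinApproximation_uniform φ)
    refine (h.mul_const (ι b)).congr fun n => ?_
    simp [approx_eq', lft_tmul, scl_mul_cst, Finset.sum_mul]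
  | add x y hx hy =>
    rw [map_add (lft γ ι hc)]
    refine (hx.add hy).congr fun n => ?_
    simp [mul_add, Finset.sum_add_distrib]

theorem norm_lft_le (hc : ∀ φ b, Commute (γ φ) (ι b)) (x : C(unitInterval, ℂ) ⊗[ℂ] B) :
    ‖lft γ ι hc x‖ ≤ 2 * ‖lft (scl (B := B)) cst scl_comm x‖ :=
  le_of_tendsto (tendsto_lft γ ι hc x).norm (Eventually.of_forall fun n =>
    norm_bc_le γ ι hc n _ (norm_nonneg _) fun _ => ContinuousMap.norm_coe_le_norm _ _)

theorem exists_ext {E : Type*} [Semiring E] [Algebra ℂ E] (e : E →ₐ[ℂ] B) (f : E →ₐ[ℂ] C)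
    (hd : DenseRange e) (hn : ∀ x, ‖f x‖ ≤ 2 * ‖e x‖)
    (hs : ∀ x, ∃ x', e x' = star (e x) ∧ f x' = star (f x)) :
    ∃ Γ : B →⋆ₐ[ℂ] C, ∀ x, Γ (e x) = f x := by
  let _ : AddCommGroup E := Module.addCommMonoidToAddCommGroup ℂ
  let T : B →L[ℂ] C := f.toLinearMap.extendOfNorm e.toLinearMap
  have hT : ∀ x, T (e x) = f x := fun x =>
    LinearMap.extendOfNorm_eq (f := f.toLinearMap) (e := e.toLinearMap) hd ⟨2, hn⟩ x
  have h1 : T 1 = 1 := by rw [← map_one e, hT, map_one]
  refine ⟨{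
      toFun := T
      map_one' := h1
      map_mul' := fun g k => ?_
      map_zero' := map_zero T
      map_add' := map_add T
      commutes' := fun r => ?_
      map_star' := fun g => ?_ }, hT⟩
  · refine hd.induction_on₂ (p := fun g k => T (g * k) = T g * T k)
      (isClosed_eq (by fun_prop) (by fun_prop)) (fun a b => ?_) g k
    rw [← map_mul, hT, hT, hT, map_mul]
  · rw [Algebra.algebraMap_eq_smul_one, map_smul, h1, Algebra.algebraMap_eq_smul_one]
  · refine hd.induction_on (p := fun g => T (star g) = star (T g)) g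
      (isClosed_eq (by fun_prop) (by fun_prop)) fun a => ?_
    obtain ⟨a', h2, h3⟩ := hs a
    rw [← h2, hT, hT, h3]

theorem exists_ext' (hc : ∀ φ b, Commute (γ φ) (ι b)) : ∃ Γ : C(unitInterval, B) →⋆ₐ[ℂ] C,
    ∀ x, Γ (lft (scl (B := B)) cst scl_comm x) = lft γ ι hc x :=
  exists_ext (lft (scl (B := B)) cst scl_comm) (lft γ ι hc) denseRange_lft (norm_lft_le γ ι hc)
    fun x => ⟨star x, lft_star scl cst scl_comm x, lft_star γ ι hc x⟩

theorem lft_comm (hc : ∀ φ b, Commute (γ φ) (ι b)) {y : C} (hy : ∀ φ, Commute (γ φ) y)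
    (hy' : ∀ b, Commute (ι b) y) (a : C(unitInterval, ℂ) ⊗[ℂ] B) :
    lft γ ι hc a * y = y * lft γ ι hc a := by
  induction a with
  | zero => simp
  | tmul φ b => exact ((hy φ).mul_left (hy' b)).eq
  | add a b ha hb => rw [map_add, add_mul, mul_add, ha, hb]

end ZCont

open ZCont in
theorem exists_contHom (γ : C(unitInterval, ℂ) →⋆ₐ[ℂ] C) (ι : B →⋆ₐ[ℂ] C)
    (hc : ∀ φ b, Commute (γ φ) (ι b)) :
    ∃ Γ : C(unitInterval, B) →⋆ₐ[ℂ] C,
      (∀ φ b, Γ (φ • ContinuousMap.const unitInterval b) = γ φ * ι b) ∧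
      ∀ y, (∀ φ, Commute (γ φ) y) → (∀ b, Commute (ι b) y) → ∀ g, Commute (Γ g) y := by
  obtain ⟨Γ, hΓ⟩ := exists_ext' γ ι hc
  have hcont : Continuous Γ :=
    AddMonoidHomClass.continuous_of_bound Γ 1 fun x => by
      simpa using NonUnitalStarAlgHom.norm_apply_le Γ x
  refine ⟨Γ, fun φ b => ?_, fun y hy hy' g => ?_⟩
  · rw [← scl_mul_cst]
    exact hΓ (φ ⊗ₜ b)
  · exact (denseRange_lft (B := B)).induction_on (p := fun g => Γ g * y = y * Γ g) g
      (isClosed_eq (hcont.mul continuous_const) (continuous_const.mul hcont)) fun a => by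
        rw [hΓ, lft_comm γ ι hc hy hy']

/-- functional calculus of a positive contraction `z = x* x`, `1 - z = y* y` -/
theorem exists_gamma [PartialOrder C] [StarOrderedRing C] {z : C} (h0 : 0 ≤ z) (h1 : z ≤ 1) :
    ∃ γ : C(unitInterval, ℂ) →⋆ₐ[ℂ] C, γ tt = z ∧ ∀ y, Commute z y → ∀ φ, Commute (γ φ) y := by
  have hz : IsSelfAdjoint z := .of_nonneg h0
  have hn : IsStarNormal z := hz.isStarNormal
  let r : C(spectrum ℂ z, unitInterval) :=
    ⟨fun w => Set.projIcc 0 1 zero_le_one (w : ℂ).re, continuous_projIcc.comp (by fun_prop)⟩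
  refine ⟨(cfcHom hn).comp (r.compStarAlgHom' ℂ ℂ), ?_, fun y hy φ => hz.commute_cfcHom hn hy _⟩
  have e : r.compStarAlgHom' ℂ ℂ tt = (ContinuousMap.id ℂ).restrict (spectrum ℂ z) := by
    ext w
    have hw : (w : ℂ).re ∈ spectrum ℝ z := hz.spectrumRestricts.apply_mem w.2
    have hm : (w : ℂ).re ∈ Set.Icc (0 : ℝ) 1 :=
      ⟨spectrum_nonneg_of_nonneg h0 hw, (CFC.le_one_iff (R := ℝ) z).1 h1 _ hw⟩
    change ((Set.projIcc 0 1 zero_le_one (w : ℂ).re : ℝ) : ℂ) = w
    rw [Set.projIcc_of_mem _ hm]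
    exact (hz.mem_spectrum_eq_re w.2).symm
  rw [StarAlgHom.comp_apply, e, cfcHom_id]

end Vale.Agent.P101
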