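import Vale.Agent.P101.ZData
import Vale.Agent.P101.ZCont

/-!
The Rordam-Winter relations give unital homomorphisms from dimension drop algebras.
-/

namespace Vale.Agent.P101

open scoped Matrix.Norms.L2Operator

namespace ZRW

section alg

variable {C : Type*} [Ring C] [StarRing C] {J J₀ J₁ R₀ R₁ : Type*} [DecidableEq J] [Fintype J₀]
  [DecidableEq J₀] [Fintype J₁] [DecidableEq J₁] [Fintype R₀] [Fintype R₁]

/-- the algebraic part of `MData` -/
structure Pre (e₀ : J ≃ J₀ × R₀) (e₁ : J ≃ J₁ × R₁) (z : C)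
    (a : J₀ → J₀ → C) (b : J₁ → J₁ → C) (m : J → J → C) : Prop where
  a_star : ∀ j k, star (a j k) = a k j
  a_mul : ∀ j k l n, a j k * a l n = if k = l then (1 - z) * a j n else 0
  a_sum : ∑ j, a j j = 1 - z
  b_star : ∀ j k, star (b j k) = b k j
  b_mul : ∀ j k l n, b j k * b l n = if k = l then z * b j n else 0
  b_sum : ∑ j, b j j = z
  m_star : ∀ x y, star (m x y) = m y x
  m_mul : ∀ x y v w, m x y * m v w = if y = v then z * (1 - z) * m x w else 0
  m_comm : ∀ x y, Commute z (m x y)
  z_a : ∀ j k, z * a j k = ∑ r, m (e₀.symm (j, r)) (e₀.symm (k, r))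
  z_b : ∀ j k, (1 - z) * b j k = ∑ r, m (e₁.symm (j, r)) (e₁.symm (k, r))

variable {e₀ : J ≃ J₀ × R₀} {e₁ : J ≃ J₁ × R₁} {z : C} {a : J₀ → J₀ → C} {b : J₁ → J₁ → C}
  {m : J → J → C}

lemma Pre.z_sa (h : Pre e₀ e₁ z a b m) : star z = z := by
  rw [← h.b_sum, star_sum]
  simp only [h.b_star]

lemma Pre.a_comm (h : Pre e₀ e₁ z a b m) (j k : J₀) : Commute z (a j k) := by
  have := congrArg star (h.z_a k j)
  rw [star_mul, h.z_sa, h.a_star, star_sum] at this
  simp only [h.m_star] at this
  exact (h.z_a j k).trans this.symm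

lemma Pre.b_comm (h : Pre e₀ e₁ z a b m) (j k : J₁) : Commute z (b j k) := by
  have := congrArg star (h.z_b k j)
  rw [star_mul, star_sub, star_one, h.z_sa, h.b_star, star_sum] at this
  simp only [h.m_star] at this
  have h2 := (h.z_b j k).trans this.symm
  rw [sub_mul, mul_sub, one_mul, mul_one, sub_right_inj] at h2
  exact h2

lemma Pre.scale (h : Pre e₀ e₁ z a b m) {α β : C} (sα : star α = α) (sβ : star β = β)
    (cα : ∀ y, Commute z y → Commute α y) (cβ : ∀ y, Commute z y → Commute β y)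
    (e : 1 - β * z = α * (1 - z)) :
    Pre e₀ e₁ (β * z) (fun j k => α * a j k) (fun j k => β * b j k)
      (fun x y => α * β * m x y) := by
  have zα : Commute z α := (cα z rfl).symm
  have zβ : Commute z β := (cβ z rfl).symm
  have αβ : Commute α β := cα β zβ
  have z1 : Commute z (1 - z) := (Commute.one_right z).sub_right rfl
  have cm : ∀ y, Commute z y → Commute (α * β) y := fun y hy => (cα y hy).mul_left (cβ y hy)
  refine ⟨fun j k => ?_, fun j k l n => ?_, ?_, fun j k => ?_, fun j k l n => ?_, ?_,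
    fun j k => ?_, fun j k l n => ?_, fun j k => ?_, fun j k => ?_, fun j k => ?_⟩
  · rw [star_mul, h.a_star, sα, (cα _ (h.a_comm _ _)).eq]
  · rw [(cα _ (h.a_comm j k)).symm.mul_mul_mul_comm, h.a_mul, e]
    split_ifs
    · rw [(cα _ z1).symm.mul_mul_mul_comm]
    · exact mul_zero _
  · rw [← Finset.mul_sum, h.a_sum, e]
  · rw [star_mul, h.b_star, sβ, (cβ _ (h.b_comm _ _)).eq]
  · rw [(cβ _ (h.b_comm j k)).symm.mul_mul_mul_comm, h.b_mul]
    split_ifs
    · rw [zβ.mul_mul_mul_comm]
    · exact mul_zero _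
  · rw [← Finset.mul_sum, h.b_sum]
  · rw [star_mul, h.m_star, star_mul, sα, sβ, ← αβ.eq, (cm _ (h.m_comm _ _)).eq]
  · rw [(cm _ (h.m_comm j k)).symm.mul_mul_mul_comm, h.m_mul, e]
    split_ifs
    · rw [zα.mul_mul_mul_comm, ← αβ.eq,
        (cm _ ((Commute.refl z).mul_right z1)).symm.mul_mul_mul_comm]
    · exact mul_zero _
  · have := (zα.mul_right zβ).mul_right (h.m_comm j k)
    exact (cβ _ this).mul_left this
  · rw [zα.mul_mul_mul_comm, h.z_a, ← αβ.eq, Finset.mul_sum]
  · rw [e, (cβ _ z1).symm.mul_mul_mul_comm, h.z_b, Finset.mul_sum]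

variable {N : Type*}

/-- the twisting involution -/
def tw : Option N × N → Option N × N
  | (none, c) => (none, c)
  | (some c, r) => (some r, c)

lemma tw_tw (x : Option N × N) : tw (tw x) = x := by
  rcases x with ⟨_ | c, r⟩ <;> rfl

/-- the identification at the left end point -/
def eL (N : Type*) : Option N × N ≃ N × Option N :=
  (⟨tw, tw, tw_tw, tw_tw⟩ : Option N × N ≃ Option N × N).trans (Equiv.prodComm _ _)

variable [Fintype N] [DecidableEq N]

lemma pre_of_RW {o : N} {φ : N → N → C} {v s : C} (h : RW o φ v) (hs : star s = s)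
    (hss : s * s = star v * v) (hc : ∀ i j, Commute s (φ i j))
    (h0 : ∀ y, star v * v * y = 0 → s * y = 0) : ∃ x : Option N → C,
    Pre (eL N) (Equiv.refl _) (∑ i, x i * star (x i))
      (fun c d => φ c d - x (some c) * star (x (some d))) (fun i j => x i * star (x j))
      (fun p q => x p.1 * φ p.2 q.2 * star (x q.1)) := by
  set H := star v * v with hH
  have sH : star H = H := by rw [hH, star_mul, star_star]
  have hv : (1 - H) * v = v := by
    have := congrArg (· * v) (h.mul_eq o o o o)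
    simp only [if_true, mul_assoc, h.mul_v] at this
    exact this.symm
  have hHv : H * v = 0 := by
    rw [sub_mul, one_mul, sub_eq_self] at hv; exact hv
  have cH : ∀ i j, Commute H (φ i j) := fun i j => hss ▸ (hc i j).mul_left (hc i j)
  have cH' : ∀ i j, Commute (1 - H) (φ i j) := fun i j => (Commute.one_left _).sub_left (cH i j)
  let x : Option N → C := fun i => i.elim s fun c => φ c o * v
  have φx : ∀ c d e, φ c d * x (some e) = if d = e then x (some c) else 0 := by
    intro c d e
    change φ c d * (φ e o * v) = if d = e then φ c o * v else 0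
    rw [← mul_assoc, h.mul_eq]
    split_ifs
    · rw [(cH' c o).eq, mul_assoc, hv]
    · exact zero_mul _
  have xφ : ∀ c d e, star (x (some e)) * φ c d = if c = e then star (x (some d)) else 0 := by
    intro c d e
    have := congrArg star (φx d c e)
    rw [star_mul, h.star_eq] at this
    rw [this]
    split_ifs <;> simp
  have sx : ∀ c, s * x (some c) = 0 := fun c => by
    change s * (φ c o * v) = 0
    rw [← mul_assoc, (hc c o).eq, mul_assoc, h0 v hHv, mul_zero]
  have xx : ∀ i j, star (x i) * x j = if i = j then H else 0 := by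
    rintro (_ | c) (_ | d)
    · exact (congrArg (· * s) hs).trans hss
    · exact (congrArg (· * _) hs).trans (sx d)
    · have := congrArg star (sx c)
      rw [star_mul, hs, star_zero] at this
      exact this
    · change star (φ c o * v) * x (some d) = _
      rw [star_mul, h.star_eq, mul_assoc, φx]
      by_cases hcd : c = d
      · rw [if_pos hcd, if_pos (congrArg some hcd)]
        change star v * (φ o o * v) = H
        rw [h.mul_v]
      · rw [if_neg hcd, if_neg (fun hc => hcd (Option.some.inj hc)), mul_zero]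
  refine ⟨x, ?_⟩
  set z := ∑ i, x i * star (x i) with hz
  have zx : ∀ i, z * x i = x i * H := fun i => by
    simp only [hz, Finset.sum_mul, mul_assoc, xx]
    simp
  have xz : ∀ i, star (x i) * z = H * star (x i) := fun i => by
    simp only [hz, Finset.mul_sum, ← mul_assoc, xx]
    simp
  have zx' : ∀ i, (1 - z) * x i = x i * (1 - H) := fun i => by
    rw [sub_mul, mul_sub, zx, one_mul, mul_one]
  have zs : z = H + ∑ c, x (some c) * star (x (some c)) := by
    rw [hz, Fintype.sum_option]
    congr 1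
    exact (congrArg (s * ·) hs).trans hss
  have zφ : ∀ c d, z * φ c d = H * φ c d + x (some c) * star (x (some d)) := fun c d => by
    rw [zs, add_mul, Finset.sum_mul]
    simp only [mul_assoc, xφ]
    simp
  have bm : ∀ j k l n, x j * star (x k) * (x l * star (x n)) =
      if k = l then z * (x j * star (x n)) else 0 := fun j k l n => by
    rw [mul_assoc, ← mul_assoc (star (x k)), xx, ← mul_assoc z, zx]
    split_ifs <;> simp [mul_assoc]
  have sm : ∀ i j, ∑ r, x i * φ r r * star (x j) = (1 - z) * (x i * star (x j)) := fun i j => by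
    rw [← Finset.sum_mul, ← Finset.mul_sum, h.sum_eq, ← mul_assoc, zx']
  refine ⟨fun j k => ?_, fun j k l n => ?_, ?_, fun j k => ?_, bm, rfl,
    fun j k => ?_, fun j k l n => ?_, fun j k => ?_, fun j k => ?_, fun j k => (sm j k).symm⟩
  · rw [star_sub, star_mul, star_star, h.star_eq]
  · rw [sub_mul, mul_sub, mul_sub, bm, h.mul_eq, ← mul_assoc (φ j k), φx, mul_assoc (x (some j)),
      xφ]
    by_cases hkl : k = l
    · subst hkl
      simp only [if_true, mul_sub, sub_mul, one_mul, zφ]
      abel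
    · simp [hkl, Ne.symm hkl]
  · rw [Finset.sum_sub_distrib, h.sum_eq, zs]; abel
  · rw [star_mul, star_star]
  · rw [star_mul, star_mul, star_star, h.star_eq, mul_assoc]
  · have e : x j.1 * φ j.2 k.2 * star (x k.1) * (x l.1 * φ l.2 n.2 * star (x n.1)) =
        x j.1 * (φ j.2 k.2 * (star (x k.1) * x l.1) * φ l.2 n.2) * star (x n.1) := by
      simp only [mul_assoc]
    rw [e, xx]
    by_cases h1 : k.1 = l.1
    · rw [if_pos h1, ← (cH _ _).eq, mul_assoc H, h.mul_eq]
      by_cases h2 : k.2 = l.2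
      · rw [if_pos h2, if_pos (Prod.ext h1 h2), mul_assoc z, ← mul_assoc (1 - z),
          ← mul_assoc (1 - z), zx', ← mul_assoc z, ← mul_assoc z, ← mul_assoc z, zx, ← hH]
        simp only [mul_assoc]
      · rw [if_neg h2, if_neg fun hc => h2 (congrArg Prod.snd hc)]; simp
    · rw [if_neg h1, if_neg fun hc => h1 (congrArg Prod.fst hc)]; simp
  · change z * _ = _ * z
    rw [← mul_assoc, ← mul_assoc, zx, mul_assoc _ _ z, xz, mul_assoc (x j.1), (cH _ _).eq]
    simp only [mul_assoc]
  · rw [Fintype.sum_option]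
    change _ = s * φ j k * star s + ∑ r, x (some j) * φ r r * star (x (some k))
    rw [sm, hs, mul_assoc s, ← (hc j k).eq, ← mul_assoc s, hss, mul_sub, zφ, sub_mul, one_mul]
    abel

end alg

section twist

variable {N P Q R R' : Type*} [Fintype N] [DecidableEq N] [DecidableEq P] [DecidableEq Q]
  [DecidableEq R] [DecidableEq R']

/-- the amplifying bijection -/
def eA (α : N ≃ P × R) (β : Option N ≃ Q × R') : Option N × N ≃ (P × Q) × (R × R') :=
  ((Equiv.prodComm _ _).trans (Equiv.prodCongr α β)).trans (Equiv.prodProdProdComm P R Q R')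

omit [Fintype N] [DecidableEq Q] in
lemma kap_one (α : N ≃ P × R) (β : Option N ≃ Q × R') (c : Matrix Q Q ℂ) :
    kap (eA α β) (kap (Equiv.prodComm P Q) c) = kap (Equiv.refl _) (kap β c) := by
  ext ⟨i, c⟩ ⟨j, d⟩
  by_cases h : c = d
  · subst h; simp [kap_apply, eA]
  · have : ¬ ((α c).1 = (α d).1 ∧ (α c).2 = (α d).2) := fun hc =>
      h (α.injective (Prod.ext hc.1 hc.2))
    rw [kap_apply (Equiv.refl _), if_neg (by exact h), kap_apply, kap_apply]
    split_ifs with h1 h2
    · exact absurd ⟨h2, (Prod.mk.inj h1).1⟩ this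
    · rfl
    · rfl

omit [Fintype N] [DecidableEq P] in
lemma kap_zero (α : N ≃ P × R) (β : Option N ≃ Q × R') (c : Matrix P P ℂ) :
    kap (eA α β) (kap (Equiv.refl _) c) = kap (Equiv.prodComm _ _) (kap α c) := by
  ext ⟨i, c⟩ ⟨j, d⟩
  by_cases h : i = j
  · subst h; simp [kap_apply, eA]
  · have : ¬ ((β i).1 = (β j).1 ∧ (β i).2 = (β j).2) := fun hc =>
      h (β.injective (Prod.ext hc.1 hc.2))
    rw [kap_apply (Equiv.prodComm _ _), if_neg (by exact h), kap_apply, kap_apply]
    split_ifs with h1 h2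
    · exact absurd ⟨h2, (Prod.mk.inj h1).2⟩ this
    · rfl
    · rfl

/-- the permutation matrix of the twist -/
def sg (N : Type*) [DecidableEq N] : Matrix (Option N × N) (Option N × N) ℂ :=
  Matrix.of fun x y => if tw x = y then 1 else 0

omit [Fintype N] in
lemma sg_star : star (sg N) = sg N := by
  ext x y
  have : tw y = x ↔ tw x = y := ⟨fun h => h ▸ tw_tw y, fun h => h ▸ tw_tw x⟩
  simp [sg, Matrix.star_apply, this]

lemma sg_mul (A : Matrix (Option N × N) (Option N × N) ℂ) (x y : Option N × N) :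
    (sg N * A) x y = A (tw x) y := by
  simp [sg, Matrix.mul_apply]

lemma mul_sg (A : Matrix (Option N × N) (Option N × N) ℂ) (x y : Option N × N) :
    (A * sg N) x y = A x (tw y) := by
  have : ∀ w, tw w = y ↔ w = tw y := fun w => ⟨fun h => h ▸ (tw_tw w).symm, fun h => h ▸ tw_tw y⟩
  simp [sg, Matrix.mul_apply, this]

lemma sg_sq : sg N * sg N = 1 := by
  ext x y
  rw [sg_mul, Matrix.one_apply, sg, Matrix.of_apply, tw_tw]

lemma sg_conj (c : Matrix N N ℂ) :
    sg N * kap (Equiv.prodComm _ _) c * sg N = kap (eL N) c := by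
  ext x y
  rw [mul_sg, sg_mul]
  rfl

open scoped CStarAlgebra in
lemma exists_twist {p q : ℕ} [Fintype R] [Fintype R'] (α : N ≃ Fin p × R)
    (β : Option N ≃ Fin q × R')
    (S : StarSubalgebra ℂ C(unitInterval, Matrix (Option N × N) (Option N × N) ℂ))
    (hS : ∀ F, F ∈ S ↔ (∃ c, F 0 = kap (eL N) c) ∧ ∃ c, F 1 = kap (Equiv.refl _) c) :
    Nonempty (dimDrop p q →⋆ₐ[ℂ] S) := by
  let U : C(unitInterval, Matrix (Option N × N) (Option N × N) ℂ) :=
    ⟨fun t => flipPath (sg N) (1 - t), (continuous_flipPath _).comp (by fun_prop)⟩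
  have hU : U ∈ unitary C(unitInterval, Matrix (Option N × N) (Option N × N) ℂ) :=
    ⟨ContinuousMap.ext fun t => (flipPath_mem_unitary sg_star sg_sq _).1,
      ContinuousMap.ext fun t => (flipPath_mem_unitary sg_star sg_sq _).2⟩
  let Ψ := (StarAlgHomClass.toStarAlgHom (R := ℂ) (Unitary.conjStarAlgAut ℂ _ ⟨U, hU⟩)).comp
    ((ContinuousMap.compStarAlgHom unitInterval (kapHom ℂ (eA α β))
      (map_continuous _)).comp (dimDrop p q).subtype)
  have hΨ : ∀ f t, Ψ f t = U t * kap (eA α β) (f.1 t) * star (U t) := fun _ _ => rfl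
  refine ⟨Ψ.codRestrict S fun f => (hS _).2 ?_⟩
  obtain ⟨⟨c, hc⟩, d, hd⟩ := mem_dimDrop.1 f.2
  refine ⟨⟨kap α c, ?_⟩, kap β d, ?_⟩
  · have : U 0 = sg N := by simp [U]
    rw [hΨ, this, sg_star, hc, kap_zero, sg_conj]
  · have : U 1 = 1 := by simp [U]
    rw [hΨ, this, star_one, one_mul, mul_one, hd, kap_one]

end twist

/-- evaluation at a point -/
noncomputable def ev (M : Type*) [CStarAlgebra M] (t : unitInterval) :
    C(unitInterval, M) →⋆ₐ[ℂ] M where
  toFun f := f t
  map_one' := rfl
  map_mul' _ _ := rfl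
  map_zero' := rfl
  map_add' _ _ := rfl
  commutes' _ := by simp [Algebra.algebraMap_eq_smul_one]
  map_star' _ := rfl

end ZRW

open ZRW

theorem exists_hom_of_RW {C : Type*} [CStarAlgebra C] {n : ℕ} {φ : Fin (n + 1) → Fin (n + 1) → C}
    {v : C} (h : RW 0 φ v) {p q : ℕ} (hp : p ∣ n + 1) (hq : q ∣ n + 2) :
    Nonempty (dimDrop p q →⋆ₐ[ℂ] C) := by
  let := CStarAlgebra.spectralOrder C
  have := CStarAlgebra.spectralOrderedRing C
  have hH : 0 ≤ star v * v := star_mul_self_nonneg v
  have hs : star (CFC.sqrt (star v * v)) = CFC.sqrt (star v * v) :=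
    (IsSelfAdjoint.of_nonneg (CFC.sqrt_nonneg _)).star_eq
  have hss := CFC.sqrt_mul_sqrt_self (star v * v) hH
  have hc : ∀ i j, Commute (star v * v) (φ i j) := by
    intro i j
    have h1 : φ i j * (1 - star v * v) = (1 - star v * v) * φ i j := by
      conv_lhs => rw [← h.sum_eq, Finset.mul_sum]
      simp [h.mul_eq]
    rw [sub_mul, mul_sub, one_mul, mul_one, sub_right_inj] at h1
    exact h1.symm
  obtain ⟨x, hP⟩ := pre_of_RW h hs hss (fun i j => (hc i j).cfcₙ_nnreal _) fun y hy => by
    rw [← CStarRing.star_mul_self_eq_zero_iff, star_mul, hs, mul_assoc, ← mul_assoc (CFC.sqrt _),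
      hss, hy, mul_zero]
  have hz : 0 ≤ ∑ i, x i * star (x i) := Finset.sum_nonneg fun i _ => mul_star_self_nonneg _
  generalize ∑ i, x i * star (x i) = z at hP hz
  obtain ⟨w, hw⟩ : IsUnit (1 + z) := CStarAlgebra.isUnit_of_le 1 (le_add_of_nonneg_right hz)
  have cw : ∀ y, Commute z y → Commute (↑w⁻¹ : C) y := fun y hy =>
    Commute.units_inv_left (hw ▸ (Commute.one_left y).add_left hy)
  have hu : (↑w⁻¹ : C) * (1 + z) = 1 := by rw [← hw, Units.inv_mul]
  have su : star (↑w⁻¹ : C) = ↑w⁻¹ := by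
    have h1 := congrArg star hu
    rw [star_mul, star_add, star_one, hP.z_sa] at h1
    rw [← one_mul (star (↑w⁻¹ : C)), ← hu, mul_assoc, h1, mul_one]
  generalize (↑w⁻¹ : C) = u at cw hu su
  have uz : Commute u z := cw z rfl
  have uz' : Commute u (1 - z) := (Commute.one_right u).sub_right uz
  have e1 : u * u * ((1 + z) * (1 + z)) = 1 := by
    rw [← (((Commute.one_right u).add_right uz).symm.mul_mul_mul_comm u (1 + z)), hu, mul_one]
  have e : 1 - (u + u) * (u + u) * z = u * u * (1 - z) * (1 - z) := by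
    conv_lhs => rw [← e1]
    noncomm_ring
  have hQ := hP.scale (α := u * u * (1 - z)) (β := (u + u) * (u + u))
    (by rw [star_mul, star_mul, su, star_sub, star_one, hP.z_sa, (uz'.mul_left uz').eq])
    (by rw [star_mul, star_add, su])
    (fun y hy => ((cw y hy).mul_left (cw y hy)).mul_left ((Commute.one_left y).sub_left hy))
    (fun y hy => ((cw y hy).add_left (cw y hy)).mul_left ((cw y hy).add_left (cw y hy))) e
  have h0 : 0 ≤ (u + u) * (u + u) * z := by
    have := star_left_conjugate_nonneg hz (u + u)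
    rwa [star_add, su, mul_assoc, ← (uz.add_left uz).eq, ← mul_assoc] at this
  have h1 : (u + u) * (u + u) * z ≤ 1 := by
    rw [← sub_nonneg, e]
    have := star_mul_self_nonneg (u * (1 - z))
    rwa [star_mul, su, star_sub, star_one, hP.z_sa, ← uz'.eq, uz'.symm.mul_mul_mul_comm,
      ← mul_assoc] at this
  obtain ⟨γ, hγ, cγ⟩ := exists_gamma h0 h1
  have hD : MData γ _ _ _ _ _ _ :=
    { z_eq := by rw [smul_eq_mul, mul_one, hγ]
      a_star := hQ.a_star
      a_mul := hQ.a_mul
      a_sum := hQ.a_sum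
      a_comm := fun _ j k => cγ _ (hQ.a_comm j k) _
      b_star := hQ.b_star
      b_mul := hQ.b_mul
      b_sum := hQ.b_sum
      b_comm := fun _ j k => cγ _ (hQ.b_comm j k) _
      m_star := hQ.m_star
      m_mul := hQ.m_mul
      m_comm := fun _ j k => cγ _ (hQ.m_comm j k) _
      z_a := hQ.z_a
      z_b := hQ.z_b }
  obtain ⟨r, hr⟩ := hp
  obtain ⟨r', hr'⟩ := hq
  let S : StarSubalgebra ℂ C(unitInterval,
      Matrix (Option (Fin (n + 1)) × Fin (n + 1)) (Option (Fin (n + 1)) × Fin (n + 1)) ℂ) :=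
    (kapHom ℂ (eL (Fin (n + 1)))).range.comap (ev _ 0) ⊓
      (kapHom ℂ (Equiv.refl _)).range.comap (ev _ 1)
  have hS : ∀ F, F ∈ S ↔ (∃ c, F 0 = kap (eL (Fin (n + 1))) c) ∧
      ∃ c, F 1 = kap (Equiv.refl _) c := fun F =>
    and_congr (exists_congr fun _ => eq_comm) (exists_congr fun _ => eq_comm)
  obtain ⟨Φ, -⟩ := hD.exists_hom (StarAlgHom.id ℂ _)
    (fun x y => Continuous.matrix_elem continuous_id x y) S hS
  obtain ⟨Ψ⟩ := exists_twist (p := p) (q := q) (R := Fin r) (R' := Fin r')
    (Fintype.equivOfCardEq (by simpa using hr)) (Fintype.equivOfCardEq (by simpa using hr')) S hS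
  exact ⟨Φ.comp Ψ⟩

end Vale.Agent.P101
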