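import Vale.Agent.P101.ZData
import Vale.Agent.P101.ZCont

/-!
Two commuting copies of a dimension drop algebra give a homomorphism from the algebra of
functions on the square with boundary conditions.
-/

namespace Vale.Agent.P101

open scoped Matrix.Norms.L2Operator

/-- `x ↦ x ⊗ 1` -/
noncomputable abbrev kL (P Q : Type*) [Fintype P] [DecidableEq P] [Fintype Q] [DecidableEq Q] :
    Matrix P P ℂ →⋆ₐ[ℂ] Matrix (P × Q) (P × Q) ℂ := kapHom ℂ (Equiv.refl (P × Q))

/-- `y ↦ 1 ⊗ y` -/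
noncomputable abbrev kR (P Q : Type*) [Fintype P] [DecidableEq P] [Fintype Q] [DecidableEq Q] :
    Matrix Q Q ℂ →⋆ₐ[ℂ] Matrix (P × Q) (P × Q) ℂ := kapHom ℂ (Equiv.prodComm P Q)

/-- the model of `Z_{p,q} ⊗ Z_{p,q}` as functions on the square -/
noncomputable def sqAlg (p q : ℕ) : StarSubalgebra ℂ C(unitInterval × unitInterval,
    Matrix ((Fin p × Fin q) × (Fin p × Fin q)) ((Fin p × Fin q) × (Fin p × Fin q)) ℂ) where
  carrier := {v | (∀ s y, Commute (v (0, s)) (kL _ _ (kR _ _ y))) ∧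
    (∀ s x, Commute (v (1, s)) (kL _ _ (kL _ _ x))) ∧
    (∀ t y, Commute (v (t, 0)) (kR _ _ (kR _ _ y))) ∧
    (∀ t x, Commute (v (t, 1)) (kR _ _ (kL _ _ x)))}
  mul_mem' := fun ⟨h1, h2, h3, h4⟩ ⟨k1, k2, k3, k4⟩ =>
    ⟨fun s y => (h1 s y).mul_left (k1 s y), fun s y => (h2 s y).mul_left (k2 s y),
      fun s y => (h3 s y).mul_left (k3 s y), fun s y => (h4 s y).mul_left (k4 s y)⟩
  add_mem' := fun ⟨h1, h2, h3, h4⟩ ⟨k1, k2, k3, k4⟩ =>
    ⟨fun s y => (h1 s y).add_left (k1 s y), fun s y => (h2 s y).add_left (k2 s y),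
      fun s y => (h3 s y).add_left (k3 s y), fun s y => (h4 s y).add_left (k4 s y)⟩
  algebraMap_mem' := fun c =>
    ⟨fun _ _ => Algebra.commute_algebraMap_left c _, fun _ _ => Algebra.commute_algebraMap_left c _,
      fun _ _ => Algebra.commute_algebraMap_left c _, fun _ _ => Algebra.commute_algebraMap_left c _⟩
  star_mem' := fun ⟨h1, h2, h3, h4⟩ =>
    ⟨fun s y => by simpa only [← map_star, star_star, ContinuousMap.star_apply] using (h1 s (star y)).star_star,
      fun s y => by simpa only [← map_star, star_star, ContinuousMap.star_apply] using (h2 s (star y)).star_star,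
      fun s y => by simpa only [← map_star, star_star, ContinuousMap.star_apply] using (h3 s (star y)).star_star,
      fun s y => by simpa only [← map_star, star_star, ContinuousMap.star_apply] using (h4 s (star y)).star_star⟩

/-- a matrix commuting with `1 ⊗ M_R` lies in `M_{J₀} ⊗ 1` -/
lemma exists_kap_of_commute {J J₀ R : Type*} [Fintype J] [DecidableEq J] [Fintype J₀]
    [DecidableEq J₀] [Fintype R] [DecidableEq R] [Nonempty R] (e : J ≃ J₀ × R)
    (X : Matrix J J ℂ) (h : ∀ y, Commute X (kap (e.trans (Equiv.prodComm J₀ R)) y)) :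
    ∃ c, X = kap e c := by
  obtain ⟨r₀⟩ := ‹Nonempty R›
  have key : ∀ j k r s r' s', (if s = s' then X (e.symm (j, r')) (e.symm (k, r)) else 0) =
      if r' = r then X (e.symm (j, s)) (e.symm (k, s')) else 0 := by
    intro j k r s r' s'
    have h1 := congrFun (congrFun (h (Matrix.single r s 1)).eq (e.symm (j, r'))) (e.symm (k, s'))
    simp only [Matrix.mul_apply] at h1
    rw [← e.symm.sum_comp, ← e.symm.sum_comp (fun z => kap _ _ _ z * _), Fintype.sum_prod_type,
      Fintype.sum_prod_type] at h1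
    simp only [kap_apply, Equiv.trans_apply, Equiv.apply_symm_apply, Equiv.prodComm_apply,
      Prod.snd_swap, Prod.fst_swap, Matrix.single_apply, mul_ite, ite_mul, mul_one, one_mul,
      mul_zero, zero_mul] at h1
    rw [Finset.sum_eq_single k (by intro b _ hb; simp [hb]) (by simp),
      Finset.sum_eq_single j (by intro b _ hb; simp [Ne.symm hb]) (by simp),
      Finset.sum_eq_single r (by intro b _ hb; simp [Ne.symm hb]) (by simp),
      Finset.sum_eq_single s (by intro b _ hb; simp [Ne.symm hb]) (by simp)] at h1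
    simpa [eq_comm] using h1
  refine ⟨Matrix.of fun j k => X (e.symm (j, r₀)) (e.symm (k, r₀)), ?_⟩
  ext x y
  obtain ⟨⟨j, r⟩, rfl⟩ := e.symm.surjective x
  obtain ⟨⟨k, s⟩, rfl⟩ := e.symm.surjective y
  have := key j k s r₀ r r₀
  simpa [kap_apply] using this

namespace ZTens

variable {P Q : Type*} [Fintype P] [DecidableEq P] [Fintype Q] [DecidableEq Q]

lemma kL_apply (x : Matrix P P ℂ) (a b : P) (i j : Q) :
    kL P Q x (a, i) (b, j) = if i = j then x a b else 0 := rfl

lemma kR_apply (y : Matrix Q Q ℂ) (a b : P) (i j : Q) :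
    kR P Q y (a, i) (b, j) = if a = b then y i j else 0 := rfl

lemma blockR {W : Matrix (P × Q) (P × Q) ℂ} {y : Matrix Q Q ℂ} (h : Commute W (kR P Q y))
    (x x' : P) : Commute (Matrix.of fun i j => W (x, i) (x', j)) y := by
  ext i j
  have h1 := congrFun (congrFun h.eq (x, i)) (x', j)
  simp only [Matrix.mul_apply, Fintype.sum_prod_type, kR_apply, mul_ite, ite_mul, mul_zero,
    zero_mul] at h1
  rw [Finset.sum_eq_single x' (by intro b _ hb; simp [hb]) (by simp),
    Finset.sum_eq_single x (by intro b _ hb; simp [Ne.symm hb]) (by simp)] at h1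
  simpa [Matrix.mul_apply] using h1

lemma blockL {W : Matrix (P × Q) (P × Q) ℂ} {y : Matrix P P ℂ} (h : Commute W (kL P Q y))
    (i i' : Q) : Commute (Matrix.of fun x x' => W (x, i) (x', i')) y := by
  ext x x'
  have h1 := congrFun (congrFun h.eq (x, i)) (x', i')
  simp only [Matrix.mul_apply, Fintype.sum_prod_type, kL_apply, mul_ite, ite_mul, mul_zero,
    zero_mul] at h1
  simpa [Matrix.mul_apply] using h1

lemma kL_kR (x : Matrix P P ℂ) (y : Matrix Q Q ℂ) : Commute (kL P Q x) (kR P Q y) := by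
  ext ⟨a, i⟩ ⟨b, j⟩
  simp only [Matrix.mul_apply, Fintype.sum_prod_type, kL_apply, kR_apply, mul_ite, ite_mul,
    mul_zero, zero_mul]
  rw [Finset.sum_eq_single b (by intro c _ hb; simp [hb]) (by simp),
    Finset.sum_eq_single a (by intro c _ hb; simp [Ne.symm hb]) (by simp)]
  simp [mul_comm]

/-- functions of `s` with boundary conditions in the second factor -/
noncomputable def MM (p q : ℕ) : StarSubalgebra ℂ C(unitInterval,
    Matrix ((Fin p × Fin q) × (Fin p × Fin q)) ((Fin p × Fin q) × (Fin p × Fin q)) ℂ) where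
  carrier := {w | (∀ y, Commute (w 0) (kR _ _ (kR _ _ y))) ∧
    (∀ x, Commute (w 1) (kR _ _ (kL _ _ x)))}
  mul_mem' := fun ⟨h1, h2⟩ ⟨k1, k2⟩ =>
    ⟨fun y => (h1 y).mul_left (k1 y), fun y => (h2 y).mul_left (k2 y)⟩
  add_mem' := fun ⟨h1, h2⟩ ⟨k1, k2⟩ =>
    ⟨fun y => (h1 y).add_left (k1 y), fun y => (h2 y).add_left (k2 y)⟩
  algebraMap_mem' := fun c =>
    ⟨fun _ => Algebra.commute_algebraMap_left c _, fun _ => Algebra.commute_algebraMap_left c _⟩
  star_mem' := fun ⟨h1, h2⟩ =>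
    ⟨fun y => by
      simpa only [← map_star, star_star, ContinuousMap.star_apply] using (h1 (star y)).star_star,
     fun y => by
      simpa only [← map_star, star_star, ContinuousMap.star_apply] using (h2 (star y)).star_star⟩

instance isClosed_MM (p q : ℕ) : IsClosed (MM p q : Set C(unitInterval,
    Matrix ((Fin p × Fin q) × (Fin p × Fin q)) ((Fin p × Fin q) × (Fin p × Fin q)) ℂ)) := by
  change IsClosed ({w | ∀ y, _} ∩ {w | ∀ x, _})
  simp only [Set.ofPred_forall]
  exact (isClosed_iInter fun y => isClosed_eq (by fun_prop) (by fun_prop)).inter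
    (isClosed_iInter fun y => isClosed_eq (by fun_prop) (by fun_prop))

noncomputable instance cstarMM (p q : ℕ) : CStarAlgebra (MM p q) := StarSubalgebra.cstarAlgebra _

variable {p q : ℕ}

/-- a block of a function with values in big matrices -/
noncomputable def blk (w : C(unitInterval,
    Matrix ((Fin p × Fin q) × (Fin p × Fin q)) ((Fin p × Fin q) × (Fin p × Fin q)) ℂ))
    (x y : Fin p × Fin q) : C(unitInterval, Matrix (Fin p × Fin q) (Fin p × Fin q) ℂ) :=
  ⟨fun s => Matrix.of fun i j => w s (x, i) (y, j),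
    continuous_matrix fun i j => w.continuous.matrix_elem (x, i) (y, j)⟩

lemma blk_mem [Nonempty (Fin p)] [Nonempty (Fin q)] (w : MM p q) (x y : Fin p × Fin q) :
    blk w.1 x y ∈ dimDrop p q :=
  mem_dimDrop.2 ⟨exists_kap_of_commute _ _ fun z => blockR (w.2.1 z) x y,
    exists_kap_of_commute _ _ fun z => blockR (w.2.2 z) x y⟩

/-- the matrix of blocks -/
noncomputable def piM (p q : ℕ) [Nonempty (Fin p)] [Nonempty (Fin q)] :
    MM p q →⋆ₐ[ℂ] Matrix (Fin p × Fin q) (Fin p × Fin q) (dimDrop p q) where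
  toFun w := Matrix.of fun x y => ⟨blk w.1 x y, blk_mem w x y⟩
  map_one' := by
    ext x y s i j
    by_cases h : x = y <;> simp [blk, Matrix.one_apply, h]
  map_mul' w w' := by
    ext x y s i j
    simp [blk, Matrix.mul_apply, Matrix.sum_apply, Fintype.sum_prod_type (α₁ := Fin p × Fin q)]
  map_zero' := by
    ext x y s i j
    simp [blk]
  map_add' w w' := by
    ext x y s i j
    simp [blk]
  commutes' c := by
    ext x y s i j
    by_cases h : x = y <;> simp [blk, Matrix.algebraMap_matrix_apply, Matrix.one_apply, h]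
  map_star' w := by
    ext x y s i j
    simp [blk]

lemma piM_apply [Nonempty (Fin p)] [Nonempty (Fin q)] (w : MM p q) (x y : Fin p × Fin q)
    (s : unitInterval) (i j : Fin p × Fin q) :
    (piM p q w x y).1 s i j = w.1 s (x, i) (y, j) := rfl

lemma continuous_piM [Nonempty (Fin p)] [Nonempty (Fin q)] (x y : Fin p × Fin q) :
    Continuous fun w => piM p q w x y := by
  let L : C(Matrix ((Fin p × Fin q) × (Fin p × Fin q)) ((Fin p × Fin q) × (Fin p × Fin q)) ℂ,
      Matrix (Fin p × Fin q) (Fin p × Fin q) ℂ) := ⟨fun W => Matrix.of fun i j => W (x, i) (y, j),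
    continuous_matrix fun i j => continuous_id.matrix_elem (x, i) (y, j)⟩
  exact ((ContinuousMap.continuous_postcomp L).comp continuous_subtype_val).subtype_mk _

/-- evaluation -/
def evH (M : Type) [CStarAlgebra M] (t : unitInterval) : C(unitInterval, M) →⋆ₐ[ℂ] M where
  toFun F := F t
  map_one' := rfl
  map_mul' _ _ := rfl
  map_zero' := rfl
  map_add' _ _ := rfl
  commutes' _ := rfl
  map_star' _ := rfl

/-- functions of `t` with values in `MM` and boundary conditions -/
noncomputable def SS (p q : ℕ) [Nonempty (Fin p)] [Nonempty (Fin q)] :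
    StarSubalgebra ℂ C(unitInterval, MM p q) :=
  ((⊤ : StarSubalgebra ℂ _).map (kapHom (dimDrop p q) (Equiv.refl (Fin p × Fin q)))).comap
      ((piM p q).comp (evH (MM p q) 0)) ⊓
    ((⊤ : StarSubalgebra ℂ _).map (kapHom (dimDrop p q) (Equiv.prodComm (Fin p) (Fin q)))).comap
      ((piM p q).comp (evH (MM p q) 1))

lemma mem_SS [Nonempty (Fin p)] [Nonempty (Fin q)] (F : C(unitInterval, MM p q)) :
    F ∈ SS p q ↔ (∃ c, piM p q (F 0) = kap (Equiv.refl (Fin p × Fin q)) c) ∧
      ∃ c, piM p q (F 1) = kap (Equiv.prodComm (Fin p) (Fin q)) c := by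
  exact ⟨fun ⟨⟨c, _, hc⟩, d, _, hd⟩ => ⟨⟨c, hc.symm⟩, d, hd.symm⟩,
    fun ⟨⟨c, hc⟩, d, hd⟩ => ⟨⟨c, trivial, hc.symm⟩, d, trivial, hd.symm⟩⟩

lemma piM_kap [Nonempty (Fin p)] [Nonempty (Fin q)] {J₀ R : Type} [Fintype J₀] [DecidableEq J₀]
    [Fintype R] [DecidableEq R] [Nonempty R] (e : Fin p × Fin q ≃ J₀ × R) (w : MM p q)
    (h : ∀ s y, Commute (w.1 s) (kL _ _ (kap (e.trans (Equiv.prodComm J₀ R)) y))) :
    ∃ c, piM p q w = kap e c := by
  obtain ⟨r⟩ := ‹Nonempty R›
  have : Nonempty R := ⟨r⟩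
  refine ⟨Matrix.of fun j k => piM p q w (e.symm (j, r)) (e.symm (k, r)), ?_⟩
  ext x y s i j
  obtain ⟨c, hc⟩ := exists_kap_of_commute e _ fun z => blockL (h s z) i j
  have h1 : ∀ x y, w.1 s (x, i) (y, j) = kap e c x y := fun x y => congrFun (congrFun hc x) y
  rw [piM_apply, h1, kap_apply, kap_apply]
  split_ifs
  · rw [Matrix.of_apply, piM_apply, h1, kap_apply]
    simp
  · rfl

/-- a function on the square as a function of `t` -/
noncomputable def cur (v : sqAlg p q) : C(unitInterval, MM p q) :=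
  ⟨fun t => ⟨v.1.curry t, v.2.2.2.1 t, v.2.2.2.2 t⟩, v.1.curry.continuous.subtype_mk _⟩

/-- currying as a homomorphism -/
noncomputable def curH (p q : ℕ) [Nonempty (Fin p)] [Nonempty (Fin q)] :
    sqAlg p q →⋆ₐ[ℂ] SS p q where
  toFun v := ⟨cur v, (mem_SS _).2 ⟨piM_kap _ _ v.2.1, piM_kap _ _ v.2.2.1⟩⟩
  map_one' := rfl
  map_mul' _ _ := rfl
  map_zero' := rfl
  map_add' _ _ := rfl
  commutes' _ := rfl
  map_star' _ := rfl

/-- `X ↦ X ⊗ 1`, constant in `s` -/
noncomputable def kc (p q : ℕ) : Matrix (Fin p × Fin q) (Fin p × Fin q) ℂ →⋆ₐ[ℂ] MM p q where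
  toFun X := ⟨ContinuousMap.const _ (kL _ _ X), fun _ => kL_kR _ _, fun _ => kL_kR _ _⟩
  map_one' := Subtype.ext (ContinuousMap.ext fun _ => map_one (kL _ _))
  map_mul' _ _ := Subtype.ext (ContinuousMap.ext fun _ => map_mul (kL _ _) _ _)
  map_zero' := Subtype.ext (ContinuousMap.ext fun _ => map_zero (kL _ _))
  map_add' _ _ := Subtype.ext (ContinuousMap.ext fun _ => map_add (kL _ _) _ _)
  commutes' _ := Subtype.ext (ContinuousMap.ext fun _ => (kL _ _).commutes _)
  map_star' _ := Subtype.ext (ContinuousMap.ext fun _ => map_star (kL _ _) _)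

lemma piM_kc [Nonempty (Fin p)] [Nonempty (Fin q)] (X : Matrix (Fin p × Fin q) (Fin p × Fin q) ℂ)
    (x y : Fin p × Fin q) : piM p q (kc p q X) x y = X x y • 1 := by
  ext s i j
  rw [piM_apply]
  change kL _ _ X (x, i) (y, j) = _
  rw [kL_apply]
  simp [Matrix.one_apply]

/-- the same as a continuous map -/
noncomputable def kcC (p q : ℕ) : C(Matrix (Fin p × Fin q) (Fin p × Fin q) ℂ, MM p q) :=
  ⟨kc p q, (kc p q).toAlgHom.toLinearMap.continuous_of_finiteDimensional⟩

lemma lam_mem [Nonempty (Fin p)] [Nonempty (Fin q)] (g : dimDrop p q) :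
    (kcC p q).comp g.1 ∈ SS p q := by
  obtain ⟨⟨c, hc⟩, d, hd⟩ := mem_dimDrop.1 g.2
  refine (mem_SS _).2 ⟨⟨c.map fun a => a • 1, ?_⟩, d.map fun a => a • 1, ?_⟩
  · refine Matrix.ext fun x y => ?_
    change piM p q (kc p q (g.1 0)) x y = _
    rw [piM_kc, hc, kap_apply, kap_apply]
    split_ifs <;> simp
  · refine Matrix.ext fun x y => ?_
    change piM p q (kc p q (g.1 1)) x y = _
    rw [piM_kc, hd, kap_apply, kap_apply]
    split_ifs <;> simp

/-- the first copy of the dimension drop algebra -/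
noncomputable def lam (p q : ℕ) [Nonempty (Fin p)] [Nonempty (Fin q)] :
    dimDrop p q →⋆ₐ[ℂ] SS p q where
  toFun g := ⟨_, lam_mem g⟩
  map_one' := Subtype.ext (ContinuousMap.ext fun _ => map_one (kc p q))
  map_mul' _ _ := Subtype.ext (ContinuousMap.ext fun _ => map_mul (kc p q) _ _)
  map_zero' := Subtype.ext (ContinuousMap.ext fun _ => map_zero (kc p q))
  map_add' _ _ := Subtype.ext (ContinuousMap.ext fun _ => map_add (kc p q) _ _)
  commutes' _ := Subtype.ext (ContinuousMap.ext fun _ => (kc p q).commutes _)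
  map_star' _ := Subtype.ext (ContinuousMap.ext fun _ => map_star (kc p q) _)

/-- scalar functions -/
noncomputable def sc (p q : ℕ) : C(unitInterval, ℂ) →⋆ₐ[ℂ] dimDrop p q where
  toFun φ := ⟨φ • 1, mem_dimDrop.2
    ⟨⟨φ 0 • 1, ((map_smul (kL _ _) _ _).trans (by rw [map_one (kL _ _)]; rfl)).symm⟩,
      φ 1 • 1, ((map_smul (kR _ _) _ _).trans (by rw [map_one (kR _ _)]; rfl)).symm⟩⟩
  map_one' := by ext; simp
  map_mul' _ _ := by ext; simp; ring
  map_zero' := by ext; simp
  map_add' _ _ := by ext; simp [add_mul]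
  commutes' _ := by ext; simp [Algebra.algebraMap_eq_smul_one]
  map_star' _ := by ext; simp [Matrix.one_apply, eq_comm, apply_ite (starRingEnd ℂ)]

lemma sc_apply (φ : C(unitInterval, ℂ)) (t : unitInterval) : (sc p q φ).1 t = φ t • 1 := rfl

lemma sc_comm (φ : C(unitInterval, ℂ)) (g : dimDrop p q) : Commute (sc p q φ) g :=
  Subtype.ext (ContinuousMap.ext fun t => by
    change (φ t • 1) * g.1 t = g.1 t * (φ t • 1)
    simp)

/-- `(1 - t) (x ⊗ 1)` -/
noncomputable def eA (p q : ℕ) (x : Matrix (Fin p) (Fin p) ℂ) : dimDrop p q :=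
  ⟨(1 - tt) • ContinuousMap.const _ (kL _ _ x), mem_dimDrop.2 ⟨⟨x, by simp⟩, 0, by
    simpa using (map_zero (kR (Fin p) (Fin q))).symm⟩⟩

/-- `t (1 ⊗ y)` -/
noncomputable def eB (p q : ℕ) (y : Matrix (Fin q) (Fin q) ℂ) : dimDrop p q :=
  ⟨tt • ContinuousMap.const _ (kR _ _ y), mem_dimDrop.2 ⟨⟨0, by
    simpa using (map_zero (kL (Fin p) (Fin q))).symm⟩, y, by simp⟩⟩

/-- `t (1 - t) X` -/
noncomputable def eM (p q : ℕ) (X : Matrix (Fin p × Fin q) (Fin p × Fin q) ℂ) : dimDrop p q :=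
  ⟨(tt * (1 - tt)) • ContinuousMap.const _ X, mem_dimDrop.2 ⟨⟨0, by
    simpa using (map_zero (kL (Fin p) (Fin q))).symm⟩, 0, by
    simpa using (map_zero (kR (Fin p) (Fin q))).symm⟩⟩

lemma eA_apply (x : Matrix (Fin p) (Fin p) ℂ) (t : unitInterval) :
    (eA p q x).1 t = (1 - (t : ℝ) : ℂ) • kL _ _ x := rfl

lemma eB_apply (y : Matrix (Fin q) (Fin q) ℂ) (t : unitInterval) :
    (eB p q y).1 t = ((t : ℝ) : ℂ) • kR _ _ y := rfl

lemma eM_apply (X : Matrix (Fin p × Fin q) (Fin p × Fin q) ℂ) (t : unitInterval) :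
    (eM p q X).1 t = ((t : ℝ) * (1 - (t : ℝ)) : ℂ) • X := rfl

lemma zext {f g : dimDrop p q} (h : ∀ t, f.1 t = g.1 t) : f = g :=
  Subtype.ext (ContinuousMap.ext h)

lemma sum_apply {ι : Type} (s : Finset ι) (f : ι → dimDrop p q) (t : unitInterval) :
    (∑ i ∈ s, f i).1 t = ∑ i ∈ s, (f i).1 t :=
  map_sum ((evH _ t).comp (dimDrop p q).subtype) f s

lemma single_star {n : Type} [DecidableEq n] (j k : n) :
    star (Matrix.single j k (1 : ℂ)) = Matrix.single k j 1 := by
  simp [Matrix.star_eq_conjTranspose]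

lemma single_mul {n : Type} [Fintype n] [DecidableEq n] (j k l m : n) :
    Matrix.single j k (1 : ℂ) * Matrix.single l m (1 : ℂ) =
      if k = l then Matrix.single j m 1 else 0 := by
  split_ifs with h
  · simp [h]
  · exact Matrix.single_mul_single_of_ne _ _ _ _ h _

lemma kL_single (j k : P) : kL P Q (Matrix.single j k 1) = ∑ r, Matrix.single (j, r) (k, r) 1 := by
  ext ⟨a, i⟩ ⟨b, i'⟩
  simp only [kL_apply, Matrix.sum_apply, Matrix.single_apply, Prod.mk.injEq]
  rw [Finset.sum_eq_single i (by intro c _ hb; simp [hb]) (by simp)]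
  by_cases h : i = i' <;> simp [h]

lemma kR_single (j k : Q) : kR P Q (Matrix.single j k 1) = ∑ r, Matrix.single (r, j) (r, k) 1 := by
  ext ⟨a, i⟩ ⟨b, i'⟩
  simp only [kR_apply, Matrix.sum_apply, Matrix.single_apply, Prod.mk.injEq]
  rw [Finset.sum_eq_single a (by intro c _ hb; simp [hb]) (by simp)]
  by_cases h : a = b <;> simp [h]

lemma sum_single {n : Type} [Fintype n] [DecidableEq n] (X : Matrix n n ℂ) :
    ∑ j, ∑ k, X j k • Matrix.single j k (1 : ℂ) = X := by
  conv_rhs => rw [Matrix.matrix_eq_sum_single X]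
  simp

lemma mdata {C : Type*} [CStarAlgebra C] (α β : dimDrop p q →⋆ₐ[ℂ] C)
    (hc : ∀ f g, Commute (α f) (β g)) (Γ : C(unitInterval, dimDrop p q) →⋆ₐ[ℂ] C)
    (h1 : ∀ φ b, Γ (φ • ContinuousMap.const unitInterval b) = β (sc p q φ) * α b)
    (h2 : ∀ y, (∀ φ, Commute (β (sc p q φ)) y) → (∀ b, Commute (α b) y) → ∀ g, Commute (Γ g) y) :
    MData Γ (Equiv.refl (Fin p × Fin q)) (Equiv.prodComm (Fin p) (Fin q)) (β (sc p q tt))
      (fun j k => β (eA p q (Matrix.single j k 1))) (fun j k => β (eB p q (Matrix.single j k 1)))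
      fun x y => β (eM p q (Matrix.single x y 1)) := by
  have hcomm : ∀ g f, Commute (Γ g) (β f) := fun g f =>
    h2 _ (fun φ => (sc_comm φ f).map β) (fun b => hc b f) g
  have e1 : 1 - β (sc p q tt) = β (sc p q (1 - tt)) := by simp
  constructor
  · simpa using h1 tt 1
  · intro j k
    rw [← map_star]
    refine congrArg β (zext fun t => ?_)
    change star ((eA p q _).1 t) = _
    rw [eA_apply, eA_apply, star_smul, ← map_star, single_star]
    simp
  · intro j k l n
    rw [e1, ← map_mul, ← map_mul, ← map_zero β, ← apply_ite β]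
    refine congrArg β (zext fun t => ?_)
    change (eA p q _).1 t * (eA p q _).1 t = _
    rw [eA_apply, eA_apply, smul_mul_smul_comm, ← map_mul, single_mul]
    split_ifs
    · change _ = (sc p q _).1 t * (eA p q _).1 t
      rw [eA_apply, sc_apply, smul_mul_smul_comm, one_mul]
      rfl
    · rw [map_zero, smul_zero]; rfl
  · rw [e1, ← map_sum]
    refine congrArg β (zext fun t => ?_)
    simp only [sum_apply, eA_apply, sc_apply, ← Finset.smul_sum, ← map_sum]
    rw [Matrix.sum_single_one, map_one]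
    rfl
  · exact fun x j k => hcomm _ _
  · intro j k
    rw [← map_star]
    refine congrArg β (zext fun t => ?_)
    change star ((eB p q _).1 t) = _
    rw [eB_apply, eB_apply, star_smul, ← map_star, single_star]
    simp
  · intro j k l n
    rw [← map_mul, ← map_mul, ← map_zero β, ← apply_ite β]
    refine congrArg β (zext fun t => ?_)
    change (eB p q _).1 t * (eB p q _).1 t = _
    rw [eB_apply, eB_apply, smul_mul_smul_comm, ← map_mul, single_mul]
    split_ifs
    · change _ = (sc p q _).1 t * (eB p q _).1 t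
      rw [eB_apply, sc_apply, smul_mul_smul_comm, one_mul]
      rfl
    · rw [map_zero, smul_zero]; rfl
  · rw [← map_sum]
    refine congrArg β (zext fun t => ?_)
    simp only [sum_apply, eB_apply, sc_apply, ← Finset.smul_sum, ← map_sum]
    rw [Matrix.sum_single_one, map_one]
    rfl
  · exact fun x j k => hcomm _ _
  · intro j k
    rw [← map_star]
    refine congrArg β (zext fun t => ?_)
    change star ((eM p q _).1 t) = _
    rw [eM_apply, eM_apply, star_smul, single_star]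
    simp
  · intro j k l n
    rw [e1, ← map_mul, ← map_mul, ← map_mul, ← map_zero β, ← apply_ite β]
    refine congrArg β (zext fun t => ?_)
    change (eM p q _).1 t * (eM p q _).1 t = _
    rw [eM_apply, eM_apply, smul_mul_smul_comm, single_mul]
    split_ifs
    · change _ = (sc p q _).1 t * (sc p q _).1 t * (eM p q _).1 t
      rw [eM_apply, sc_apply, sc_apply, smul_mul_smul_comm, smul_mul_smul_comm, one_mul, one_mul]
      rfl
    · simp
  · exact fun g x y => hcomm _ _
  · intro j k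
    rw [← map_mul, ← map_sum]
    refine congrArg β (zext fun t => ?_)
    change (sc p q _).1 t * (eA p q _).1 t = _
    simp only [sum_apply, eA_apply, eM_apply, sc_apply, ← Finset.smul_sum, smul_mul_smul_comm,
      one_mul, kL_single]
    rfl
  · intro j k
    rw [e1, ← map_mul, ← map_sum]
    refine congrArg β (zext fun t => ?_)
    change (sc p q _).1 t * (eB p q _).1 t = _
    simp only [sum_apply, eB_apply, eM_apply, sc_apply, ← Finset.smul_sum, smul_mul_smul_comm,
      one_mul, kR_single]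
    rw [mul_comm]
    rfl

lemma cont {A C : Type*} [CStarAlgebra A] [CStarAlgebra C] (f : A →⋆ₐ[ℂ] C) : Continuous f :=
  AddMonoidHomClass.continuous_of_bound f 1 fun x => by
    simpa using NonUnitalStarAlgHom.norm_apply_le f x

lemma dense_rep : Dense {g : dimDrop p q | ∃ h, IsRep g.1 h} :=
  dense_isRep (N₀ := (⊤ : StarSubalgebra ℂ _).map (kL (Fin p) (Fin q)))
    (N₁ := (⊤ : StarSubalgebra ℂ _).map (kR (Fin p) (Fin q))) (dimDrop p q) fun _ =>
      mem_dimDrop.trans ⟨fun ⟨⟨c, hc⟩, d, hd⟩ => ⟨⟨c, trivial, hc.symm⟩, d, trivial, hd.symm⟩,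
        fun ⟨⟨c, _, hc⟩, d, _, hd⟩ => ⟨⟨c, hc.symm⟩, d, hd.symm⟩⟩

lemma ext_rep {C : Type*} [CStarAlgebra C] (f f' : dimDrop p q →⋆ₐ[ℂ] C)
    (h : ∀ (g : dimDrop p q) h c d, IsRep g.1 h → g.1 0 = kap (Equiv.refl _) c →
      g.1 1 = kap (Equiv.prodComm _ _) d → f g = f' g) (g : dimDrop p q) : f g = f' g :=
  congrFun (Continuous.ext_on dense_rep (cont f) (cont f') fun g hg => hg.elim fun k hk =>
    (mem_dimDrop.1 g.2).1.elim fun c hc => (mem_dimDrop.1 g.2).2.elim fun d hd =>
      h g k c d hk hc hd) g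

lemma isRep_apply {M : Type} [CStarAlgebra M] {F h : C(unitInterval, M)} (hh : IsRep F h)
    (t : unitInterval) : F t = (1 - (t : ℝ) : ℂ) • F 0 + ((t : ℝ) : ℂ) • F 1 +
      ((t : ℝ) * (1 - (t : ℝ)) : ℂ) • h t := congrArg (fun F => F t) hh

lemma isRep_of {M : Type} [CStarAlgebra M] {F h : C(unitInterval, M)}
    (hh : ∀ t : unitInterval, F t = (1 - (t : ℝ) : ℂ) • F 0 + ((t : ℝ) : ℂ) • F 1 +
      ((t : ℝ) * (1 - (t : ℝ)) : ℂ) • h t) : IsRep F h := ContinuousMap.ext hh

lemma lam_apply [Nonempty (Fin p)] [Nonempty (Fin q)] (g : dimDrop p q) (t : unitInterval) :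
    (lam p q g).1 t = kc p q (g.1 t) := rfl

lemma rep_lam [Nonempty (Fin p)] [Nonempty (Fin q)] {g : dimDrop p q}
    {h : C(unitInterval, Matrix (Fin p × Fin q) (Fin p × Fin q) ℂ)} (hh : IsRep g.1 h) :
    IsRep (lam p q g).1 ((kcC p q).comp h) := isRep_of fun t => by
  rw [lam_apply, lam_apply, lam_apply, isRep_apply hh t, map_add, map_add, map_smul, map_smul,
    map_smul]
  rfl

lemma piM_kap_kc [Nonempty (Fin p)] [Nonempty (Fin q)] {J₀ R : Type} [DecidableEq R]
    (e : Fin p × Fin q ≃ J₀ × R) (c : Matrix J₀ J₀ ℂ) :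
    piM p q (kc p q (kap e c)) = kap e (c.map fun a => a • 1) := by
  refine Matrix.ext fun x y => ?_
  rw [piM_kc, kap_apply, kap_apply]
  split_ifs <;> simp

/-- matrix entries of a function -/
noncomputable def en (h : C(unitInterval, Matrix (Fin p × Fin q) (Fin p × Fin q) ℂ))
    (x y : Fin p × Fin q) : C(unitInterval, ℂ) :=
  ⟨fun t => h t x y, h.continuous.matrix_elem x y⟩

lemma rep_sum {g : dimDrop p q} {h : C(unitInterval, Matrix (Fin p × Fin q) (Fin p × Fin q) ℂ)}
    (hh : IsRep g.1 h) {c : Matrix (Fin p) (Fin p) ℂ} {d : Matrix (Fin q) (Fin q) ℂ}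
    (hc : g.1 0 = kL _ _ c) (hd : g.1 1 = kR _ _ d) :
    ∑ j, ∑ k, c j k • eA p q (Matrix.single j k 1) +
      ∑ j, ∑ k, d j k • eB p q (Matrix.single j k 1) +
      ∑ x, ∑ y, sc p q (en h x y) * eM p q (Matrix.single x y 1) = g := by
  refine zext fun t => ?_
  have s1 : ∀ (a : ℂ) (f : dimDrop p q), (a • f).1 t = a • f.1 t := fun _ _ => rfl
  have s2 : ∀ f f' : dimDrop p q, (f * f').1 t = f.1 t * f'.1 t := fun _ _ => rfl
  have s3 : ∀ f f' : dimDrop p q, (f + f').1 t = f.1 t + f'.1 t := fun _ _ => rfl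
  simp only [s1, s2, s3, sum_apply, eA_apply, eB_apply, eM_apply, sc_apply, smul_mul_assoc,
    one_mul, smul_comm (c _ _), smul_comm (d _ _), smul_comm (en h _ _ t), ← Finset.smul_sum,
    ← map_smul, ← map_sum, sum_single]
  rw [isRep_apply hh t, hc, hd, map_smul, map_smul]
  congr 2
  exact sum_single (h t)

lemma rep_const [Nonempty (Fin p)] [Nonempty (Fin q)] {g : dimDrop p q} {v : sqAlg p q}
    (hv : ∀ t s, v.1 (t, s) = kR _ _ (g.1 s)) : IsRep (curH p q v).1 0 :=
  isRep_of fun t => by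
    have h : ∀ t', (curH p q v).1 t' = (curH p q v).1 t := fun t' =>
      Subtype.ext (ContinuousMap.ext fun s => (hv t' s).trans (hv t s).symm)
    rw [h 0, h 1, ← add_smul]
    simp

lemma piM_const [Nonempty (Fin p)] [Nonempty (Fin q)] {g : dimDrop p q} {v : sqAlg p q}
    (hv : ∀ t s, v.1 (t, s) = kR _ _ (g.1 s)) {J₀ R : Type} [DecidableEq J₀] [DecidableEq R]
    (e : Fin p × Fin q ≃ J₀ × R) (t : unitInterval) :
    piM p q ((curH p q v).1 t) = kap e (Matrix.diagonal fun _ => g) := by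
  have r0 : piM p q ((curH p q v).1 t) = Matrix.diagonal fun _ => g := by
    ext x y s i j
    change v.1 (t, s) (x, i) (y, j) = _
    rw [hv, kR_apply, Matrix.diagonal_apply]
    split_ifs <;> rfl
  rw [r0]
  refine Matrix.ext fun x y => ?_
  rw [kap_apply, Matrix.diagonal_apply, Matrix.diagonal_apply, ← ite_and]
  refine if_congr ?_ rfl rfl
  rw [← e.injective.eq_iff, Prod.ext_iff, and_comm]

lemma cur_eq_lam [Nonempty (Fin p)] [Nonempty (Fin q)] {g : dimDrop p q} {v : sqAlg p q}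
    (hv : ∀ t s, v.1 (t, s) = kL _ _ (g.1 t)) : curH p q v = lam p q g :=
  Subtype.ext (ContinuousMap.ext fun t => Subtype.ext (ContinuousMap.ext fun s => hv t s))

lemma entry_kc [Nonempty (Fin p)] [Nonempty (Fin q)]
    (h : C(unitInterval, Matrix (Fin p × Fin q) (Fin p × Fin q) ℂ)) (x y : Fin p × Fin q) :
    entryMap (piM p q) continuous_piM ((kcC p q).comp h) x y =
      en h x y • ContinuousMap.const unitInterval 1 :=
  ContinuousMap.ext fun _ => piM_kc _ _ _

lemma piM_lam [Nonempty (Fin p)] [Nonempty (Fin q)] {J₀ R : Type} [DecidableEq R]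
    {e : Fin p × Fin q ≃ J₀ × R} {c : Matrix J₀ J₀ ℂ} {g : dimDrop p q} {t : unitInterval}
    (h : g.1 t = kap e c) : piM p q ((lam p q g).1 t) = kap e (c.map fun a => a • 1) := by
  rw [lam_apply, h, piM_kap_kc]

section

variable [Nonempty (Fin p)] [Nonempty (Fin q)] {C : Type*} [CStarAlgebra C]

/-- the defining formula of the homomorphism -/
def Spec (β : dimDrop p q →⋆ₐ[ℂ] C) (Γ : C(unitInterval, dimDrop p q) →⋆ₐ[ℂ] C)
    (Φ : SS p q →⋆ₐ[ℂ] C) : Prop :=
  ∀ (F : SS p q) (g : C(unitInterval, MM p q)) (c₀ : Matrix (Fin p) (Fin p) (dimDrop p q))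
    (c₁ : Matrix (Fin q) (Fin q) (dimDrop p q)), IsRep F.1 g →
    piM p q (F.1 0) = kap (Equiv.refl (Fin p × Fin q)) c₀ →
    piM p q (F.1 1) = kap (Equiv.prodComm (Fin p) (Fin q)) c₁ →
    Φ F = ∑ j, ∑ k, Γ (ContinuousMap.const unitInterval (c₀ j k)) *
        β (eA p q (Matrix.single j k 1)) +
      ∑ j, ∑ k, Γ (ContinuousMap.const unitInterval (c₁ j k)) * β (eB p q (Matrix.single j k 1)) +
      ∑ x, ∑ y, Γ (entryMap (piM p q) continuous_piM g x y) * β (eM p q (Matrix.single x y 1))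

variable {α β : dimDrop p q →⋆ₐ[ℂ] C} {Γ : C(unitInterval, dimDrop p q) →⋆ₐ[ℂ] C}
  {Φ : SS p q →⋆ₐ[ℂ] C}

lemma Spec.lam (hΦ : Spec β Γ Φ)
    (h1 : ∀ φ b, Γ (φ • ContinuousMap.const unitInterval b) = β (sc p q φ) * α b)
    (h3 : ∀ b, Γ (ContinuousMap.const unitInterval b) = α b) (g : dimDrop p q) :
    Φ (lam p q g) = β g := by
  refine ext_rep (Φ.comp (ZTens.lam p q)) β (fun g h c d hh hc0 hd1 => ?_) g
  refine (hΦ _ _ _ _ (rep_lam hh) (piM_lam hc0) (piM_lam hd1)).trans ?_
  rw [← rep_sum hh hc0 hd1]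
  simp only [h3, entry_kc, h1, Matrix.map_apply, map_smul, map_one, mul_one, smul_mul_assoc,
    one_mul, map_add, map_sum, map_mul]

lemma Spec.const (hΦ : Spec β Γ Φ) (h3 : ∀ b, Γ (ContinuousMap.const unitInterval b) = α b)
    {z : C} (ha : ∑ j, β (eA p q (Matrix.single j j 1)) = 1 - z)
    (hb : ∑ j, β (eB p q (Matrix.single j j 1)) = z) {g : dimDrop p q} {v : sqAlg p q}
    (hv : ∀ t s, v.1 (t, s) = kR _ _ (g.1 s)) : Φ (curH p q v) = α g := by
  have r2 : ∀ x y, entryMap (piM p q) continuous_piM 0 x y = 0 := fun x y =>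
    ContinuousMap.ext fun t => by simp
  refine (hΦ _ _ _ _ (rep_const hv) (piM_const hv _ 0) (piM_const hv _ 1)).trans ?_
  simp only [h3, r2, map_zero, zero_mul, Finset.sum_const_zero, add_zero, Matrix.diagonal_apply,
    apply_ite α, ite_mul, Finset.sum_ite_eq, Finset.mem_univ, if_true]
  rw [← Finset.mul_sum, ← Finset.mul_sum, ha, hb, ← mul_add, sub_add_cancel, mul_one]

end

end ZTens

open ZTens in
theorem exists_sqHom {C : Type*} [CStarAlgebra C] {p q : ℕ} (hp : 0 < p) (hq : 0 < q)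
    (α β : dimDrop p q →⋆ₐ[ℂ] C) (hc : ∀ f g, Commute (α f) (β g)) :
    ∃ Φ : sqAlg p q →⋆ₐ[ℂ] C,
      (∀ (g : dimDrop p q) (v : sqAlg p q), (∀ t s, v.1 (t, s) = kL _ _ (g.1 t)) → Φ v = β g) ∧
      ∀ (g : dimDrop p q) (v : sqAlg p q), (∀ t s, v.1 (t, s) = kR _ _ (g.1 s)) → Φ v = α g := by
  have : Nonempty (Fin p) := ⟨⟨0, hp⟩⟩
  have : Nonempty (Fin q) := ⟨⟨0, hq⟩⟩
  obtain ⟨Γ, h1, h2⟩ := exists_contHom (β.comp (sc p q)) α fun φ b => (hc b _).symm
  have hD := mdata α β hc Γ h1 h2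
  obtain ⟨Φ, -, hΦ⟩ := hD.exists_hom (piM p q) continuous_piM (SS p q) mem_SS
  have h3 : ∀ b, Γ (ContinuousMap.const unitInterval b) = α b := fun b => by
    have := h1 1 b
    rw [map_one, one_mul] at this
    exact (congrArg Γ (ContinuousMap.ext fun t => (one_smul ℂ b).symm)).trans this
  exact ⟨Φ.comp (curH p q),
    fun g v hv => (congrArg Φ (cur_eq_lam hv)).trans (Spec.lam hΦ h1 h3 g),
    fun g v hv => Spec.const hΦ h3 hD.a_sum hD.b_sum hv⟩

end Vale.Agent.P101
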