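import Mathlib

/-!
Definitions for the Kirchberg-Rordam character question: the norm ultrapower, the central
sequence algebra, prime dimension drop algebras, the Jiang-Su algebra and the spatial tensor
product.
-/

namespace Vale.Agent.P101

open Filter Topology
open scoped Kronecker TensorProduct

/-- The ideal of bounded sequences `(a n)` with `lim_{n → ω} ‖a n‖ = 0`;
`ℓ^∞(ℕ, A)` is the C*-algebra `ℕ →ᵇ A` of bounded functions on the discrete space `ℕ`. -/
noncomputable def nullIdeal (A : Type*) [CStarAlgebra A] (ω : Ultrafilter ℕ) :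
    Ideal (BoundedContinuousFunction ℕ A) where
  carrier := {a | Tendsto (fun n => ‖a n‖) (ω : Filter ℕ) (𝓝 0)}
  zero_mem' := by simp
  add_mem' := fun {x y} hx hy => squeeze_zero (fun _ => norm_nonneg _)
    (fun n => norm_add_le (x n) (y n)) (by simpa using hx.add hy)
  smul_mem' := fun x y hy => squeeze_zero (fun _ => norm_nonneg _)
    (fun n => (norm_mul_le (x n) (y n)).trans
      (mul_le_mul_of_nonneg_right (x.norm_coe_le_norm n) (norm_nonneg _)))
    (by simpa using hy.const_mul ‖x‖)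

instance nullIdeal_isTwoSided (A : Type*) [CStarAlgebra A] (ω : Ultrafilter ℕ) :
    (nullIdeal A ω).IsTwoSided where
  mul_mem_of_left := fun {x} y hx => squeeze_zero (fun _ => norm_nonneg _)
    (fun n => (norm_mul_le (x n) (y n)).trans
      (mul_le_mul_of_nonneg_left (y.norm_coe_le_norm n) (norm_nonneg _)))
    (by simpa using Tendsto.mul_const ‖y‖ hx)

/-- The norm ultrapower `A_ω = ℓ^∞(ℕ, A) / c_ω(A)`. -/
abbrev Ultrapower (A : Type*) [CStarAlgebra A] (ω : Ultrafilter ℕ) : Type _ :=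
  BoundedContinuousFunction ℕ A ⧸ nullIdeal A ω

/-- The involution of the quotient: the class of `(a n)` goes to the class of `(star (a n))`. -/
noncomputable instance starRingUltrapower (A : Type*) [CStarAlgebra A] (ω : Ultrafilter ℕ) :
    StarRing (Ultrapower A ω) where
  star := Quotient.map' (fun a : BoundedContinuousFunction ℕ A => star a) (fun x y h => by
    have h1 : x - y ∈ nullIdeal A ω := (Submodule.quotientRel_def _).1 h
    refine (Submodule.quotientRel_def _).2 ?_
    change Tendsto (fun n => ‖(star x - star y) n‖) (ω : Filter ℕ) (𝓝 0)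
    change Tendsto (fun n => ‖(x - y) n‖) (ω : Filter ℕ) (𝓝 0) at h1
    simpa [← star_sub] using h1)
  star_involutive := by
    rintro ⟨x⟩
    exact congrArg (Ideal.Quotient.mk (nullIdeal A ω)) (star_star x)
  star_mul := by
    rintro ⟨x⟩ ⟨y⟩
    exact congrArg (Ideal.Quotient.mk (nullIdeal A ω)) (star_mul x y)
  star_add := by
    rintro ⟨x⟩ ⟨y⟩
    exact congrArg (Ideal.Quotient.mk (nullIdeal A ω)) (star_add x y)

instance starModuleUltrapower (A : Type*) [CStarAlgebra A] (ω : Ultrafilter ℕ) :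
    StarModule ℂ (Ultrapower A ω) where
  star_smul := by
    rintro c ⟨x⟩
    exact congrArg (Ideal.Quotient.mk (nullIdeal A ω)) (star_smul c x)

/-- The central sequence algebra `F_ω(A) = A_ω ∩ A'`: the elements of the ultrapower commuting
with the classes of all constant sequences. -/
noncomputable def centralSeq (A : Type*) [CStarAlgebra A] (ω : Ultrafilter ℕ) :
    StarSubalgebra ℂ (Ultrapower A ω) :=
  StarSubalgebra.centralizer ℂ (Set.range fun a : A =>
    Ideal.Quotient.mk (nullIdeal A ω) (BoundedContinuousFunction.const ℕ a))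

/-- `F_ω(A)` has no character: every `*`-homomorphism to `ℂ` is zero. -/
def NoCharacter (A : Type*) [CStarAlgebra A] (ω : Ultrafilter ℕ) : Prop :=
  ∀ χ : centralSeq A ω →⋆ₙₐ[ℂ] ℂ, χ = 0

/-- The dimension drop algebra
`Z_{p,q} = {f ∈ C([0,1], M_p ⊗ M_q) : f 0 ∈ M_p ⊗ 1, f 1 ∈ 1 ⊗ M_q}`. -/
noncomputable def dimDrop (p q : ℕ) :
    StarSubalgebra ℂ C(unitInterval, Matrix (Fin p × Fin q) (Fin p × Fin q) ℂ) where
  carrier := {f | (∃ a : Matrix (Fin p) (Fin p) ℂ, f 0 = a ⊗ₖ (1 : Matrix (Fin q) (Fin q) ℂ)) ∧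
    ∃ b : Matrix (Fin q) (Fin q) ℂ, f 1 = (1 : Matrix (Fin p) (Fin p) ℂ) ⊗ₖ b}
  mul_mem' := by
    rintro f g ⟨⟨a, ha⟩, b, hb⟩ ⟨⟨a', ha'⟩, b', hb'⟩
    refine ⟨⟨a * a', ?_⟩, b * b', ?_⟩
    · rw [ContinuousMap.mul_apply, ha, ha', ← Matrix.mul_kronecker_mul, mul_one]
    · rw [ContinuousMap.mul_apply, hb, hb', ← Matrix.mul_kronecker_mul, mul_one]
  add_mem' := by
    rintro f g ⟨⟨a, ha⟩, b, hb⟩ ⟨⟨a', ha'⟩, b', hb'⟩
    refine ⟨⟨a + a', ?_⟩, b + b', ?_⟩
    · rw [ContinuousMap.add_apply, ha, ha', Matrix.add_kronecker]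
    · rw [ContinuousMap.add_apply, hb, hb', Matrix.kronecker_add]
  algebraMap_mem' := fun c => by
    refine ⟨⟨c • 1, ?_⟩, c • 1, ?_⟩
    · rw [Matrix.smul_kronecker, Matrix.one_kronecker_one, Algebra.algebraMap_eq_smul_one]; rfl
    · rw [Matrix.kronecker_smul, Matrix.one_kronecker_one, Algebra.algebraMap_eq_smul_one]; rfl
  star_mem' := by
    rintro f ⟨⟨a, ha⟩, b, hb⟩
    refine ⟨⟨star a, ?_⟩, star b, ?_⟩
    · rw [ContinuousMap.star_apply, ha, Matrix.star_eq_conjTranspose,
        Matrix.conjTranspose_kronecker, Matrix.conjTranspose_one]; rfl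
    · rw [ContinuousMap.star_apply, hb, Matrix.star_eq_conjTranspose,
        Matrix.conjTranspose_kronecker, Matrix.conjTranspose_one]; rfl

/-- `φ f = u* diag (f ∘ ξ 1, …, f ∘ ξ k) u` for a continuous path of unitaries `u` and continuous
paths `ξ i` in `[0,1]` of oscillation at most `δ`. -/
def IsDiagonalForm {p q p' q' : ℕ} (φ : dimDrop p q →⋆ₐ[ℂ] dimDrop p' q') (δ : ℝ) : Prop :=
  ∃ (k : ℕ) (e : (Fin p × Fin q) × Fin k ≃ Fin p' × Fin q')
    (u : C(unitInterval, Matrix (Fin p' × Fin q') (Fin p' × Fin q') ℂ))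
    (ξ : Fin k → C(unitInterval, unitInterval)),
    (∀ x, u x ∈ Matrix.unitaryGroup (Fin p' × Fin q') ℂ) ∧
    (∀ i x y, |(ξ i x : ℝ) - (ξ i y : ℝ)| ≤ δ) ∧
    ∀ (f : dimDrop p q) (x : unitInterval), (φ f).1 x =
      star (u x) * Matrix.reindex e e (Matrix.blockDiagonal fun i => f.1 (ξ i x)) * u x

/-- `Z` is the Jiang-Su algebra (Jiang-Su 1999, Proposition 2.5 and Theorem 2.9): the inductive
limit of a sequence of prime dimension drop algebras `Z_{p n, q n}` whose connecting maps
`φ_{m,n}` are injective, unital and of the form `u* diag (f ∘ ξ i) u` with paths `ξ i` of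
oscillation at most `2 ^ (m - n)`. -/
def IsJiangSu (Z : Type*) [CStarAlgebra Z] : Prop :=
  ∃ (p q : ℕ → ℕ) (ι : ∀ n, dimDrop (p n) (q n) →⋆ₐ[ℂ] Z),
    (∀ n, 2 ≤ p n ∧ 2 ≤ q n ∧ Nat.Coprime (p n) (q n)) ∧
    (∀ n, Function.Injective (ι n)) ∧
    Dense (⋃ n, Set.range (ι n)) ∧
    ∀ m n, m < n → ∃ φ : dimDrop (p m) (q m) →⋆ₐ[ℂ] dimDrop (p n) (q n),
      (∀ f, ι n (φ f) = ι m f) ∧ IsDiagonalForm φ ((1 / 2 : ℝ) ^ (n - m))

/-- The Hilbert space tensor product: the completion of the algebraic tensor product for the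
inner product `⟪x ⊗ y, x' ⊗ y'⟫ = ⟪x, x'⟫ ⟪y, y'⟫`. -/
def HilbertTensor (H K : Type*) [NormedAddCommGroup H] [InnerProductSpace ℂ H]
    [NormedAddCommGroup K] [InnerProductSpace ℂ K] : Type _ :=
  UniformSpace.Completion (H ⊗[ℂ] K)

noncomputable instance normedHilbertTensor (H K : Type*) [NormedAddCommGroup H]
    [InnerProductSpace ℂ H] [NormedAddCommGroup K] [InnerProductSpace ℂ K] :
    NormedAddCommGroup (HilbertTensor H K) :=
  inferInstanceAs (NormedAddCommGroup (UniformSpace.Completion (H ⊗[ℂ] K)))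

noncomputable instance innerHilbertTensor (H K : Type*) [NormedAddCommGroup H]
    [InnerProductSpace ℂ H] [NormedAddCommGroup K] [InnerProductSpace ℂ K] :
    InnerProductSpace ℂ (HilbertTensor H K) :=
  inferInstanceAs (InnerProductSpace ℂ (UniformSpace.Completion (H ⊗[ℂ] K)))

instance completeHilbertTensor (H K : Type*) [NormedAddCommGroup H]
    [InnerProductSpace ℂ H] [NormedAddCommGroup K] [InnerProductSpace ℂ K] :
    CompleteSpace (HilbertTensor H K) :=
  inferInstanceAs (CompleteSpace (UniformSpace.Completion (H ⊗[ℂ] K)))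

/-- The operator `S ⊗ T` on the Hilbert space tensor product. -/
noncomputable def opTensor {H K : Type*} [NormedAddCommGroup H] [InnerProductSpace ℂ H]
    [NormedAddCommGroup K] [InnerProductSpace ℂ K] (S : H →L[ℂ] H) (T : K →L[ℂ] K) :
    HilbertTensor H K →L[ℂ] HilbertTensor H K :=
  (TensorProduct.mapL S T).completion

/-- The spatial tensor product of two representations: the norm closure of the `*`-algebra
generated by the operators `π a ⊗ σ b` on the Hilbert space tensor product. -/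
noncomputable def spatialTensor {A B H K : Type*} [CStarAlgebra A] [CStarAlgebra B]
    [NormedAddCommGroup H] [InnerProductSpace ℂ H] [CompleteSpace H]
    [NormedAddCommGroup K] [InnerProductSpace ℂ K] [CompleteSpace K]
    (π : A →⋆ₐ[ℂ] (H →L[ℂ] H)) (σ : B →⋆ₐ[ℂ] (K →L[ℂ] K)) :
    StarSubalgebra ℂ (HilbertTensor H K →L[ℂ] HilbertTensor H K) :=
  (StarAlgebra.adjoin ℂ {T | ∃ a b, T = opTensor (π a) (σ b)}).topologicalClosure

end Vale.Agent.P101
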