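import Mathlib

/-! P101: internal definitions and small tools. -/

namespace Vale.Agent.P101.F

open Filter Topology
open scoped Kronecker ComplexOrder

universe u

/-- the canonical order of a C*-algebra, with low priority -/
noncomputable scoped instance (priority := 10) specOrder (E : Type u) [CStarAlgebra E] :
    PartialOrder E := CStarAlgebra.spectralOrder E

scoped instance (priority := 10) specOrderedRing (E : Type u) [CStarAlgebra E] :
    StarOrderedRing E := CStarAlgebra.spectralOrderedRing E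

variable {D E : Type u} [CStarAlgebra D] [CStarAlgebra E]

/-- `S` generates `E` as a closed two-sided ideal, phrased with quotients. -/
def Full (S : Set E) : Prop :=
  ∀ (Q : Type u) [CStarAlgebra Q] [Nontrivial Q] (q : E →⋆ₐ[ℂ] Q), ∃ s ∈ S, q s ≠ 0

theorem Full.mono {S T : Set E} (h : Full S) (hST : S ⊆ T) : Full T := fun Q _ _ q =>
  let ⟨s, hs, h1⟩ := h Q q
  ⟨s, hST hs, h1⟩

theorem Full.map {S : Set D} (h : Full S) (π : D →⋆ₐ[ℂ] E) : Full (π '' S) := fun Q _ _ q =>
  let ⟨s, hs, h1⟩ := h Q (q.comp π)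
  ⟨π s, ⟨s, hs, rfl⟩, h1⟩

theorem full_of_sum {S : Set E} {n : ℕ} (x s y : Fin n → E) (hs : ∀ i, s i ∈ S)
    (h : ∑ i, x i * s i * y i = 1) : Full S := fun Q _ _ q => by
  by_contra hc
  push Not at hc
  have := congrArg q h
  simp [hc _ (hs _)] at this

/-- commuting ranges -/
def Com {D' : Type u} [CStarAlgebra D'] (π : D →⋆ₐ[ℂ] E) (π' : D' →⋆ₐ[ℂ] E) : Prop :=
  ∀ x y, Commute (π x) (π' y)

/-- three commuting copies that generate -/
def Gen3 (π : Fin 3 → (D →⋆ₐ[ℂ] E)) : Prop :=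
  (∀ i j, i ≠ j → Com (π i) (π j)) ∧
    (StarAlgebra.adjoin ℂ (⋃ i, Set.range (π i))).topologicalClosure = ⊤

/-- a class of C*-algebras in which every member has three commuting copies generating a member -/
def Closed3 (P : ∀ (E : Type u) [CStarAlgebra E], Prop) : Prop :=
  ∀ (D : Type u) [CStarAlgebra D], P D →
    ∃ (E : Type u) (_ : CStarAlgebra E), P E ∧ ∃ π : Fin 3 → (D →⋆ₐ[ℂ] E), Gen3 π

/-- contractive completely positive order zero maps on a matrix algebra -/
structure OZ (ι : Type) [Fintype ι] [DecidableEq ι] (E : Type u) [CStarAlgebra E] where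
  φ : Matrix ι ι ℂ →ₗ[ℂ] E
  star' : ∀ x, φ (star x) = star (φ x)
  mul' : ∀ x y, φ x * φ y = φ 1 * φ (x * y)
  nonneg : 0 ≤ φ 1
  le_one : φ 1 ≤ 1

variable {ι κ : Type} [Fintype ι] [DecidableEq ι] [Fintype κ] [DecidableEq κ]

theorem OZ.comm (α : OZ ι E) (x : Matrix ι ι ℂ) : Commute (α.φ 1) (α.φ x) := by
  have := α.mul' x 1
  rw [mul_one] at this
  exact this.symm

theorem OZ.sa (α : OZ ι E) : IsSelfAdjoint (α.φ 1) := α.nonneg.isSelfAdjoint

/-- push forward along a unital *-homomorphism -/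
noncomputable def OZ.map (α : OZ ι D) (π : D →⋆ₐ[ℂ] E) : OZ ι E where
  φ := π.toAlgHom.toLinearMap ∘ₗ α.φ
  star' x := (congrArg π (α.star' x)).trans (map_star π _)
  mul' x y := (map_mul π _ _).symm.trans ((congrArg π (α.mul' x y)).trans (map_mul π _ _))
  nonneg := by
    have := OrderHomClass.mono π α.nonneg
    rwa [map_zero] at this
  le_one := by
    have := OrderHomClass.mono π α.le_one
    rwa [map_one π] at this

@[simp] theorem OZ.map_φ (α : OZ ι D) (π : D →⋆ₐ[ℂ] E) (x : Matrix ι ι ℂ) :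
    (α.map π).φ x = π (α.φ x) := rfl

/-- the relations of Rordam and Winter with `n` summands -/
def RWn (ι : Type) [Fintype ι] [DecidableEq ι] (i0 : ι) (n : ℕ) (E : Type u) [CStarAlgebra E] :
    Prop :=
  ∃ (α : OZ ι E) (s : Fin n → E), ∑ r, star (s r) * s r = 1 - α.φ 1 ∧
    ∀ r, α.φ (Matrix.single i0 i0 1) * s r = s r

variable (ι κ) in
/-- `x ↦ x ⊗ 1` -/
def kl : Matrix ι ι ℂ →⋆ₐ[ℂ] Matrix (ι × κ) (ι × κ) ℂ where
  toFun x := x ⊗ₖ (1 : Matrix κ κ ℂ)
  map_one' := Matrix.one_kronecker_one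
  map_mul' x y := by rw [← Matrix.mul_kronecker_mul, one_mul]
  map_zero' := Matrix.zero_kronecker _
  map_add' x y := Matrix.add_kronecker _ _ _
  commutes' c := by
    rw [Algebra.algebraMap_eq_smul_one, Matrix.smul_kronecker, Matrix.one_kronecker_one,
      Algebra.algebraMap_eq_smul_one]
  map_star' x := by
    rw [Matrix.star_eq_conjTranspose, Matrix.star_eq_conjTranspose, Matrix.conjTranspose_kronecker,
      Matrix.conjTranspose_one]

variable (ι κ) in
/-- `y ↦ 1 ⊗ y` -/
def kr : Matrix κ κ ℂ →⋆ₐ[ℂ] Matrix (ι × κ) (ι × κ) ℂ where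
  toFun y := (1 : Matrix ι ι ℂ) ⊗ₖ y
  map_one' := Matrix.one_kronecker_one
  map_mul' x y := by rw [← Matrix.mul_kronecker_mul, one_mul]
  map_zero' := Matrix.kronecker_zero _
  map_add' x y := Matrix.kronecker_add _ _ _
  commutes' c := by
    rw [Algebra.algebraMap_eq_smul_one, Matrix.kronecker_smul, Matrix.one_kronecker_one,
      Algebra.algebraMap_eq_smul_one]
  map_star' x := by
    rw [Matrix.star_eq_conjTranspose, Matrix.star_eq_conjTranspose, Matrix.conjTranspose_kronecker,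
      Matrix.conjTranspose_one]

theorem kl_apply (x : Matrix ι ι ℂ) : kl ι κ x = x ⊗ₖ (1 : Matrix κ κ ℂ) := rfl

theorem kr_apply (y : Matrix κ κ ℂ) : kr ι κ y = (1 : Matrix ι ι ℂ) ⊗ₖ y := rfl

/-- a bounded densely defined graph extends to a *-homomorphism -/
theorem ext_graph {A B : Type u} [CStarAlgebra A] [CStarAlgebra B] (G : StarSubalgebra ℂ (A × B))
    (C : ℝ) (hb : ∀ g ∈ G, ‖g.2‖ ≤ C * ‖g.1‖) (hd : Dense (Prod.fst '' (G : Set (A × B)))) :
    ∃ Ψ : A →⋆ₐ[ℂ] B, ∀ g ∈ G, Ψ g.1 = g.2 := by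
  have hc : IsClosed (G.topologicalClosure : Set (A × B)) := G.isClosed_topologicalClosure
  have hb' : ∀ g ∈ G.topologicalClosure, ‖g.2‖ ≤ C * ‖g.1‖ := fun g hg =>
    closure_minimal (t := {g : A × B | ‖g.2‖ ≤ C * ‖g.1‖}) hb
      (isClosed_le (by fun_prop) (by fun_prop)) hg
  let p : G.topologicalClosure →⋆ₐ[ℂ] A := (StarAlgHom.fst ℂ A B).comp G.topologicalClosure.subtype
  have hi : Function.Injective p := by
    rw [injective_iff_map_eq_zero]
    intro g hg
    have h1 : g.1.1 = 0 := hg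
    have h2 := hb' g.1 g.2
    rw [h1, norm_zero, mul_zero, norm_le_zero_iff] at h2
    exact Subtype.ext (Prod.ext h1 h2)
  have hs : Function.Surjective p := by
    have h1 : IsClosed (Set.range p) :=
      (NonUnitalStarAlgHom.isometry p hi).isClosedEmbedding.isClosed_range
    have h2 : Dense (Set.range p) := hd.mono (by
      rintro _ ⟨g, hg, rfl⟩
      exact ⟨⟨g, G.le_topologicalClosure hg⟩, rfl⟩)
    rw [← Set.range_eq_univ, ← h1.closure_eq, h2.closure_eq]
  let e := StarAlgEquiv.ofBijective p ⟨hi, hs⟩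
  refine ⟨((StarAlgHom.snd ℂ A B).comp G.topologicalClosure.subtype).comp
    (e.symm : A →⋆ₐ[ℂ] G.topologicalClosure), fun g hg => ?_⟩
  have : e.symm g.1 = ⟨g, G.le_topologicalClosure hg⟩ := e.symm_apply_eq.2 rfl
  change (e.symm g.1).1.2 = _
  rw [this]

end Vale.Agent.P101.F
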