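import Vale.Agent.P101.FQuot

/-! P101 task F: full sets, simple quotients, square-zero elements. -/

namespace Vale.Agent.P101.F

open Filter Topology
open scoped Kronecker ComplexOrder

universe u

variable {D E : Type u} [CStarAlgebra D] [CStarAlgebra E]

theorem ffull_closure (I : Ideal E) (hI : I.IsTwoSided) : I.closure.IsTwoSided :=
  ⟨fun b ha => map_mem_closure (f := fun z => z * b) (by fun_prop) ha
    fun _ hz => hI.mul_mem_of_left b hz⟩

theorem ffull_quot (I : Ideal E) (hI : I.IsTwoSided) (h1 : I ≠ ⊤) :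
    ∃ (Q : Type u) (_ : CStarAlgebra Q) (_ : Nontrivial Q) (q : E →⋆ₐ[ℂ] Q),
      Function.Surjective q ∧ ∀ x, q x = 0 ↔ x ∈ I.closure := by
  have := ffull_closure I hI
  obtain ⟨Q, _, q, hq, hk, -⟩ := exists_quot I.closure isClosed_closure
  refine ⟨Q, inferInstance, ⟨1, 0, fun h => ?_⟩, q, hq, hk⟩
  exact I.closure_ne_top h1 ((Ideal.eq_top_iff_one _).2 ((hk 1).1 (by rw [map_one, h])))

theorem Full.exists_sum {S : Set E} (h : Full S) :
    ∃ (n : ℕ) (x s y : Fin n → E), (∀ i, s i ∈ S) ∧ ∑ i, x i * s i * y i = 1 := by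
  let T : Set E := {z | ∃ s ∈ S, ∃ y, z = s * y}
  have hI : (Ideal.span T).IsTwoSided := ⟨fun {a} b ha => by
    induction ha using Submodule.span_induction with
    | mem z hz =>
      obtain ⟨s, hs, y, rfl⟩ := hz
      exact Ideal.subset_span ⟨s, hs, y * b, mul_assoc _ _ _⟩
    | zero => simp
    | add z w _ _ h1 h2 => rw [add_mul]; exact add_mem h1 h2
    | smul c z _ h1 => rw [smul_eq_mul, mul_assoc]; exact Ideal.mul_mem_left _ _ h1⟩
  by_cases h1 : Ideal.span T = ⊤
  · obtain ⟨n, f, g, hfg⟩ := Submodule.mem_span_set'.1 ((Ideal.eq_top_iff_one _).1 h1)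
    choose s hs y hy using fun i => (g i).2
    refine ⟨n, f, s, y, hs, ?_⟩
    rw [← hfg]
    exact Finset.sum_congr rfl fun i _ => by rw [hy i, smul_eq_mul, mul_assoc]
  · obtain ⟨Q, _, _, q, -, hk⟩ := ffull_quot _ hI h1
    obtain ⟨s, hs, h2⟩ := h Q q
    exact absurd ((hk s).2 (subset_closure (Ideal.subset_span ⟨s, hs, 1, (mul_one s).symm⟩))) h2

theorem Full.unif {S : Set E} (h : Full S) : ∃ δ : ℝ, 0 < δ ∧
    ∀ (Q : Type u) [CStarAlgebra Q] [Nontrivial Q] (q : E →⋆ₐ[ℂ] Q), ∃ s ∈ S, δ ≤ ‖q s‖ := by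
  obtain ⟨n, x, s, y, hs, h1⟩ := h.exists_sum
  set C := ∑ i, ‖x i‖ * ‖y i‖ with hC
  have hC0 : 0 ≤ C := Finset.sum_nonneg fun i _ => by positivity
  refine ⟨1 / (C + 1), by positivity, fun Q _ _ q => ?_⟩
  by_contra hc
  push Not at hc
  have h2 : (1 : ℝ) = ‖∑ i, q (x i) * q (s i) * q (y i)‖ := by
    simp only [← map_mul, ← map_sum, h1, map_one, CStarRing.norm_one]
  have h3 : ‖∑ i, q (x i) * q (s i) * q (y i)‖ ≤ ∑ i, ‖x i‖ * ‖y i‖ * (1 / (C + 1)) := by
    refine (norm_sum_le _ _).trans (Finset.sum_le_sum fun i _ => ?_)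
    have a1 : ‖q (x i)‖ ≤ ‖x i‖ := NonUnitalStarAlgHom.norm_apply_le q _
    have a2 : ‖q (y i)‖ ≤ ‖y i‖ := NonUnitalStarAlgHom.norm_apply_le q _
    have a3 := (hc _ (hs i)).le
    calc ‖q (x i) * q (s i) * q (y i)‖ ≤ ‖q (x i)‖ * ‖q (s i)‖ * ‖q (y i)‖ := norm_mul₃_le
      _ ≤ ‖x i‖ * (1 / (C + 1)) * ‖y i‖ := by gcongr
      _ = _ := by ring
  rw [← Finset.sum_mul, ← hC, ← h2, mul_one_div, le_div_iff₀ (by positivity)] at h3
  linarith

theorem ffull_max (I : Ideal E) (hI : I.IsTwoSided) (h1 : (1 : E) ∉ I) :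
    ∃ M : Ideal E, I ≤ M ∧ Maximal (fun J : Ideal E => J.IsTwoSided ∧ (1 : E) ∉ J) M := by
  refine zorn_le_nonempty₀ {J : Ideal E | J.IsTwoSided ∧ (1 : E) ∉ J} ?_ I ⟨hI, h1⟩
  intro c hc hch y hy
  have hm : ∀ z, z ∈ sSup c ↔ ∃ J ∈ c, z ∈ J := fun z =>
    Submodule.mem_sSup_of_directed ⟨y, hy⟩ hch.directedOn
  refine ⟨sSup c, ⟨⟨fun b ha => ?_⟩, fun h => ?_⟩, fun z hz => le_sSup hz⟩
  · obtain ⟨J, hJ, ha⟩ := (hm _).1 ha
    exact (hm _).2 ⟨J, hJ, (hc hJ).1.mul_mem_of_left b ha⟩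
  · obtain ⟨J, hJ, ha⟩ := (hm _).1 h
    exact (hc hJ).2 ha

theorem full_of_simple {S : Set E}
    (h : ∀ (Q : Type u) [CStarAlgebra Q] [IsSimpleRing Q] (q : E →⋆ₐ[ℂ] Q), Function.Surjective q →
      ∃ s ∈ S, q s ≠ 0) : Full S := by
  intro Q _ _ q
  obtain ⟨M, hM, hmax⟩ := ffull_max (RingHom.ker q) inferInstance (by simp [RingHom.mem_ker])
  have hM1 : M ≠ ⊤ := fun h => hmax.prop.2 (h ▸ Submodule.mem_top)
  have hcl : M.closure ≤ M := hmax.le_of_ge ⟨ffull_closure M hmax.prop.1, fun h =>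
    M.closure_ne_top hM1 ((Ideal.eq_top_iff_one _).2 h)⟩ subset_closure
  obtain ⟨Q', _, _, q', hq', hk⟩ := ffull_quot M hmax.prop.1 hM1
  have : IsSimpleRing Q' := IsSimpleRing.of_eq_bot_or_eq_top fun I => by
    by_cases h1 : (1 : Q') ∈ I
    · exact Or.inr (I.one_mem_iff.1 h1)
    · left
      have hle : Ideal.comap q' I.asIdeal ≤ M := hmax.le_of_ge ⟨inferInstance, by
        simpa [Ideal.mem_comap] using h1⟩ fun z hz => by
          rw [Ideal.mem_comap, (hk z).2 (subset_closure hz)]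
          exact zero_mem _
      refine eq_bot_iff.2 fun z hz => ?_
      obtain ⟨w, rfl⟩ := hq' z
      exact (hk w).2 (subset_closure (hle hz))
  obtain ⟨s, hs, h2⟩ := h Q' q' hq'
  exact ⟨s, hs, fun h3 => h2 ((hk s).2 (subset_closure (hM h3)))⟩

theorem ffull_le {ι : Type} (t : Finset ι) (x w : ι → E) : ∃ C : ℝ, 0 ≤ C ∧
    star (∑ i ∈ t, x i * w i) * ∑ i ∈ t, x i * w i ≤ C • ∑ i ∈ t, star (w i) * w i := by
  classical
  induction t using Finset.induction_on with
  | empty => exact ⟨0, le_rfl, by simp⟩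
  | insert i t hi ih =>
    obtain ⟨C, hC, h⟩ := ih
    refine ⟨2 * (‖star (x i) * x i‖ + C), by positivity, ?_⟩
    rw [Finset.sum_insert hi, Finset.sum_insert hi]
    set v := ∑ i ∈ t, x i * w i
    have hz : 0 ≤ ∑ i ∈ t, star (w i) * w i :=
      Finset.sum_nonneg fun i _ => star_mul_self_nonneg _
    set z := ∑ i ∈ t, star (w i) * w i
    have h1 : star (x i * w i) * (x i * w i) ≤ ‖star (x i) * x i‖ • (star (w i) * w i) := by
      have := CStarAlgebra.star_left_conjugate_le_norm_smul (a := w i) (b := star (x i) * x i)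
        (IsSelfAdjoint.star_mul_self _)
      simpa only [star_mul, mul_assoc] using this
    set u := x i * w i
    have h2 := star_mul_self_nonneg (u - v)
    have h3 : 0 ≤ C • (star (w i) * w i) := smul_nonneg hC (star_mul_self_nonneg _)
    have h4 : 0 ≤ ‖star (x i) * x i‖ • z := smul_nonneg (norm_nonneg _) hz
    rw [← sub_nonneg] at h h1 ⊢
    have h5 := add_nonneg (add_nonneg (add_nonneg h h1) (add_nonneg h3 h4))
      (add_nonneg (add_nonneg (add_nonneg h h1) (add_nonneg h3 h4)) h2)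
    convert h5 using 1
    simp only [star_add, star_sub, add_mul, mul_add, sub_mul, mul_sub, add_smul, smul_add, two_mul]
    abel

theorem Full.exists_star_sum {a : E} (h : Full {a}) :
    ∃ (n : ℕ) (r : Fin n → E), ∑ i, star (r i) * (star a * a) * r i = 1 := by
  obtain ⟨n, x, s, y, hs, h1⟩ := h.exists_sum
  have hs' : ∀ i, s i = a := hs
  obtain ⟨C, hC, h2⟩ := ffull_le Finset.univ x fun i => a * y i
  simp only [hs', mul_assoc] at h1
  rw [h1, star_one, one_mul] at h2
  have hz : 0 ≤ ∑ i, star (a * y i) * (a * y i) :=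
    Finset.sum_nonneg fun i _ => star_mul_self_nonneg _
  set z := ∑ i, star (a * y i) * (a * y i) with hzd
  have hu : IsUnit z := by
    have h3 : IsUnit (C • z) := CStarAlgebra.isUnit_of_le 1 h2 ⟨zero_le_one, isUnit_one⟩
    rw [Algebra.smul_def] at h3
    exact (Commute.isUnit_mul_iff (Algebra.commutes C z) |>.1 h3).2
  have h4 := CFC.conjugate_rpow_neg_one_half z ⟨hz, hu⟩
  have h5 : star (z ^ (-(1 / 2) : ℝ)) = z ^ (-(1 / 2) : ℝ) :=
    (IsSelfAdjoint.of_nonneg CFC.rpow_nonneg).star_eq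
  refine ⟨n, fun i => y i * z ^ (-(1 / 2) : ℝ), ?_⟩
  rw [← h4]
  generalize z ^ (-(1 / 2) : ℝ) = w at h5 ⊢
  rw [hzd, Finset.mul_sum, Finset.sum_mul]
  exact Finset.sum_congr rfl fun i _ => by simp only [star_mul, h5, mul_assoc]

theorem ffull_prime [IsSimpleRing E] {x y : E} (h : ∀ m, x * m * y = 0) : x = 0 ∨ y = 0 := by
  let I : TwoSidedIdeal E := TwoSidedIdeal.mk' {z | ∀ m, x * m * z = 0} (by simp)
    (fun {a b} ha hb m => by rw [mul_add, ha m, hb m, add_zero])
    (fun {a} ha m => by rw [mul_neg, ha m, neg_zero])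
    (fun {a b} hb m => by simpa only [mul_assoc] using hb (m * a))
    (fun {a b} ha m => by rw [← mul_assoc, ha m, zero_mul])
  by_cases hy : y = 0
  · exact Or.inr hy
  · have h1 := IsSimpleRing.one_mem_of_ne_zero_mem I hy (by simpa [I] using h)
    simp only [I, TwoSidedIdeal.mem_mk', Set.mem_ofPred_eq] at h1
    exact Or.inl (by simpa using h1 1)

theorem ffull_scalar {Q : Type u} [CStarAlgebra Q] [IsSimpleRing Q] (q : E →⋆ₐ[ℂ] Q)
    (hq : Function.Surjective q) (h0 : ∀ x : E, x * x = 0 → q x = 0) {a : E}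
    (ha : IsSelfAdjoint a) : ∃ r : ℝ, q a = algebraMap ℝ Q r := by
  have hqa : IsSelfAdjoint (q a) := ha.map q
  have hsub : (spectrum ℝ (q a)).Subsingleton := by
    have key : ∀ s ∈ spectrum ℝ (q a), ∀ t ∈ spectrum ℝ (q a), ¬s < t := by
      intro s hs t ht hst
      let f : ℝ → ℝ := fun x => max ((s + t) / 2 - x) 0
      let g : ℝ → ℝ := fun x => max (x - (s + t) / 2) 0
      have hf : Continuous f := by fun_prop
      have hg : Continuous g := by fun_prop
      have hgf : cfc g a * cfc f a = 0 := by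
        rw [← cfc_mul g f a, ← cfc_zero ℝ a]
        refine cfc_congr fun x _ => ?_
        simp only [f, g, Pi.zero_apply]
        rcases le_total x ((s + t) / 2) with h | h
        · rw [max_eq_right (by linarith : x - (s + t) / 2 ≤ 0), zero_mul]
        · rw [max_eq_right (by linarith : (s + t) / 2 - x ≤ 0), mul_zero]
      have hmap : ∀ k : ℝ → ℝ, Continuous k → q (cfc k a) = cfc k (q a) := fun k hk =>
        q.map_cfc k a
      have hne : ∀ k : ℝ → ℝ, Continuous k → ∀ x ∈ spectrum ℝ (q a), k x ≠ 0 →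
          cfc k (q a) ≠ 0 := by
        intro k hk x hx hkx h
        have h1 : k x ∈ spectrum ℝ (cfc k (q a)) := by
          rw [cfc_map_spectrum k (q a)]
          exact ⟨x, hx, rfl⟩
        rw [h, spectrum.zero_eq] at h1
        exact hkx h1
      have h2 : ∀ m, cfc f (q a) * m * cfc g (q a) = 0 := by
        intro m
        obtain ⟨y, rfl⟩ := hq m
        rw [← hmap f hf, ← hmap g hg, ← map_mul, ← map_mul]
        refine h0 _ ?_
        calc cfc f a * y * cfc g a * (cfc f a * y * cfc g a)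
            = cfc f a * y * (cfc g a * cfc f a) * y * cfc g a := by simp only [mul_assoc]
          _ = 0 := by simp [hgf]
      rcases ffull_prime h2 with h | h
      · exact hne f hf s hs (lt_max_of_lt_left (by linarith)).ne' h
      · exact hne g hg t ht (lt_max_of_lt_left (by linarith)).ne' h
    exact fun s hs t ht => le_antisymm (not_lt.1 (key t ht s hs)) (not_lt.1 (key s hs t ht))
  rcases hsub.eq_empty_or_singleton with h | ⟨r, h⟩
  · exact ⟨0, CFC.eq_algebraMap_of_spectrum_subset_singleton (q a) 0 (by simp [h])⟩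
  · exact ⟨r, CFC.eq_algebraMap_of_spectrum_subset_singleton (q a) r h.le⟩

theorem full_nil (h : IsEmpty (E →⋆ₐ[ℂ] ℂ)) : Full {x : E | x * x = 0} := by
  refine full_of_simple fun Q _ _ q hq => ?_
  by_contra hc
  push Not at hc
  have hs : Function.Surjective (StarAlgHom.ofId ℂ Q) := by
    intro z
    obtain ⟨x, rfl⟩ := hq z
    obtain ⟨r, hr⟩ := ffull_scalar q hq hc (realPart x).2
    obtain ⟨s, hs⟩ := ffull_scalar q hq hc (imaginaryPart x).2
    refine ⟨r + Complex.I * s, ?_⟩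
    conv_rhs => rw [← realPart_add_I_smul_imaginaryPart x]
    rw [map_add q, map_smul q, hr, hs, IsScalarTower.algebraMap_apply ℝ ℂ Q,
      IsScalarTower.algebraMap_apply ℝ ℂ Q, Algebra.smul_def, ← map_mul, ← map_add]
    rfl
  have hi : Function.Injective (StarAlgHom.ofId ℂ Q) := (algebraMap ℂ Q).injective
  let e := StarAlgEquiv.ofBijective _ ⟨hi, hs⟩
  exact h.false ((e.symm : Q →⋆ₐ[ℂ] ℂ).comp q)

theorem Gen3.comp {Q : Type u} [CStarAlgebra Q] {π : Fin 3 → (D →⋆ₐ[ℂ] E)} (h : Gen3 π)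
    (q : E →⋆ₐ[ℂ] Q) (hq : Function.Surjective q) : Gen3 fun i => q.comp (π i) := by
  refine ⟨fun i j hij x y => (h.1 i j hij x y).map q, eq_top_iff.2 fun z _ => ?_⟩
  obtain ⟨x, rfl⟩ := hq z
  set T := (StarAlgebra.adjoin ℂ (⋃ i, Set.range (q.comp (π i)))).topologicalClosure
  have h1 : StarAlgebra.adjoin ℂ (⋃ i, Set.range (π i)) ≤ T.comap q := by
    refine StarAlgebra.adjoin_le ?_
    rintro _ ⟨_, ⟨i, rfl⟩, d, rfl⟩
    exact StarSubalgebra.le_topologicalClosure _ (StarAlgebra.subset_adjoin ℂ _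
      (Set.mem_iUnion.2 ⟨i, d, rfl⟩))
  have h2 : IsClosed (T.comap q : Set E) :=
    (StarSubalgebra.isClosed_topologicalClosure _).preimage (map_continuous q)
  have h3 := StarSubalgebra.topologicalClosure_minimal h1 h2
  rw [h.2] at h3
  exact h3 (StarSubalgebra.mem_top (x := x))

theorem ffull_prime3 [IsSimpleRing E] {π : Fin 3 → (D →⋆ₐ[ℂ] E)} (h : Gen3 π) (i : Fin 3)
    (d : D) {y : E} (hy : ∀ r, Commute (π i r) y) (h0 : π i d * y = 0) : π i d = 0 ∨ y = 0 := by
  refine ffull_prime fun m => ?_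
  set G := ⋃ i, Set.range (π i) with hG
  have h1 : ∀ m ∈ Submonoid.closure (G ∪ star G),
      ∃ r c, (∀ r', Commute (π i r') c) ∧ m = π i r * c := by
    intro m hm
    induction hm using Submonoid.closure_induction with
    | mem m hm =>
      have hm' : m ∈ G := by
        rcases hm with hm | hm
        · exact hm
        · obtain ⟨j, e, he⟩ := Set.mem_iUnion.1 (Set.mem_star.1 hm)
          exact Set.mem_iUnion.2 ⟨j, star e, by rw [map_star, he, star_star]⟩
      obtain ⟨j, e, rfl⟩ := Set.mem_iUnion.1 hm'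
      by_cases hij : i = j
      · subst hij
        exact ⟨e, 1, fun _ => Commute.one_right _, (mul_one _).symm⟩
      · exact ⟨1, π j e, fun r' => h.1 i j hij r' e, by simp⟩
    | one => exact ⟨1, 1, fun _ => Commute.one_right _, by simp⟩
    | mul a b _ _ ha hb =>
      obtain ⟨r, c, hc, rfl⟩ := ha
      obtain ⟨r', c', hc', rfl⟩ := hb
      refine ⟨r * r', c * c', fun e => (hc e).mul_right (hc' e), ?_⟩
      rw [map_mul, (hc r').mul_mul_mul_comm]
  have h2 : ∀ m ∈ StarAlgebra.adjoin ℂ G, π i d * m * y = 0 := by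
    intro m hm
    have hm' : m ∈ Submodule.span ℂ (Submonoid.closure (G ∪ star G) : Set E) := by
      rw [← Algebra.adjoin_eq_span, ← StarAlgebra.adjoin_toSubalgebra]
      exact hm
    clear hm
    induction hm' using Submodule.span_induction with
    | mem m hm =>
      obtain ⟨r, c, hc, rfl⟩ := h1 m hm
      calc π i d * (π i r * c) * y = π i (d * r) * c * y := by simp only [map_mul, mul_assoc]
        _ = c * (π i d * (π i r * y)) := by rw [(hc _).eq, map_mul]; simp only [mul_assoc]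
        _ = c * (π i d * y * π i r) := by rw [(hy r).eq, mul_assoc]
        _ = 0 := by simp [h0]
    | zero => simp
    | add a b _ _ ha hb => rw [mul_add, add_mul, ha, hb, add_zero]
    | smul c a _ ha => rw [mul_smul_comm, smul_mul_assoc, ha, smul_zero]
  have h3 : m ∈ (StarAlgebra.adjoin ℂ G).topologicalClosure := h.2 ▸ StarSubalgebra.mem_top
  exact closure_minimal (t := {m | π i d * m * y = 0}) h2
    (isClosed_eq (by fun_prop) continuous_const) h3

theorem ffull_cut {x : D} (hx : 0 ≤ x) :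
    ∃ y g : D, ‖x - y‖ ≤ 1 / 2 ∧ ‖g‖ ≤ 2 ∧ g * x * y = y := by
  have hsa : IsSelfAdjoint x := .of_nonneg hx
  have hg : Continuous fun t : ℝ => (max t (1 / 2))⁻¹ :=
    Continuous.inv₀ (by fun_prop) fun t => (lt_max_of_lt_right (by norm_num)).ne'
  refine ⟨cfc (fun t : ℝ => max (t - 1 / 2) 0) x, cfc (fun t : ℝ => (max t (1 / 2))⁻¹) x,
    ?_, ?_, ?_⟩
  · nth_rw 1 [← cfc_id' ℝ x]
    rw [← cfc_sub (fun t : ℝ => t) _ x]
    refine norm_cfc_le (by norm_num) fun t ht => ?_
    have h0 : 0 ≤ t := spectrum_nonneg_of_nonneg hx ht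
    rw [Real.norm_eq_abs, abs_le]
    rcases le_total t (1 / 2) with h | h
    · rw [max_eq_right (by linarith)]; constructor <;> linarith
    · rw [max_eq_left (by linarith)]; constructor <;> linarith
  · refine norm_cfc_le (by norm_num) fun t _ => ?_
    have h1 : (1 / 2 : ℝ) ≤ max t (1 / 2) := le_max_right _ _
    rw [Real.norm_eq_abs, abs_of_pos (by positivity), inv_le_comm₀ (by positivity) two_pos]
    simp
  · nth_rw 2 [← cfc_id' ℝ x]
    rw [← cfc_mul _ (fun t : ℝ => t) x hg.continuousOn,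
      ← cfc_mul _ _ x (hg.fun_mul continuous_id').continuousOn]
    refine cfc_congr fun t _ => ?_
    rcases le_total t (1 / 2) with h | h
    · simp only [max_eq_right (by linarith : t - 1 / 2 ≤ 0), mul_zero]
    · simp only [max_eq_left h]
      rw [inv_mul_cancel₀ (by linarith), one_mul]

theorem ffull_mul3 {a b : Fin 3 → E} (h : ∀ i j, i ≠ j → Commute (a i) (b j)) :
    a 0 * a 1 * a 2 * (b 0 * b 1 * b 2) = a 0 * b 0 * (a 1 * b 1) * (a 2 * b 2) := by
  rw [((h 2 0 (by decide)).mul_right (h 2 1 (by decide))).mul_mul_mul_comm,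
    (h 1 0 (by decide)).mul_mul_mul_comm]

theorem Gen3.norm_mul [IsSimpleRing E] {π : Fin 3 → (D →⋆ₐ[ℂ] E)} (h : Gen3 π) (x : Fin 3 → D)
    (h0 : ∀ i, 0 ≤ x i) (h1 : ∀ i, 1 ≤ ‖π i (x i)‖) :
    1 / 8 ≤ ‖π 0 (x 0) * π 1 (x 1) * π 2 (x 2)‖ := by
  choose y g hy hg hgy using fun i => ffull_cut (h0 i)
  have hne : ∀ i, π i (y i) ≠ 0 := by
    intro i hi
    have h2 : ‖π i (x i - y i)‖ ≤ ‖x i - y i‖ := NonUnitalStarAlgHom.norm_apply_le (π i) _
    rw [map_sub, hi, sub_zero] at h2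
    linarith [hy i, h1 i]
  have h12 : π 1 (y 1) * π 2 (y 2) ≠ 0 := fun h2 =>
    (ffull_prime3 h 1 _ (fun r => h.1 1 2 (by decide) r _) h2).elim (hne 1) (hne 2)
  have h012 : π 0 (y 0) * π 1 (y 1) * π 2 (y 2) ≠ 0 := fun h2 =>
    (ffull_prime3 h 0 _ (fun r => (h.1 0 1 (by decide) r _).mul_right (h.1 0 2 (by decide) r _))
      (by rwa [← mul_assoc])).elim (hne 0) h12
  have e1 := ffull_mul3 (a := fun i => π i (g i)) (b := fun i => π i (x i))
    fun i j hij => h.1 i j hij _ _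
  have e2 := ffull_mul3 (a := fun i => π i (g i * x i)) (b := fun i => π i (y i))
    fun i j hij => h.1 i j hij _ _
  simp only [← map_mul] at e1 e2
  simp only [hgy] at e2
  rw [← e1] at e2
  set Y := π 0 (y 0) * π 1 (y 1) * π 2 (y 2)
  set X := π 0 (x 0) * π 1 (x 1) * π 2 (x 2)
  have hG : ‖π 0 (g 0) * π 1 (g 1) * π 2 (g 2)‖ ≤ 8 := by
    have b : ∀ i, ‖π i (g i)‖ ≤ 2 := fun i =>
      (NonUnitalStarAlgHom.norm_apply_le (π i) _).trans (hg i)
    calc _ ≤ ‖π 0 (g 0)‖ * ‖π 1 (g 1)‖ * ‖π 2 (g 2)‖ := norm_mul₃_le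
      _ ≤ 2 * 2 * 2 := by gcongr <;> exact b _
      _ = 8 := by norm_num
  have h3 : ‖Y‖ ≤ 8 * ‖X‖ * ‖Y‖ := by
    nth_rw 1 [← e2]
    exact norm_mul₃_le.trans (by gcongr)
  have h4 : 0 < ‖Y‖ := norm_pos_iff.2 h012
  nlinarith

theorem exists_sep_nil (h : Full {x : E | x * x = 0}) :
    ∃ (D : Type u) (_ : CStarAlgebra D), TopologicalSpace.SeparableSpace D ∧
      Nonempty (D →⋆ₐ[ℂ] E) ∧ Full {x : D | x * x = 0} := by
  obtain ⟨n, x, s, y, hs, h1⟩ := h.exists_sum
  set T : Set E := Set.range x ∪ Set.range s ∪ Set.range y with hT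
  let A := (StarAlgebra.adjoin ℂ T).topologicalClosure
  have hA : IsClosed (A : Set E) := StarSubalgebra.isClosed_topologicalClosure _
  have hm : ∀ z ∈ T, z ∈ A := fun z hz =>
    StarSubalgebra.le_topologicalClosure _ (StarAlgebra.subset_adjoin ℂ _ hz)
  refine ⟨A, inferInstance, ?_, ⟨A.subtype⟩, full_of_sum (fun i => ⟨x i, hm _ (by simp [hT])⟩)
    (fun i => ⟨s i, hm _ (by simp [hT])⟩) (fun i => ⟨y i, hm _ (by simp [hT])⟩)
    (fun i => Subtype.ext (hs i)) (Subtype.ext ?_)⟩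
  · refine TopologicalSpace.IsSeparable.separableSpace (TopologicalSpace.IsSeparable.closure ?_)
    have e : (StarAlgebra.adjoin ℂ T : Set E) =
        Submodule.span ℂ (Submonoid.closure (T ∪ star T) : Set E) := by
      rw [← Algebra.adjoin_eq_span, ← StarAlgebra.adjoin_toSubalgebra]
      rfl
    change TopologicalSpace.IsSeparable (StarAlgebra.adjoin ℂ T : Set E)
    rw [e]
    refine TopologicalSpace.IsSeparable.span (Set.Countable.isSeparable ?_)
    have hT' : T.Finite := ((Set.finite_range _).union (Set.finite_range _)).union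
      (Set.finite_range _)
    have hG : (T ∪ star T).Countable := (hT'.union hT'.star).countable
    generalize T ∪ star T = G at hG
    have := hG.to_subtype
    refine (Set.countable_range fun l : List G => (l.map Subtype.val).prod).mono fun S hS => ?_
    obtain ⟨l, hl, rfl⟩ := Submonoid.exists_list_of_mem_closure hS
    exact ⟨l.attachWith _ hl, by simp⟩
  · exact (map_sum A.subtype _ _).trans h1

end Vale.Agent.P101.F
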