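import Vale.Agent.P101.FOZ

/-! P101 task J: the join of two commuting order zero maps. -/

namespace Vale.Agent.P101.F

open Filter Topology
open scoped Kronecker ComplexOrder

universe u

variable {D E : Type u} [CStarAlgebra D] [CStarAlgebra E]
variable {ι κ : Type} [Fintype ι] [DecidableEq ι] [Fintype κ] [DecidableEq κ]

theorem join_flip : ∃ σ : Matrix (ι × ι) (ι × ι) ℂ, star σ = σ ∧ σ * σ = 1 ∧
    ∀ x, σ * kl ι ι x = kr ι ι x * σ := by
  refine ⟨(Equiv.prodComm ι ι).toPEquiv.toMatrix, ?_, ?_, fun x => ?_⟩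
  · ext ⟨i, j⟩ ⟨k, l⟩
    simp only [Matrix.star_apply, PEquiv.toMatrix_apply, Equiv.toPEquiv_apply,
      Equiv.prodComm_apply, Prod.swap_prod_mk, Option.mem_def, Option.some.injEq, Prod.mk.injEq]
    by_cases h : j = k ∧ i = l
    · rw [if_pos h, if_pos ⟨h.2.symm, h.1.symm⟩, star_one]
    · rw [if_neg h, if_neg fun h' => h ⟨h'.2.symm, h'.1.symm⟩, star_zero]
  · rw [← PEquiv.toMatrix_trans, ← Equiv.toPEquiv_trans]
    exact PEquiv.toMatrix_refl
  · rw [PEquiv.toMatrix_toPEquiv_mul, PEquiv.mul_toMatrix_toPEquiv]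
    ext ⟨i, j⟩ ⟨k, l⟩
    simp [kl_apply, kr_apply, mul_comm]

theorem join_mul {R : Type*} [Ring R] {t1 t2 d j a a' a'' b b' b'' g g' g'' : R}
    (hc : ∀ t ∈ [t1, t2, d, j], ∀ z ∈ [t1, t2, d, j, a, b, g], Commute z t)
    (hj : j * j = -d) (h1 : a * a' = t1 * a'') (h2 : b * b' = t2 * b'')
    (h3 : a * g' + g * a' = t1 * g'') (h4 : b * g' + g * b' = t2 * g'')
    (h5 : g * g' = t1 * t2 * (a * b' + b * a' - t1 * b'' - t2 * a'')) :
    (t1 * a + t2 * d * b + j * g) * (t1 * a' + t2 * d * b' + j * g') =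
      (t1 * t1 + t2 * d * t2) * (t1 * a'' + t2 * d * b'' + j * g'') := by
  simp only [List.mem_cons, forall_eq_or_imp, List.not_mem_nil, false_imp_iff, implies_true,
    and_true] at hc
  obtain ⟨⟨-, c1, c2, c3, c4, c5, c6⟩, ⟨-, -, c7, c8, c9, c10, c11⟩,
    ⟨-, -, -, c12, c13, c14, c15⟩, ⟨-, -, -, -, c16, c17, c18⟩⟩ := hc
  have hj' : ∀ z, j * (j * z) = -(d * z) := fun z => by rw [← mul_assoc, hj, neg_mul]
  simp only [mul_add, add_mul, mul_sub, mul_assoc, mul_neg, c1.left_comm, c2.left_comm,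
    c3.left_comm, c4.left_comm, c5.left_comm, c6.left_comm, c7.left_comm, c8.left_comm,
    c9.left_comm, c10.left_comm, c11.left_comm, c12.left_comm, c13.left_comm, c14.left_comm,
    c15.left_comm, c16.left_comm, c17.left_comm, c18.left_comm, hj', h1, h2,
    eq_sub_of_add_eq h3, eq_sub_of_add_eq h4, h5]
  abel

theorem join_V {R : Type*} [Ring R] {t1 t2 d j a b L M s : R}
    (hc : ∀ t ∈ [t1, t2, d, j], ∀ z ∈ [t1, t2, d, j, a, b, L, M], Commute z t)
    (hj : j * j = -d) (h1 : a * s = t1 * L) (h2 : b * s = t2 * M)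
    (h3 : (M - L) * s = t1 * t2 * (t1 * b - a * t2)) :
    (t1 * a + t2 * d * b + j * (M - L)) * (s + j * (t2 * t2)) =
      (L + b * j * t2) * (t1 * t1 + t2 * d * t2) := by
  simp only [List.mem_cons, forall_eq_or_imp, List.not_mem_nil, false_imp_iff, implies_true,
    and_true] at hc
  obtain ⟨⟨-, c1, c2, c3, c4, c5, c6, d6⟩, ⟨-, -, c7, c8, c9, c10, c11, d11⟩,
    ⟨-, -, -, c12, c13, c14, c15, d15⟩, ⟨-, -, -, -, c16, c17, c18, d18⟩⟩ := hc
  have hj' : ∀ z, j * (j * z) = -(d * z) := fun z => by rw [← mul_assoc, hj, neg_mul]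
  rw [sub_mul] at h3
  simp only [mul_add, add_mul, mul_sub, sub_mul, mul_assoc, mul_neg, c1.left_comm, c2.left_comm,
    c3.left_comm, c4.left_comm, c5.left_comm, c6.left_comm, c7.left_comm, c8.left_comm,
    c9.left_comm, c10.left_comm, c11.left_comm, c12.left_comm, c13.left_comm, c14.left_comm,
    c15.left_comm, c16.left_comm, c17.left_comm, c18.left_comm, d6.left_comm, d11.left_comm,
    d15.left_comm, d18.left_comm, c1.eq, c2.eq, c3.eq, c4.eq, c5.eq, c6.eq, c7.eq, c8.eq, c9.eq,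
    c10.eq, c11.eq, c12.eq, c13.eq, c14.eq, c15.eq, c16.eq, c17.eq, c18.eq, d6.eq, d11.eq, d15.eq,
    d18.eq, hj', h1, h2, eq_add_of_sub_eq h3]
  abel

theorem join_c {R : Type*} [Ring R] {σ l r l' r' : R} (h1 : σ * l' = r' * σ)
    (h2 : σ * r' = l' * σ) (h3 : σ * σ = 1) :
    l * ((r' - l') * σ) + (r - l) * σ * l' = (r * r' - l * l') * σ ∧
    r * ((r' - l') * σ) + (r - l) * σ * r' = (r * r' - l * l') * σ ∧
    (r - l) * σ * ((r' - l') * σ) = l * r' + r * l' - r * r' - l * l' := by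
  refine ⟨?_, ?_, ?_⟩
  · rw [mul_assoc _ σ, h1]
    noncomm_ring
  · rw [mul_assoc _ σ, h2]
    noncomm_ring
  · rw [mul_assoc _ σ, ← mul_assoc σ, mul_sub σ, h1, h2, ← sub_mul, mul_assoc _ σ, h3]
    noncomm_ring

theorem oz_sq_le {t : E} (h0 : 0 ≤ t) (h1 : t ≤ 1) : 0 ≤ 1 - t * t :=
  sub_nonneg.2 ((oz_mul_le h1 h0 (Commute.refl t)).trans h1)

theorem OZ.exists_join (α β : OZ ι E) (h : ∀ x y, Commute (α.φ x) (β.φ y)) :
    ∃ (χ : OZ ι E) (V : E),
      χ.φ 1 = 1 - (1 - α.φ 1 * α.φ 1) * (1 - β.φ 1 * β.φ 1) ∧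
      (∀ z, (∀ x, Commute z (α.φ x)) → (∀ x, Commute z (β.φ x)) → ∀ x, Commute z (χ.φ x)) ∧
      (∀ z, α.φ 1 * z = z → ∀ x, χ.φ x * z = α.φ x * z) ∧
      Commute V (α.φ 1) ∧
      ∀ y, β.φ 1 * y = y → star V * (V * y) = y ∧ ∀ x, χ.φ x * (V * y) = V * (β.φ x * y) := by
  obtain ⟨Γ, g0, g1, g2, g3, g4, g5⟩ := α.exists_tensor β h
  obtain ⟨σ, s1, s2, s3⟩ := join_flip (ι := ι)
  have s4 : ∀ x, σ * kr ι ι x = kl ι ι x * σ := fun x => by
    rw [← mul_one (σ * _), ← s2, ← mul_assoc, mul_assoc σ, ← s3, ← mul_assoc, s2, one_mul]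
  obtain ⟨b, hb, hbb⟩ := oz_sqrt (oz_sq_le α.nonneg α.le_one)
  have gl : ∀ x, Γ.φ (kl ι ι x) = α.φ x * β.φ 1 := fun x => g0 x 1
  have gr : ∀ x, Γ.φ (kr ι ι x) = α.φ 1 * β.φ x := fun x => g0 1 x
  have glr : ∀ x y, Γ.φ (kl ι ι x * kr ι ι y) = α.φ x * β.φ y := fun x y => by
    rw [kl_apply, kr_apply, ← Matrix.mul_kronecker_mul, mul_one, one_mul, g0]
  have grl : ∀ x y, Γ.φ (kr ι ι x * kl ι ι y) = β.φ x * α.φ y := fun x y => by
    rw [kl_apply, kr_apply, ← Matrix.mul_kronecker_mul, mul_one, one_mul, g0, (h _ _).eq]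
  have g6 : Γ.φ 1 = α.φ 1 * β.φ 1 := by rw [← gl, map_one (kl ι ι)]
  have hbc : ∀ z, Commute (α.φ 1) z → Commute b z := fun z hz =>
    oz_comm hb (hbb ▸ (Commute.one_left z).sub_left (hz.mul_left hz))
  have a1 : ∀ m, Commute (α.φ 1) (Γ.φ m) := g5 _ α.comm (h 1)
  have b1 : ∀ m, Commute (β.φ 1) (Γ.φ m) := g5 _ (fun x => (h x 1).symm) β.comm
  have a2 := α.comm
  have b2 := β.comm
  have a3 := h 1
  have b3 : ∀ x, Commute (β.φ 1) (α.φ x) := fun x => (h x 1).symm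
  have sa := α.sa
  have sb := β.sa
  have pa := α.nonneg
  have pb := oz_sq_le β.nonneg β.le_one
  set j := Complex.I • b with hj
  have hjj : j * j = -(b * b) := by rw [hj, smul_mul_smul_comm, Complex.I_mul_I, neg_one_smul]
  have hjs : star j = -j := by
    rw [hj, star_smul, hb.isSelfAdjoint.star_eq, Complex.star_def, Complex.conj_I, neg_smul]
  have hcz : ∀ z, Commute (α.φ 1) z → Commute (β.φ 1) z →
      ∀ t ∈ [α.φ 1, β.φ 1, b * b, j], Commute z t := fun z h1 h2 => by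
    simp only [List.mem_cons, forall_eq_or_imp, List.not_mem_nil, false_imp_iff, implies_true,
      and_true]
    exact ⟨h1.symm, h2.symm, ((hbc z h1).mul_left (hbc z h1)).symm, ((hbc z h1).smul_left _).symm⟩
  have k1 := hcz _ (Commute.refl _) (a3 1).symm
  have k2 := hcz _ (a3 1) (Commute.refl _)
  have kb := hcz _ (hbc _ (Commute.refl _)).symm (hbc _ (a3 1)).symm
  have k3 : ∀ t ∈ [α.φ 1, β.φ 1, b * b, j], Commute (b * b) t :=
    fun t ht => (kb t ht).mul_left (kb t ht)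
  have k4 : ∀ t ∈ [α.φ 1, β.φ 1, b * b, j], Commute j t := fun t ht => (kb t ht).smul_left _
  have ka := fun x => hcz _ (a2 x) (b3 x)
  have kβ := fun x => hcz _ (a3 x) (b2 x)
  have kg := fun m => hcz _ (a1 m) (b1 m)
  let c : Matrix ι ι ℂ →ₗ[ℂ] Matrix (ι × ι) (ι × ι) ℂ :=
    LinearMap.mulRight ℂ σ ∘ₗ ((kr ι ι).toAlgHom.toLinearMap - (kl ι ι).toAlgHom.toLinearMap)
  have hc : ∀ x, c x = (kr ι ι x - kl ι ι x) * σ := fun _ => rfl
  let φ : Matrix ι ι ℂ →ₗ[ℂ] E := LinearMap.mulLeft ℂ (α.φ 1) ∘ₗ α.φ +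
    LinearMap.mulLeft ℂ (β.φ 1 * (b * b)) ∘ₗ β.φ + LinearMap.mulLeft ℂ j ∘ₗ Γ.φ ∘ₗ c
  have hφ : ∀ x, φ x = α.φ 1 * α.φ x + β.φ 1 * (b * b) * β.φ x + j * Γ.φ (c x) := fun _ => rfl
  have h0 : φ 1 = α.φ 1 * α.φ 1 + β.φ 1 * (b * b) * β.φ 1 := by
    rw [hφ, hc, map_one (kl ι ι), map_one (kr ι ι), sub_self, zero_mul, map_zero, mul_zero,
      add_zero]
  have h1 : φ 1 = 1 - (1 - α.φ 1 * α.φ 1) * (1 - β.φ 1 * β.φ 1) := by
    rw [h0, (k2 (b * b) (by simp)).eq, hbb]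
    noncomm_ring
  refine ⟨⟨φ, fun x => ?_, fun x y => ?_, ?_, ?_⟩, Γ.φ σ + j * (β.φ 1 * β.φ 1), h1,
    fun z z1 z2 x => ?_, fun z hz x => ?_, ?_, fun y hy => ?_⟩
  · have e : star (c x) = -c (star x) := by
      rw [hc, hc, star_mul, s1, star_sub, ← map_star, ← map_star, mul_sub, s3, s4, ← sub_mul,
        ← neg_mul, neg_sub]
    rw [hφ, hφ, star_add, star_add, star_mul, star_mul, star_mul, star_mul, star_mul,
      ← α.star' x, ← β.star' x, ← Γ.star', e, hjs, map_neg, neg_mul_neg, sa.star_eq, sb.star_eq,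
      hb.isSelfAdjoint.star_eq, (a2 _).eq, (kg _ j (by simp)).eq, ← (k2 (b * b) (by simp)).eq,
      ((b2 _).mul_left (kβ _ (b * b) (by simp)).symm).eq]
  · rw [h0, hφ, hφ, hφ]
    refine join_mul (fun t ht z hz => ?_) hjj (α.mul' x y) (β.mul' x y) ?_ ?_ ?_
    · simp only [List.mem_cons, List.not_mem_nil, or_false] at hz
      rcases hz with rfl | rfl | rfl | rfl | rfl | rfl | rfl
      exacts [k1 t ht, k2 t ht, k3 t ht, k4 t ht, ka _ t ht, kβ _ t ht, kg _ t ht]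
    · rw [g1, g2, ← mul_add, ← map_add, hc, hc, hc, (join_c (s3 y) (s4 y) s2).1,
        map_mul (kl ι ι), map_mul (kr ι ι)]
    · rw [g3, g4, ← mul_add, ← map_add, hc, hc, hc, (join_c (s3 y) (s4 y) s2).2.1,
        map_mul (kl ι ι), map_mul (kr ι ι)]
    · rw [Γ.mul', g6, hc, hc, (join_c (s3 y) (s4 y) s2).2.2, ← map_mul (kl ι ι),
        ← map_mul (kr ι ι), map_sub, map_sub, map_add, glr, grl, gl, gr, (b3 _).eq]
  · rw [h0]
    refine add_nonneg (by simpa [sa.star_eq] using star_mul_self_nonneg (α.φ 1)) ?_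
    simpa [sb.star_eq] using star_left_conjugate_nonneg (hbb ▸ oz_sq_le α.nonneg α.le_one :
      0 ≤ b * b) (β.φ 1)
  · rw [h1]
    refine sub_le_self _ (Commute.mul_nonneg (oz_sq_le α.nonneg α.le_one) pb ?_)
    have k := (a3 1).mul_left (a3 1)
    exact (Commute.one_left _).sub_left ((Commute.one_right _).sub_right (k.mul_right k))
  · have zb := (hbc z (z1 1).symm).symm
    exact (((z1 1).mul_right (z1 x)).add_right (((z2 1).mul_right (zb.mul_right zb)).mul_right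
      (z2 x))).add_right ((zb.smul_right _).mul_right (g5 z z1 z2 _))
  · have hbz : b * z = 0 := oz_kill hb.isSelfAdjoint (by
      rw [hbb, sub_mul, one_mul, mul_assoc, hz, hz, sub_self])
    show φ x * z = _
    rw [hφ, add_mul, add_mul, (a2 x).eq, mul_assoc, hz, mul_assoc (β.φ 1),
      ← (kβ x (b * b) (by simp)).eq, ← (kg _ j (by simp)).eq, hj]
    simp [mul_assoc, hbz]
  · exact (a1 σ).symm.add_left ((k4 _ (by simp)).mul_left ((a3 1).symm.mul_left (a3 1).symm))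
  · have e1 : (α.φ 1 * α.φ 1 + β.φ 1 * (b * b) * β.φ 1) * y = y := by
      rw [add_mul, mul_assoc _ (β.φ 1) y, hy, (k2 (b * b) (by simp)).eq, mul_assoc _ (β.φ 1) y,
        hy, hbb]
      noncomm_ring
    have c1 := k4 (β.φ 1) (by simp)
    refine ⟨?_, fun x => ?_⟩
    · have c2 := kg σ j (by simp)
      have c3 := (b1 σ).symm
      have e2 : Γ.φ σ * Γ.φ σ = α.φ 1 * β.φ 1 * (α.φ 1 * β.φ 1) := by
        rw [Γ.mul', s2, g6]
      have e3 : ∀ z, Γ.φ σ * (Γ.φ σ * z) = α.φ 1 * (β.φ 1 * (α.φ 1 * (β.φ 1 * z))) := fun z => by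
        rw [← mul_assoc, e2]
        simp only [mul_assoc]
      have e4 : ∀ z, j * (j * z) = -(z - α.φ 1 * (α.φ 1 * z)) := fun z => by
        rw [← mul_assoc, hjj, hbb]
        noncomm_ring
      rw [star_add, ← Γ.star', s1, star_mul, star_mul, hjs, sb.star_eq]
      simp only [mul_add, add_mul, mul_assoc, hy, e3, mul_neg, neg_mul, c2.left_comm,
        (a3 1).symm.left_comm, c1.symm.left_comm, c3.symm.left_comm, e4, mul_sub, neg_sub]
      abel
    · have e5 := join_V (t1 := α.φ 1) (t2 := β.φ 1) (d := b * b) (j := j) (a := α.φ x)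
        (b := β.φ x) (L := Γ.φ (kl ι ι x * σ)) (M := Γ.φ (kr ι ι x * σ)) (s := Γ.φ σ)
        (fun t ht z hz => by
          simp only [List.mem_cons, List.not_mem_nil, or_false] at hz
          rcases hz with rfl | rfl | rfl | rfl | rfl | rfl | rfl | rfl
          exacts [k1 t ht, k2 t ht, k3 t ht, k4 t ht, ka _ t ht, kβ _ t ht, kg _ t ht, kg _ t ht])
        hjj (g1 _ _) (g3 _ _) (by
          rw [← map_sub, Γ.mul', ← sub_mul, mul_assoc, s2, mul_one, map_sub, gl, gr, g6])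
      show φ x * _ = _
      rw [hφ, hc, sub_mul, map_sub, ← mul_assoc, e5, mul_assoc, e1, ← mul_assoc, add_mul _ _ (β.φ x),
        g4, s4, (b1 _).eq, ← (((kβ x j (by simp))).mul_right ((b2 x).symm.mul_right (b2 x).symm)).eq]
      simp only [add_mul, mul_assoc, hy]

end Vale.Agent.P101.F
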