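import Vale.Agent.P101.FFull

/-! P101 task M: removing a square-zero element with three copies. -/

namespace Vale.Agent.P101.F

open Filter Topology
open scoped Kronecker ComplexOrder

universe u

variable {D E : Type u} [CStarAlgebra D] [CStarAlgebra E]

/-- a ramp function -/
noncomputable def rp (k c t : ℝ) : ℝ := max 0 (min 1 ((t - k) / c))

theorem rp_cont (k c : ℝ) : Continuous (rp k c) := by unfold rp; fun_prop

theorem rp_nonneg (k c t : ℝ) : 0 ≤ rp k c t := le_max_left _ _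

theorem rp_le_one (k c t : ℝ) : rp k c t ≤ 1 := max_le zero_le_one (min_le_left _ _)

theorem rp_cfc_nonneg (k c : ℝ) (a : D) : 0 ≤ cfc (rp k c) a :=
  cfc_nonneg fun t _ => rp_nonneg k c t

theorem rp_cfc_norm (k c : ℝ) (a : D) : ‖cfc (rp k c) a‖ ≤ 1 :=
  norm_cfc_le zero_le_one fun t _ => by
    rw [Real.norm_of_nonneg (rp_nonneg k c t)]; exact rp_le_one k c t

theorem rp_map (k c : ℝ) {a : D} (ha : 0 ≤ a) (q : D →⋆ₐ[ℂ] E) :
    q (cfc (rp k c) a) = cfc (rp k c) (q a) :=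
  StarAlgHomClass.map_cfc (S := ℂ) q _ a (rp_cont k c).continuousOn (map_continuous q)
    ha.isSelfAdjoint (ha.isSelfAdjoint.map q)

theorem rp_zero {k c : ℝ} (hc : 0 < c) {a : D} (ha : ‖a‖ ≤ k) : cfc (rp k c) a = 0 := by
  rcases subsingleton_or_nontrivial D with h | h
  · exact Subsingleton.elim _ _
  rw [← cfc_zero ℝ a]
  refine cfc_congr fun t ht => ?_
  have h1 : t ≤ k := (le_abs_self t).trans ((spectrum.norm_le_norm_of_mem ht).trans ha)
  exact max_eq_left ((min_le_right _ _).trans (div_nonpos_of_nonpos_of_nonneg (by linarith) hc.le))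

theorem rp_one [Nontrivial D] {k c : ℝ} (hc : 0 < c) {a : D} (h0 : 0 ≤ a) (ha : k + c ≤ ‖a‖) :
    1 ≤ ‖cfc (rp k c) a‖ := by
  have h := norm_apply_le_norm_cfc (rp k c) a (CStarAlgebra.norm_mem_spectrum_of_nonneg h0)
    (rp_cont k c).continuousOn h0.isSelfAdjoint
  refine le_trans ?_ ((le_abs_self _).trans h)
  exact le_max_of_le_right (le_min le_rfl ((one_le_div hc).2 (by linarith)))

theorem rp_mul {k c : ℝ} (hk : 0 ≤ k) (hc : 0 < c) {a b : D} (h0 : 0 ≤ a) (hab : a * b = 0) :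
    cfc (rp k c) a * b = 0 := by
  have h1 : cfc (rp k c) a * cfc (rp k c) a ≤ c⁻¹ • a := by
    rw [← cfc_mul _ _ a (rp_cont k c).continuousOn (rp_cont k c).continuousOn]
    conv_rhs => rw [← cfc_id' ℝ a h0.isSelfAdjoint, ← cfc_smul _ _ a (by fun_prop)]
    refine cfc_mono (fun t ht => ?_) ((rp_cont k c).mul (rp_cont k c)).continuousOn (by fun_prop)
    have ht0 : 0 ≤ t := spectrum_nonneg_of_nonneg h0 ht
    have h2 : rp k c t ≤ c⁻¹ * t := max_le (by positivity) ((min_le_right _ _).trans (by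
      rw [div_eq_inv_mul]; gcongr; linarith))
    have := rp_le_one k c t
    have := rp_nonneg k c t
    simp only [smul_eq_mul]
    nlinarith
  have h2 := star_left_conjugate_le_conjugate h1 b
  rw [mul_assoc _ (c⁻¹ • a), smul_mul_assoc, hab, smul_zero, mul_zero] at h2
  have h3 : star (cfc (rp k c) a * b) * (cfc (rp k c) a * b) = 0 := by
    refine le_antisymm ?_ (star_mul_self_nonneg _)
    rw [star_mul, (rp_cfc_nonneg k c a).isSelfAdjoint.star_eq]
    simpa only [mul_assoc] using h2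
  exact (CStarRing.star_mul_self_eq_zero_iff _).1 h3

theorem rp_mul_rp {k c k' c' : ℝ} (hk : 0 ≤ k) (hc : 0 < c) (hk' : 0 ≤ k') (hc' : 0 < c') {a b : D}
    (ha : 0 ≤ a) (hb : 0 ≤ b) (hab : a * b = 0) : cfc (rp k c) a * cfc (rp k' c') b = 0 := by
  refine rp_mul hk hc ha ?_
  have h1 : b * a = 0 := by
    rw [← ha.isSelfAdjoint.star_eq, ← hb.isSelfAdjoint.star_eq, ← star_mul, hab, star_zero]
  have h2 := congrArg star (rp_mul hk' hc' hb h1)
  rwa [star_mul, ha.isSelfAdjoint.star_eq, (rp_cfc_nonneg _ _ _).isSelfAdjoint.star_eq,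
    star_zero] at h2

theorem merge_kill (v : D) {ε : ℝ} (hε : 0 < ε) : ∃ m : D, 0 ≤ m ∧ ‖m‖ ≤ 1 ∧ ‖m * v‖ ≤ ε ∧
    ∀ (Q : Type u) [CStarAlgebra Q] (q : D →⋆ₐ[ℂ] Q), q v = 0 → q m = 1 := by
  have h0 : 0 ≤ v * star v := mul_star_self_nonneg v
  have hc := rp_cont 0 (ε ^ 2)
  let F : ℝ → ℝ := fun t => 1 - rp 0 (ε ^ 2) t
  have hF : Continuous F := continuous_const.sub hc
  have hF0 (t) : 0 ≤ F t := sub_nonneg.2 (rp_le_one _ _ _)
  have hF1 (t) : F t ≤ 1 := sub_le_self _ (rp_nonneg _ _ _)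
  have hm : 0 ≤ cfc F (v * star v) := cfc_nonneg fun t _ => hF0 t
  refine ⟨cfc F (v * star v), hm, norm_cfc_le zero_le_one fun t _ => by
    rw [Real.norm_of_nonneg (hF0 t)]; exact hF1 t, ?_, fun Q _ q hq => ?_⟩
  · refine (sq_le_sq₀ (norm_nonneg _) hε.le).1 ?_
    have h1 : cfc F (v * star v) * v * star (cfc F (v * star v) * v) =
        cfc (fun t => F t * t * F t) (v * star v) := by
      rw [cfc_mul _ _ _ (by fun_prop) hF.continuousOn, cfc_mul _ _ _ hF.continuousOn (by fun_prop),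
        cfc_id' ℝ _ h0.isSelfAdjoint, star_mul, hm.isSelfAdjoint.star_eq]
      simp only [mul_assoc]
    rw [sq, ← CStarRing.norm_self_mul_star, h1]
    refine norm_cfc_le (by positivity) fun t ht => ?_
    have ht0 : 0 ≤ t := spectrum_nonneg_of_nonneg h0 ht
    rw [Real.norm_of_nonneg (mul_nonneg (mul_nonneg (hF0 t) ht0) (hF0 t))]
    rcases le_total t (ε ^ 2) with h | h
    · have := mul_le_mul (mul_le_mul (hF1 t) h ht0 zero_le_one) (hF1 t) (hF0 t) (by positivity)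
      simpa using this
    · have : F t = 0 := by
        refine le_antisymm (sub_nonpos.2 ?_) (hF0 t)
        exact le_max_of_le_right (le_min le_rfl ((one_le_div (by positivity)).2 (by linarith)))
      rw [this, mul_zero]; positivity
  · have h1 : q (cfc F (v * star v)) = cfc F (q (v * star v)) :=
      StarAlgHomClass.map_cfc (S := ℂ) q _ _ hF.continuousOn (map_continuous q)
        h0.isSelfAdjoint (h0.isSelfAdjoint.map q)
    rw [h1, map_mul, hq, zero_mul, cfc_apply_zero]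
    simp [F, rp]

/-- the sixteen boxes -/
def mergeW : Fin 16 → Fin 3 → Bool × ℕ :=
  ![![(true, 2), (false, 3), (false, 3)], ![(false, 3), (true, 2), (false, 3)],
    ![(false, 3), (false, 3), (true, 2)], ![(true, 2), (true, 2), (true, 2)],
    ![(false, 2), (false, 1), (false, 1)], ![(false, 1), (false, 2), (false, 1)],
    ![(false, 1), (false, 1), (false, 2)],
    ![(true, 3), (true, 4), (false, 1)], ![(true, 4), (true, 3), (false, 1)],
    ![(true, 4), (true, 4), (false, 2)],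
    ![(true, 3), (false, 1), (true, 4)], ![(true, 4), (false, 2), (true, 4)],
    ![(true, 4), (false, 1), (true, 3)],
    ![(false, 2), (true, 4), (true, 4)], ![(false, 1), (true, 3), (true, 4)],
    ![(false, 1), (true, 4), (true, 3)]]

theorem mergeW_orth : ∀ i j : Fin 16, ∃ p : Fin 3,
    (mergeW i p).1 = (mergeW j p).1 ∨ (mergeW i p).2 = (mergeW j p).2 := by
  decide

/-- a letter covers a type -/
def mergeC (l : Bool × ℕ) (t : ℕ) : Bool := if l.1 then t < l.2 ∧ l.2 ≤ 4 else l.2 < t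

theorem mergeW_cover : ∀ t0 t1 t2 : Fin 5, ∃ i : Fin 16,
    mergeC (mergeW i 0) t0 ∧ mergeC (mergeW i 1) t1 ∧ mergeC (mergeW i 2) t2 := by
  decide

theorem merge_sq {u v : E} (hu : 0 ≤ u) (h : u ≤ v) (h1 : 1 / 8 ≤ ‖u‖) : 1 / 64 ≤ ‖u * v‖ := by
  have h2 := star_left_conjugate_le_conjugate h u
  have h3 := CStarAlgebra.norm_le_norm_of_nonneg_of_le (star_left_conjugate_nonneg hu u) h2
  rw [hu.isSelfAdjoint.star_eq] at h3
  have h4 : ‖u * u * u‖ = ‖u‖ ^ 3 := by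
    have h5 := hu.isSelfAdjoint.isStarNormal
    rw [← pow_three', ← cfc_pow_id (R := ℝ) u 3 hu.isSelfAdjoint]
    rcases subsingleton_or_nontrivial E with hs | hs
    · simp [Subsingleton.elim u 0] at h1; linarith
    refine le_antisymm ?_ ?_
    · rw [cfc_pow_id (R := ℝ) u 3 hu.isSelfAdjoint]; exact norm_pow_le' _ (by norm_num)
    · have h := norm_apply_le_norm_cfc (fun t : ℝ => t ^ 3) u
        (CStarAlgebra.norm_mem_spectrum_of_nonneg hu) (by fun_prop) hu.isSelfAdjoint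
      exact (le_abs_self _).trans h
  have h5 := h3.trans (norm_mul_le _ _)
  rw [h4] at h5
  have h6 : ‖u‖ ^ 2 ≤ ‖u * v‖ := le_of_mul_le_mul_right (by linarith) (by linarith : 0 < ‖u‖)
  nlinarith

theorem merge_pos {u v : E} (hu : 0 ≤ u) (hv : 0 ≤ v) {Q : Type u} [CStarAlgebra Q]
    (q : E →⋆ₐ[ℂ] Q) (h : q (u - v)⁺ = 0) : q u ≤ q v := by
  have h1 := CFC.posPart_sub_negPart (u - v) (hu.isSelfAdjoint.sub hv.isSelfAdjoint)
  have h2 := OrderHomClass.mono q (CFC.negPart_nonneg (u - v))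
  have h3 := congrArg q h1
  rw [map_sub, h, map_sub, zero_sub] at h3
  rw [map_zero] at h2
  rw [← sub_nonpos, ← h3, neg_nonpos]
  exact h2

theorem merge_term {π : Fin 3 → (D →⋆ₐ[ℂ] E)} (hc : ∀ i j, i ≠ j → Com (π i) (π j))
    {x : Fin 3 → D} (hx : ∀ p, 0 ≤ x p) : 0 ≤ π 0 (x 0) * π 1 (x 1) * π 2 (x 2) := by
  have h (p) : 0 ≤ π p (x p) := by
    have := OrderHomClass.mono (π p) (hx p)
    rwa [map_zero] at this
  exact Commute.mul_nonneg ((hc 0 1 (by decide) _ _).mul_nonneg (h 0) (h 1)) (h 2)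
    ((hc 0 2 (by decide) _ _).mul_left (hc 1 2 (by decide) _ _))

theorem merge_half {π : Fin 3 → (D →⋆ₐ[ℂ] E)} (hπ : Gen3 π) (S : Set D)
    (A B : Fin 16 → Fin 3 → D) (hA0 : ∀ i p, 0 ≤ A i p) (hB0 : ∀ i p, 0 ≤ B i p)
    (hA1 : ∀ i p, ‖A i p‖ ≤ 1) (hB1 : ∀ i p, ‖B i p‖ ≤ 1)
    (ho : ∀ i j, ∃ p, ‖A i p * B j p‖ ≤ 1 / 32768)
    (hcov : ∀ (Q : Type u) [CStarAlgebra Q] [Nontrivial Q] (q : Fin 3 → (D →⋆ₐ[ℂ] Q)),
      (∀ p, ∀ s ∈ S, q p s = 0) → ∃ i, ∀ p, 1 ≤ ‖q p (A i p)‖) :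
    Full ((⋃ i, π i '' S) ∪ {(∑ i, π 0 (A i 0) * π 1 (A i 1) * π 2 (A i 2) -
      ∑ i, π 0 (B i 0) * π 1 (B i 1) * π 2 (B i 2))⁺}) := by
  refine full_of_simple fun Q _ _ q hq => ?_
  by_contra hn
  push Not at hn
  have hu := Finset.sum_nonneg fun i (_ : i ∈ Finset.univ) => merge_term hπ.1 (hA0 i)
  have hv := Finset.sum_nonneg fun i (_ : i ∈ Finset.univ) => merge_term hπ.1 (hB0 i)
  have h1 := merge_pos hu hv q (hn _ (Or.inr rfl))
  obtain ⟨i, hi⟩ := hcov Q (fun p => q.comp (π p)) fun p s hs =>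
    hn _ (Or.inl (Set.mem_iUnion.2 ⟨p, s, hs, rfl⟩))
  have h2 := (hπ.comp q hq).norm_mul (A i) (hA0 i) hi
  have h3 := CStarAlgebra.norm_le_norm_of_nonneg_of_le (merge_term (hπ.comp q hq).1 (hA0 i))
    (Finset.single_le_sum (fun j (_ : j ∈ Finset.univ) => merge_term (hπ.comp q hq).1 (hA0 j))
      (Finset.mem_univ i))
  have hu' := OrderHomClass.mono q hu
  rw [map_zero] at hu'
  have h4 := merge_sq hu' h1 (by
    refine (h2.trans h3).trans (le_of_eq ?_)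
    simp only [map_sum, map_mul, StarAlgHom.comp_apply])
  rw [← map_mul] at h4
  have h5 := h4.trans (NonUnitalStarAlgHom.norm_apply_le q _)
  rw [Finset.sum_mul_sum] at h5
  have h6 (i j) : ‖π 0 (A i 0) * π 1 (A i 1) * π 2 (A i 2) *
      (π 0 (B j 0) * π 1 (B j 1) * π 2 (B j 2))‖ ≤ 1 / 32768 := by
    have e : π 0 (A i 0) * π 1 (A i 1) * π 2 (A i 2) * (π 0 (B j 0) * π 1 (B j 1) * π 2 (B j 2)) =
        π 0 (A i 0 * B j 0) * π 1 (A i 1 * B j 1) * π 2 (A i 2 * B j 2) := by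
      have c1 := hπ.1 1 0 (by decide) (A i 1) (B j 0)
      have c2 := hπ.1 2 0 (by decide) (A i 2) (B j 0)
      have c3 := hπ.1 2 1 (by decide) (A i 2) (B j 1)
      rw [(c2.mul_right c3).mul_mul_mul_comm, c1.mul_mul_mul_comm, map_mul, map_mul, map_mul]
    have b (p) : ‖π p (A i p * B j p)‖ ≤ ‖A i p * B j p‖ := NonUnitalStarAlgHom.norm_apply_le _ _
    have b1 (p) : ‖π p (A i p * B j p)‖ ≤ 1 := (b p).trans ((norm_mul_le _ _).trans
      (mul_le_one₀ (hA1 i p) (norm_nonneg _) (hB1 j p)))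
    obtain ⟨p, hp⟩ := ho i j
    have b2 := (b p).trans hp
    have b3 : ∏ p, ‖π p (A i p * B j p)‖ ≤ 1 / 32768 := by
      rw [← Finset.mul_prod_erase _ _ (Finset.mem_univ p)]
      exact (mul_le_of_le_one_right (norm_nonneg _)
        (Finset.prod_le_one (fun _ _ => norm_nonneg _) fun _ _ => b1 _)).trans b2
    rw [e]
    rw [Fin.prod_univ_three] at b3
    exact ((norm_mul_le _ _).trans (by gcongr; exact norm_mul_le _ _)).trans b3
  have h7 := h5.trans ((norm_sum_le _ _).trans (Finset.sum_le_sum fun i _ =>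
    (norm_sum_le _ _).trans (Finset.sum_le_sum fun j _ => h6 i j)))
  simp at h7
  norm_num at h7

theorem merge_side {a b e : D} (ha : 0 ≤ a) (hb : 0 ≤ b) (he : 0 ≤ e) {δ c : ℝ} (hδ : 0 < δ)
    (hc : 0 < c) : ∃ L : Bool × ℕ → D, (∀ l, 0 ≤ L l) ∧ (∀ l, ‖L l‖ ≤ 1) ∧
      (∀ k : ℕ, L (false, k) = cfc (rp (k * c) c) a) ∧
      (∀ k, ∃ m, L (true, k) = cfc (rp 0 δ) e * m * cfc (rp 0 δ) e) ∧
      (∀ k : ℕ, ‖L (true, k) * cfc (rp (k * c) c) b‖ ≤ 1 / 32768) ∧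
      ∀ (Q : Type u) [CStarAlgebra Q] [Nontrivial Q] (q : D →⋆ₐ[ℂ] Q) (l : Bool × ℕ) (ν : ℝ),
        ‖q a‖ = ν → ‖q b‖ = ν → (ν ≤ 4 * c → δ ≤ ‖q e‖) →
        mergeC l (min ⌊ν / c⌋₊ 4) → 1 ≤ ‖q (L l)‖ := by
  choose m m0 m1 m2 m3 using fun k : ℕ =>
    merge_kill (cfc (rp 0 δ) e * cfc (rp (k * c) c) b) (ε := 1 / 32768) (by norm_num)
  have g0 := rp_cfc_nonneg 0 δ e
  have g1 := rp_cfc_norm 0 δ e
  refine ⟨fun l => if l.1 then cfc (rp 0 δ) e * m l.2 * cfc (rp 0 δ) e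
    else cfc (rp (l.2 * c) c) a, fun l => ?_, fun l => ?_, fun k => rfl, fun k => ⟨m k, rfl⟩,
    fun k => ?_, fun Q _ _ q l ν h1 h2 h3 h4 => ?_⟩
  · dsimp only
    split_ifs
    · simpa only [g0.isSelfAdjoint.star_eq] using star_left_conjugate_nonneg (m0 l.2) (cfc (rp 0 δ) e)
    · exact rp_cfc_nonneg _ _ _
  · dsimp only
    split_ifs
    · exact (norm_mul_le _ _).trans (mul_le_one₀ ((norm_mul_le _ _).trans
        (mul_le_one₀ g1 (norm_nonneg _) (m1 _))) (norm_nonneg _) g1)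
    · exact rp_cfc_norm _ _ _
  · simp only [if_true, mul_assoc]
    exact (norm_mul_le _ _).trans ((mul_le_of_le_one_left (norm_nonneg _) g1).trans (m2 k))
  · have hq {y : D} (hy : 0 ≤ y) : 0 ≤ q y := by
      have := OrderHomClass.mono q hy
      rwa [map_zero] at this
    have hν : 0 ≤ ν / c := div_nonneg (h1 ▸ norm_nonneg _) hc.le
    obtain ⟨_ | _, k⟩ := l
    · simp only [mergeC, Bool.false_eq_true, if_false, decide_eq_true_eq] at h4 ⊢
      rw [rp_map _ _ ha]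
      refine rp_one hc (hq ha) ?_
      have h5 : ((k + 1 : ℕ) : ℝ) ≤ ν / c :=
        (Nat.le_floor_iff hν).1 (Nat.succ_le_of_lt (h4.trans_le (min_le_left _ _)))
      rw [le_div_iff₀ hc] at h5
      push_cast at h5
      linarith
    · simp only [mergeC, if_true, decide_eq_true_eq] at h4 ⊢
      have h5 : ν / c < k := (Nat.floor_lt hν).1 (by omega)
      rw [div_lt_iff₀ hc] at h5
      have h6 : (k : ℝ) ≤ 4 := by exact_mod_cast h4.2
      rw [map_mul, map_mul, m3 k Q q (by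
        rw [map_mul, rp_map _ _ hb, rp_zero hc (h2.trans_le h5.le), mul_zero]), mul_one]
      have h7 := rp_one (k := 0) hδ (hq he) (by
        rw [zero_add]; exact h3 (by nlinarith))
      rw [← rp_map _ _ he] at h7
      have h8 := CStarRing.norm_star_mul_self (x := q (cfc (rp 0 δ) e))
      rw [(hq g0).isSelfAdjoint.star_eq] at h8
      rw [h8]
      exact one_le_mul_of_one_le_of_one_le h7 h7

theorem merge {π : Fin 3 → (D →⋆ₐ[ℂ] E)} (hπ : Gen3 π) (S : Set D) {x e f : D} (hx : x * x = 0)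
    (he : 0 ≤ e) (hf : 0 ≤ f) (hef : e * f = 0) (h1 : Full (S ∪ {x, e}))
    (h2 : Full (S ∪ {x, f})) :
    ∃ e' f' : E, 0 ≤ e' ∧ 0 ≤ f' ∧ e' * f' = 0 ∧ Full ((⋃ i, π i '' S) ∪ {e'}) ∧
      Full ((⋃ i, π i '' S) ∪ {f'}) := by
  obtain ⟨δ1, hδ1, H1⟩ := h1.unif
  obtain ⟨δ2, hδ2, H2⟩ := h2.unif
  have hδ : 0 < min δ1 δ2 := lt_min hδ1 hδ2
  have hc : 0 < min δ1 δ2 ^ 2 / 5 := by positivity
  have ha := mul_star_self_nonneg x
  have hb := star_mul_self_nonneg x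
  have hab : x * star x * (star x * x) = 0 := by
    rw [mul_assoc, ← mul_assoc (star x), ← star_mul, hx, star_zero, zero_mul, mul_zero]
  obtain ⟨L, L0, L1, L2, L3, L4, L5⟩ := merge_side ha hb he hδ hc
  obtain ⟨M, M0, M1, M2, M3, M4, M5⟩ := merge_side hb ha hf hδ hc
  have hst (l l') : ‖M l * L l'‖ = ‖L l' * M l‖ := by
    rw [← norm_star, star_mul, (L0 _).isSelfAdjoint.star_eq, (M0 _).isSelfAdjoint.star_eq]
  have ho (l l' : Bool × ℕ) (h : l.1 = l'.1 ∨ l.2 = l'.2) : ‖L l * M l'‖ ≤ 1 / 32768 := by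
    obtain ⟨_ | _, k⟩ := l <;> obtain ⟨_ | _, k'⟩ := l'
    · rw [L2, M2, rp_mul_rp (by positivity) hc (by positivity) hc ha hb hab, norm_zero]
      norm_num
    · obtain rfl : k = k' := by simpa using h
      rw [← hst, L2]; exact M4 k
    · obtain rfl : k = k' := by simpa using h
      rw [M2]; exact L4 k
    · obtain ⟨m, hm⟩ := L3 k
      obtain ⟨m', hm'⟩ := M3 k'
      rw [hm, hm', mul_assoc, mul_assoc _ m', ← mul_assoc (cfc _ e) (cfc _ f),
        rp_mul_rp le_rfl hδ le_rfl hδ he hf hef, zero_mul, mul_zero, norm_zero]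
      norm_num
  have key {y : D} {δ' : ℝ} (h0 : min δ1 δ2 ≤ δ') (Q : Type u) [CStarAlgebra Q]
      (q : D →⋆ₐ[ℂ] Q) (hS : ∀ s ∈ S, q s = 0) (H : ∃ s ∈ S ∪ {x, y}, δ' ≤ ‖q s‖)
      (h : ‖q x‖ * ‖q x‖ ≤ 4 * (min δ1 δ2 ^ 2 / 5)) : min δ1 δ2 ≤ ‖q y‖ := by
    obtain ⟨s, hs | rfl | rfl, h3⟩ := H
    · rw [hS s hs, norm_zero] at h3; linarith
    · nlinarith [mul_self_le_mul_self hδ.le (h0.trans h3)]
    · exact h0.trans h3
  have na (Q : Type u) [CStarAlgebra Q] (q : D →⋆ₐ[ℂ] Q) : ‖q (x * star x)‖ = ‖q x‖ * ‖q x‖ := by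
    rw [map_mul, map_star, CStarRing.norm_self_mul_star]
  have nb (Q : Type u) [CStarAlgebra Q] (q : D →⋆ₐ[ℂ] Q) : ‖q (star x * x)‖ = ‖q x‖ * ‖q x‖ := by
    rw [map_mul, map_star, CStarRing.norm_star_mul_self]
  have cov (ν : Fin 3 → ℕ) : ∃ i, ∀ p, mergeC (mergeW i p) (min (ν p) 4) := by
    obtain ⟨i, h0, h1, h2⟩ := mergeW_cover ⟨min (ν 0) 4, by omega⟩ ⟨min (ν 1) 4, by omega⟩
      ⟨min (ν 2) 4, by omega⟩
    exact ⟨i, fun p => by fin_cases p <;> assumption⟩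
  have hA := merge_half hπ S (fun i p => L (mergeW i p)) (fun i p => M (mergeW i p))
    (fun _ _ => L0 _) (fun _ _ => M0 _) (fun _ _ => L1 _) (fun _ _ => M1 _)
    (fun i j => (mergeW_orth i j).imp fun p hp => ho _ _ hp) fun Q _ _ q hq =>
      (cov fun p => ⌊‖q p x‖ * ‖q p x‖ / (min δ1 δ2 ^ 2 / 5)⌋₊).imp fun i hi p =>
        L5 Q (q p) _ _ (na Q _) (nb Q _) (key (min_le_left _ _) Q _ (hq p) (H1 Q _)) (hi p)
  have hB := merge_half hπ S (fun i p => M (mergeW i p)) (fun i p => L (mergeW i p))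
    (fun _ _ => M0 _) (fun _ _ => L0 _) (fun _ _ => M1 _) (fun _ _ => L1 _)
    (fun i j => (mergeW_orth j i).imp fun p hp => (hst _ _).trans_le (ho _ _ hp)) fun Q _ _ q hq =>
      (cov fun p => ⌊‖q p x‖ * ‖q p x‖ / (min δ1 δ2 ^ 2 / 5)⌋₊).imp fun i hi p =>
        M5 Q (q p) _ _ (nb Q _) (na Q _) (key (min_le_right _ _) Q _ (hq p) (H2 Q _)) (hi p)
  refine ⟨_, _, CFC.posPart_nonneg _, CFC.posPart_nonneg _, ?_, hA, hB⟩
  rw [← neg_sub (∑ i, π 0 (L (mergeW i 0)) * π 1 (L (mergeW i 1)) * π 2 (L (mergeW i 2))),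
    CFC.posPart_neg, CFC.posPart_mul_negPart]

end Vale.Agent.P101.F
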