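import Vale.Agent.P101.FBasic

/-! P101 task O: constructions of order zero maps. -/

namespace Vale.Agent.P101.F

open Filter Topology
open scoped Kronecker ComplexOrder

universe u

variable {D E : Type u} [CStarAlgebra D] [CStarAlgebra E]
variable {ι κ : Type} [Fintype ι] [DecidableEq ι] [Fintype κ] [DecidableEq κ]

theorem oz_sqrt {a : E} (ha : 0 ≤ a) :
    ∃ b : E, 0 ≤ b ∧ b * b = a :=
  ⟨CFC.sqrt a, CFC.sqrt_nonneg a, CFC.sqrt_mul_sqrt_self a ha⟩

theorem oz_comm {b z : E} (hb : 0 ≤ b) (h : Commute (b * b) z) : Commute b z := by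
  have := h.cfcₙ_nnreal NNReal.sqrt
  rwa [show cfcₙ NNReal.sqrt (b * b) = CFC.sqrt (b * b) from rfl, CFC.sqrt_mul_self b hb] at this

theorem oz_kill {b w : E} (hb : IsSelfAdjoint b) (h : b * b * w = 0) : b * w = 0 := by
  rw [← CStarRing.star_mul_self_eq_zero_iff, star_mul, hb.star_eq, mul_assoc, ← mul_assoc b, h,
    mul_zero]

theorem oz_cube {y : E} (hy : IsSelfAdjoint y) (h : 0 ≤ y * y * y) : 0 ≤ y := by
  rw [← pow_three', ← cfc_pow_id (R := ℝ) y 3 hy, cfc_nonneg_iff _ y (by fun_prop) hy] at h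
  rw [StarOrderedRing.nonneg_iff_spectrum_nonneg (R := ℝ) y hy]
  exact fun t ht => (Odd.pow_nonneg_iff (by decide : Odd 3)).1 (h t ht)

theorem oz_mul_le {a b : E} (ha : a ≤ 1) (hb : 0 ≤ b) (h : Commute a b) : a * b ≤ b := by
  have := Commute.mul_nonneg (sub_nonneg.2 ha) hb ((Commute.one_left b).sub_left h)
  rwa [sub_mul, one_mul, sub_nonneg] at this

theorem OZ.star_single (α : OZ ι E) (i j : ι) :
    star (α.φ (Matrix.single i j 1)) = α.φ (Matrix.single j i 1) := by
  rw [← α.star', Matrix.star_eq_conjTranspose, Matrix.conjTranspose_single, star_one]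

theorem OZ.proj_nonneg (α : OZ ι E) {p : Matrix ι ι ℂ} (h1 : star p = p) (h2 : p * p = p) :
    0 ≤ α.φ p := by
  have hy : IsSelfAdjoint (α.φ p) := by rw [IsSelfAdjoint, ← α.star', h1]
  refine oz_cube hy ?_
  have := star_left_conjugate_nonneg α.nonneg (α.φ p)
  rwa [hy.star_eq, mul_assoc, ← h2, ← α.mul', h2, ← mul_assoc] at this

theorem OZ.proj_le (α : OZ ι E) {p : Matrix ι ι ℂ} (h1 : star p = p) (h2 : p * p = p) :
    α.φ p ≤ α.φ 1 := by
  have := α.proj_nonneg (p := 1 - p) (by rw [star_sub, star_one, h1])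
    (by rw [mul_sub, mul_one, sub_mul, one_mul, h2, sub_self, sub_zero])
  rwa [map_sub, sub_nonneg] at this

theorem oz_units_single (e : ι → ι → E) (i j : ι) :
    ∑ a, ∑ b, (Matrix.single i j (1 : ℂ)) a b • e a b = e i j := by
  rw [Finset.sum_eq_single i, Finset.sum_eq_single j]
  · simp
  · intro b _ hb
    simp [Matrix.single_apply, hb.symm]
  · simp
  · intro a _ ha
    simp [Matrix.single_apply, ha.symm]
  · simp

theorem oz_kron_ind {P : Matrix (ι × κ) (ι × κ) ℂ → Prop} (h0 : P 0)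
    (h1 : ∀ a b, P a → P b → P (a + b)) (h2 : ∀ x y, P (x ⊗ₖ y)) (m : Matrix (ι × κ) (ι × κ) ℂ) :
    P m := by
  obtain ⟨t, rfl⟩ := (kroneckerLinearEquiv ι ι κ κ ℂ).surjective m
  induction t using TensorProduct.induction_on with
  | zero => rwa [map_zero]
  | tmul x y => exact h2 x y
  | add a b ha hb => rw [map_add]; exact h1 _ _ ha hb

theorem OZ.exists_units (e : ι → ι → E) (h1 : ∀ i j, star (e i j) = e j i)
    (h2 : ∀ i j k l, e i j * e k l = if j = k then (∑ m, e m m) * e i l else 0)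
    (h3 : 0 ≤ ∑ m, e m m) (h4 : ∑ m, e m m ≤ 1) :
    ∃ α : OZ ι E, ∀ x, α.φ x = ∑ i, ∑ j, x i j • e i j := by
  let φ : Matrix ι ι ℂ →ₗ[ℂ] E :=
    { toFun x := ∑ i, ∑ j, x i j • e i j
      map_add' x y := by simp [add_smul, Finset.sum_add_distrib]
      map_smul' c x := by simp [Finset.smul_sum, smul_smul] }
  have hφ : ∀ x, φ x = ∑ i, ∑ j, x i j • e i j := fun _ => rfl
  have h0 : φ 1 = ∑ m, e m m := by simp [hφ, Matrix.one_apply]
  refine ⟨⟨φ, fun x => ?_, fun x y => ?_, h0 ▸ h3, h0 ▸ h4⟩, hφ⟩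
  · rw [hφ, hφ, Finset.sum_comm]
    simp [star_sum, h1]
  · have h5 : ∀ i j c, φ (Matrix.single i j c) = c • e i j := fun i j c => by
      rw [← mul_one c, ← smul_eq_mul, ← Matrix.smul_single, map_smul, hφ, oz_units_single,
        smul_eq_mul, mul_one]
    induction x using Matrix.induction_on' with
    | h_zero => simp
    | h_add a b ha hb => rw [map_add, add_mul, add_mul, map_add, mul_add, ha, hb]
    | h_std_basis i j c =>
      induction y using Matrix.induction_on' with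
      | h_zero => simp
      | h_add a b ha hb => rw [map_add, mul_add, mul_add, map_add, mul_add, ha, hb]
      | h_std_basis k l d =>
        rw [h0, h5, h5, smul_mul_smul_comm, h2]
        split_ifs with e
        · rw [e, Matrix.single_mul_single_same, h5, mul_smul_comm]
        · rw [Matrix.single_mul_single_of_ne _ _ _ _ e, map_zero, mul_zero, smul_zero]

theorem OZ.exists_tensor (α : OZ ι E) (β : OZ κ E) (h : ∀ x y, Commute (α.φ x) (β.φ y)) :
    ∃ Γ : OZ (ι × κ) E, (∀ x y, Γ.φ (x ⊗ₖ y) = α.φ x * β.φ y) ∧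
      (∀ x m, α.φ x * Γ.φ m = α.φ 1 * Γ.φ (kl ι κ x * m)) ∧
      (∀ x m, Γ.φ m * α.φ x = α.φ 1 * Γ.φ (m * kl ι κ x)) ∧
      (∀ y m, β.φ y * Γ.φ m = β.φ 1 * Γ.φ (kr ι κ y * m)) ∧
      (∀ y m, Γ.φ m * β.φ y = β.φ 1 * Γ.φ (m * kr ι κ y)) ∧
      ∀ z, (∀ x, Commute z (α.φ x)) → (∀ y, Commute z (β.φ y)) → ∀ m, Commute z (Γ.φ m) := by
  let φ : Matrix (ι × κ) (ι × κ) ℂ →ₗ[ℂ] E :=
    TensorProduct.lift ((LinearMap.mul ℂ E).compl₁₂ α.φ β.φ) ∘ₗ
      (kroneckerLinearEquiv ι ι κ κ ℂ).symm.toLinearMap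
  have hφ : ∀ x y, φ (x ⊗ₖ y) = α.φ x * β.φ y := fun x y => by simp [φ]
  have h0 : φ 1 = α.φ 1 * β.φ 1 := by rw [← Matrix.one_kronecker_one, hφ]
  have key : ∀ x y x' y', α.φ x * β.φ y * (α.φ x' * β.φ y') =
      α.φ x * α.φ x' * (β.φ y * β.φ y') := fun x y x' y' => (h x' y).symm.mul_mul_mul_comm _ _
  refine ⟨⟨φ, fun m => ?_, fun m m' => ?_, ?_, ?_⟩, hφ, fun x m => ?_, fun x m => ?_,
    fun y m => ?_, fun y m => ?_, fun z h1 h2 m => ?_⟩
  · induction m using oz_kron_ind with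
    | h0 => simp
    | h1 a b ha hb => rw [star_add, map_add, map_add, star_add, ha, hb]
    | h2 x y =>
      rw [Matrix.star_eq_conjTranspose, Matrix.conjTranspose_kronecker, hφ, hφ, star_mul,
        ← α.star', ← β.star', (h _ _).eq]
      rfl
  · induction m using oz_kron_ind with
    | h0 => simp
    | h1 a b ha hb => rw [map_add, add_mul, add_mul, map_add, mul_add, ha, hb]
    | h2 x y =>
      induction m' using oz_kron_ind with
      | h0 => simp
      | h1 a b ha hb => rw [map_add, mul_add, mul_add, map_add, mul_add, ha, hb]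
      | h2 x' y' => rw [← Matrix.mul_kronecker_mul, h0, hφ, hφ, hφ, key, key, α.mul', β.mul']
  · rw [h0]
    exact (h 1 1).mul_nonneg α.nonneg β.nonneg
  · rw [h0]
    exact (oz_mul_le α.le_one β.nonneg (h 1 1)).trans β.le_one
  · show α.φ x * φ m = α.φ 1 * φ (kl ι κ x * m)
    induction m using oz_kron_ind with
    | h0 => simp
    | h1 a b ha hb => rw [map_add, mul_add, mul_add, map_add, mul_add, ha, hb]
    | h2 x' y' =>
      rw [kl_apply, ← Matrix.mul_kronecker_mul, hφ, hφ, one_mul, ← mul_assoc, α.mul', mul_assoc]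
  · show φ m * α.φ x = α.φ 1 * φ (m * kl ι κ x)
    induction m using oz_kron_ind with
    | h0 => simp
    | h1 a b ha hb => rw [map_add, add_mul, add_mul, map_add, mul_add, ha, hb]
    | h2 x' y' =>
      rw [kl_apply, ← Matrix.mul_kronecker_mul, hφ, hφ, mul_one, mul_assoc, ← (h x y').eq,
        ← mul_assoc, α.mul', mul_assoc]
  · show β.φ y * φ m = β.φ 1 * φ (kr ι κ y * m)
    induction m using oz_kron_ind with
    | h0 => simp
    | h1 a b ha hb => rw [map_add, mul_add, mul_add, map_add, mul_add, ha, hb]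
    | h2 x' y' =>
      rw [kr_apply, ← Matrix.mul_kronecker_mul, hφ, hφ, one_mul, ← mul_assoc, ← (h x' y).eq,
        mul_assoc, β.mul', ← mul_assoc, (h x' 1).eq, mul_assoc]
  · show φ m * β.φ y = β.φ 1 * φ (m * kr ι κ y)
    induction m using oz_kron_ind with
    | h0 => simp
    | h1 a b ha hb => rw [map_add, add_mul, add_mul, map_add, mul_add, ha, hb]
    | h2 x' y' =>
      rw [kr_apply, ← Matrix.mul_kronecker_mul, hφ, hφ, mul_one, mul_assoc, β.mul', ← mul_assoc,
        (h x' 1).eq, mul_assoc]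
  · show Commute z (φ m)
    induction m using oz_kron_ind with
    | h0 => simp
    | h1 a b ha hb => rw [map_add]; exact ha.add_right hb
    | h2 x' y' => rw [hφ]; exact (h1 _).mul_right (h2 _)

theorem OZ.exists_corner (α : OZ ι E) (f : κ ↪ ι) : ∃ β : OZ κ E,
    ∀ i j, β.φ (Matrix.single i j 1) = α.φ (Matrix.single (f i) (f j) 1) := by
  set p : Matrix ι ι ℂ := ∑ m, Matrix.single (f m) (f m) 1 with hp
  have h1 : ∀ i l, p * Matrix.single (f i) l 1 = Matrix.single (f i) l 1 := fun i l => by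
    rw [hp, Finset.sum_mul, Finset.sum_eq_single i, Matrix.single_mul_single_same, one_mul]
    · intro b _ hb
      exact Matrix.single_mul_single_of_ne _ _ _ _ (f.injective.ne hb) _
    · simp
  have h2 : star p = p := by
    simp [hp, star_sum, Matrix.star_eq_conjTranspose, Matrix.conjTranspose_single]
  have h3 : p * p = p := by
    conv_lhs => enter [2]; rw [hp]
    simp only [Finset.mul_sum, h1]
    rfl
  have h4 : ∑ m, α.φ (Matrix.single (f m) (f m) 1) = α.φ p := by rw [hp, map_sum]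
  obtain ⟨β, hβ⟩ := OZ.exists_units (fun i j => α.φ (Matrix.single (f i) (f j) 1))
    (fun i j => α.star_single _ _) (fun i j k l => by
      rw [h4, α.mul', α.mul' p, h1]
      split_ifs with e
      · rw [e, Matrix.single_mul_single_same, one_mul]
      · rw [Matrix.single_mul_single_of_ne _ _ _ _ (f.injective.ne e), map_zero, mul_zero])
    (h4 ▸ α.proj_nonneg h2 h3) (h4 ▸ (α.proj_le h2 h3).trans α.le_one)
  exact ⟨β, fun i j => by rw [hβ, oz_units_single]⟩

theorem OZ.unit_eq_zero (α : OZ ι E) (i j : ι) (h : α.φ (Matrix.single i j 1) = 0) :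
    α.φ 1 = 0 := by
  have h1 : ∀ k, α.φ 1 * α.φ (Matrix.single k j 1) = 0 := fun k => by
    have := α.mul' (Matrix.single k i 1) (Matrix.single i j 1)
    rw [h, mul_zero, Matrix.single_mul_single_same, one_mul] at this
    exact this.symm
  have h2 : ∀ k, α.φ 1 * (α.φ 1 * α.φ (Matrix.single k k 1)) = 0 := fun k => by
    have := α.mul' (Matrix.single k j 1) (Matrix.single j k 1)
    rw [Matrix.single_mul_single_same, one_mul] at this
    rw [← this, ← mul_assoc, h1, zero_mul]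
  have h3 : α.φ 1 * α.φ 1 * α.φ 1 = 0 := by
    conv_lhs => enter [2]; rw [← Matrix.sum_single_one, map_sum]
    simp only [Finset.mul_sum, mul_assoc, h2, Finset.sum_const_zero]
  have h4 := oz_kill α.sa h3
  rw [← mul_one (α.φ 1 * α.φ 1)] at h4
  simpa using oz_kill α.sa h4

theorem OZ.exists_ofNil {x : E} (hx : x * x = 0) : ∃ (α : OZ (Fin 2) E) (c : ℝ), 0 < c ∧
    α.φ (Matrix.single 0 1 1) = (c : ℂ) • x := by
  have hc : 0 < (2 * (‖x‖ + 1))⁻¹ := by positivity
  set c := (2 * (‖x‖ + 1))⁻¹ with hc'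
  set y := (c : ℂ) • x with hy
  have hn : ‖y‖ ≤ 1 / 2 := by
    rw [hy, norm_smul, Complex.norm_real, Real.norm_of_nonneg hc.le, hc', inv_mul_le_iff₀
      (by positivity)]
    linarith
  have yy : y * y = 0 := by rw [hy, smul_mul_smul_comm, hx, smul_zero]
  clear_value y
  have ss : star y * star y = 0 := by rw [← star_mul, yy, star_zero]
  obtain ⟨a, ha, haa⟩ := oz_sqrt (mul_star_self_nonneg y)
  obtain ⟨b, hb, hbb⟩ := oz_sqrt (star_mul_self_nonneg y)
  have sa := ha.isSelfAdjoint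
  have sb := hb.isSelfAdjoint
  have hby : b * y = 0 := oz_kill sb (by rw [hbb, mul_assoc, yy, mul_zero])
  have has : a * star y = 0 := oz_kill sa (by rw [haa, mul_assoc, ss, mul_zero])
  have hsb : star y * b = 0 := by simpa [sb.star_eq] using congrArg star hby
  have hya : y * a = 0 := by simpa [sa.star_eq] using congrArg star has
  have hab : a * b = 0 := oz_kill sa (by rw [haa, mul_assoc, hsb, mul_zero])
  have hba : b * a = 0 := by simpa [sa.star_eq, sb.star_eq] using congrArg star hab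
  have hc1 : Commute (a + b) y := oz_comm (add_nonneg ha hb) (by
    simp only [Commute, SemiconjBy, mul_add, add_mul, haa, hbb, hab, hba, add_zero, zero_add,
      mul_assoc, yy, mul_zero, ← mul_assoc y y, zero_mul])
  have hay : a * y = y * b := by simpa [add_mul, mul_add, hby, hya] using hc1.eq
  have hsa : star y * a = b * star y := by simpa [sa.star_eq, sb.star_eq] using congrArg star hay
  have na : ‖a‖ ≤ 1 / 2 := by
    have := sa.norm_mul_self
    rw [haa, CStarRing.norm_self_mul_star] at this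
    nlinarith [norm_nonneg a, norm_nonneg y]
  have nb : ‖b‖ ≤ 1 / 2 := by
    have := sb.norm_mul_self
    rw [hbb, CStarRing.norm_star_mul_self] at this
    nlinarith [norm_nonneg b, norm_nonneg y]
  obtain ⟨α, hα⟩ := OZ.exists_units (ι := Fin 2) ![![a, y], ![star y, b]]
    (fun i j => by fin_cases i <;> fin_cases j <;> simp [sa.star_eq, sb.star_eq])
    (fun i j k l => by
      fin_cases i <;> fin_cases j <;> fin_cases k <;> fin_cases l <;>
        simp [add_mul, hab, hba, hby, has, hsb, hya, yy, ss, haa, hbb, hay, hsa])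
    (by simpa using add_nonneg ha hb)
    (by
      rw [Fin.sum_univ_two]
      exact (CStarAlgebra.norm_le_one_iff_of_nonneg (a + b) (add_nonneg ha hb)).1
        ((norm_add_le a b).trans (by linarith)))
  exact ⟨α, c, hc, by rw [hα, oz_units_single]; exact hy⟩

theorem OZ.exists_sum2 (α β : OZ ι E) {e f : E} (he : 0 ≤ e) (he1 : e ≤ 1) (hf : 0 ≤ f)
    (hf1 : f ≤ 1) (hef : e * f = 0) (h1 : ∀ x, Commute e (α.φ x)) (h2 : ∀ x, Commute e (β.φ x))
    (h3 : ∀ x, Commute f (α.φ x)) (h4 : ∀ x, Commute f (β.φ x)) :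
    ∃ γ : OZ ι E, ∀ x, γ.φ x = α.φ x * e + β.φ x * f := by
  have hfe : f * e = 0 := by
    simpa [he.isSelfAdjoint.star_eq, hf.isSelfAdjoint.star_eq] using congrArg star hef
  have key : ∀ a b a' b' : E, Commute e a' → Commute e b' → Commute f a' → Commute f b' →
      (a * e + b * f) * (a' * e + b' * f) = a * a' * (e * e) + b * b' * (f * f) := by
    intro a b a' b' k1 k2 k3 k4
    rw [add_mul, mul_add, mul_add, k1.mul_mul_mul_comm, k2.mul_mul_mul_comm, k3.mul_mul_mul_comm,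
      k4.mul_mul_mul_comm, hef, hfe]
    simp
  let φ : Matrix ι ι ℂ →ₗ[ℂ] E := LinearMap.mulRight ℂ e ∘ₗ α.φ + LinearMap.mulRight ℂ f ∘ₗ β.φ
  have hφ : ∀ x, φ x = α.φ x * e + β.φ x * f := fun _ => rfl
  refine ⟨⟨φ, fun x => ?_, fun x y => ?_, ?_, ?_⟩, hφ⟩
  · rw [hφ, hφ, star_add, star_mul, star_mul, ← α.star', ← β.star', he.isSelfAdjoint.star_eq,
      hf.isSelfAdjoint.star_eq, (h1 _).eq, (h4 _).eq]
  · rw [hφ, hφ, hφ, hφ, key _ _ _ _ (h1 _) (h2 _) (h3 _) (h4 _),
      key _ _ _ _ (h1 _) (h2 _) (h3 _) (h4 _), α.mul', β.mul']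
  · exact add_nonneg ((h1 1).symm.mul_nonneg α.nonneg he) ((h4 1).symm.mul_nonneg β.nonneg hf)
  · refine (add_le_add (oz_mul_le α.le_one he (h1 1).symm)
      (oz_mul_le β.le_one hf (h4 1).symm)).trans ?_
    have hc : Commute e f := hef.trans hfe.symm
    have := Commute.mul_nonneg (sub_nonneg.2 he1) (sub_nonneg.2 hf1)
      ((Commute.one_left _).sub_left ((Commute.one_right e).sub_right hc))
    rwa [sub_mul, one_mul, mul_sub, mul_one, hef, sub_zero, sub_sub, sub_nonneg, add_comm] at this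

theorem OZ.exists_scale (α : OZ ι E) (g : ℝ → ℝ) (hg : Continuous g)
    (h : ∀ t, 0 ≤ t → t ≤ 1 → 0 ≤ g t * t ∧ g t * t ≤ 1) :
    ∃ β : OZ ι E, ∀ x, β.φ x = cfc g (α.φ 1) * α.φ x := by
  have hc : ∀ x, Commute (cfc g (α.φ 1)) (α.φ x) := fun x => (α.comm x).cfc_real g
  have hs : IsSelfAdjoint (cfc g (α.φ 1)) := cfc_predicate g _
  have sa := α.sa
  have h0 : cfc g (α.φ 1) * α.φ 1 = cfc (fun t => g t * t) (α.φ 1) := by
    rw [cfc_mul g (fun t => t) (α.φ 1), cfc_id' ℝ (α.φ 1)]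
  have hsp : ∀ t ∈ spectrum ℝ (α.φ 1), 0 ≤ g t * t ∧ g t * t ≤ 1 := fun t ht =>
    h t (spectrum_nonneg_of_nonneg α.nonneg ht) ((CFC.le_one_iff (R := ℝ) _ sa).1 α.le_one t ht)
  let φ : Matrix ι ι ℂ →ₗ[ℂ] E := LinearMap.mulLeft ℂ (cfc g (α.φ 1)) ∘ₗ α.φ
  have hφ : ∀ x, φ x = cfc g (α.φ 1) * α.φ x := fun _ => rfl
  refine ⟨⟨φ, fun x => ?_, fun x y => ?_, ?_, ?_⟩, hφ⟩
  · rw [hφ, hφ, star_mul, ← α.star', hs.star_eq, (hc _).eq]
  · rw [hφ, hφ, hφ, hφ, (hc x).symm.mul_mul_mul_comm, (hc 1).symm.mul_mul_mul_comm, α.mul']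
  · rw [hφ, h0]
    exact cfc_nonneg fun t ht => (hsp t ht).1
  · rw [hφ, h0]
    exact cfc_le_one _ _ fun t ht => (hsp t ht).2

end Vale.Agent.P101.F
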