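import Vale.Agent.P101.FBasic

/-! P101 task Q: quotients of C*-algebras. -/

namespace Vale.Agent.P101.F

open Filter Topology
open scoped Kronecker ComplexOrder

universe u

variable {E : Type u} [CStarAlgebra E]

theorem quot_unit (I : Ideal E) [I.IsTwoSided] {j : E} (hj : j ∈ I) {ε : ℝ} (hε : 0 < ε) :
    ∃ m : E, star m = m ∧ ‖m‖ ≤ 1 ∧ 1 - m ∈ I ∧ ‖j * m‖ ≤ ε := by
  have h0 : 0 ≤ star j * j := star_mul_self_nonneg j
  have hp (t) (ht : t ∈ spectrum ℝ (star j * j)) : 0 < ε ^ 2 + t :=
    add_pos_of_pos_of_nonneg (by positivity) (spectrum_nonneg_of_nonneg h0 ht)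
  have hG : ContinuousOn (fun t : ℝ => (ε ^ 2 + t)⁻¹) (spectrum ℝ (star j * j)) :=
    ContinuousOn.inv₀ (by fun_prop) fun t ht => (hp t ht).ne'
  let F : ℝ → ℝ := fun t => ε ^ 2 * (ε ^ 2 + t)⁻¹
  have hF : ContinuousOn F (spectrum ℝ (star j * j)) := continuousOn_const.mul hG
  have hF0 (t) (ht : t ∈ spectrum ℝ (star j * j)) : 0 ≤ F t := by have := hp t ht; positivity
  have hF1 (t) (ht : t ∈ spectrum ℝ (star j * j)) : F t ≤ 1 :=
    mul_inv_le_one_of_le₀ (by linarith [spectrum_nonneg_of_nonneg h0 ht]) (hp t ht).le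
  have hm : star (cfc F (star j * j)) = cfc F (star j * j) := IsSelfAdjoint.star_eq (cfc_predicate F _)
  refine ⟨cfc F (star j * j), hm, norm_cfc_le zero_le_one fun t ht => by
    rw [Real.norm_of_nonneg (hF0 t ht)]; exact hF1 t ht, ?_, ?_⟩
  · have : 1 - cfc F (star j * j) = cfc (fun t : ℝ => (ε ^ 2 + t)⁻¹) (star j * j) * (star j * j) := by
      rw [← cfc_one ℝ (star j * j) h0.isSelfAdjoint, ← cfc_sub _ _ _ (by fun_prop) hF]
      have e := cfc_mul _ (fun t : ℝ => t) _ hG (by fun_prop)
      rw [cfc_id' ℝ _ h0.isSelfAdjoint] at e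
      rw [← e]
      refine cfc_congr fun t ht => ?_
      have := (hp t ht).ne'
      simp only [F, Pi.one_apply]
      field_simp
      ring
    rw [this]
    exact I.mul_mem_left _ (I.mul_mem_left _ hj)
  · refine (sq_le_sq₀ (norm_nonneg _) hε.le).1 ?_
    have h1 : star (j * cfc F (star j * j)) * (j * cfc F (star j * j)) =
        cfc (fun t => F t * t * F t) (star j * j) := by
      rw [cfc_mul (fun t => F t * t) _ _ (hF.mul continuousOn_id) hF, cfc_mul _ _ _ hF (by fun_prop),
        cfc_id' ℝ _ h0.isSelfAdjoint, star_mul, hm]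
      simp only [mul_assoc]
    rw [sq, ← CStarRing.norm_star_mul_self, h1]
    refine norm_cfc_le (by positivity) fun t ht => ?_
    have ht0 : 0 ≤ t := spectrum_nonneg_of_nonneg h0 ht
    rw [Real.norm_of_nonneg (mul_nonneg (mul_nonneg (hF0 t ht) ht0) (hF0 t ht))]
    have h2 : F t * t ≤ ε ^ 2 := by
      rw [mul_assoc, mul_comm _ t]
      exact mul_le_of_le_one_right (by positivity)
        (mul_inv_le_one_of_le₀ (by nlinarith) (hp t ht).le)
    simpa using mul_le_mul h2 (hF1 t ht) (hF0 t ht) (by positivity)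

theorem quot_star (I : Ideal E) [I.IsTwoSided] (hI : IsClosed (I : Set E)) {j : E} (hj : j ∈ I) :
    star j ∈ I := by
  refine hI.closure_subset (Metric.mem_closure_iff.2 fun ε hε => ?_)
  obtain ⟨m, h1, -, h2, h3⟩ := quot_unit I hj (half_pos hε)
  refine ⟨(1 - m) * star j, I.mul_mem_right _ h2, ?_⟩
  rw [dist_eq_norm, sub_mul, one_mul, sub_sub_cancel, ← h1, ← star_mul, norm_star]
  linarith

theorem exists_quot (I : Ideal E) [I.IsTwoSided] (hI : IsClosed (I : Set E)) :
    ∃ (Q : Type u) (_ : CStarAlgebra Q) (q : E →⋆ₐ[ℂ] Q), Function.Surjective q ∧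
      (∀ x, q x = 0 ↔ x ∈ I) ∧ ∀ x, ‖q x‖ = Metric.infDist x (I : Set E) := by
  let : StarRing (E ⧸ I) :=
    { star := Quotient.map' (fun a : E => star a) (fun x y h => by
        have h1 : x - y ∈ I := (Submodule.quotientRel_def _).1 h
        refine (Submodule.quotientRel_def _).2 ?_
        rw [← star_sub]
        exact quot_star I hI h1)
      star_involutive := by
        rintro ⟨x⟩
        exact congrArg (Ideal.Quotient.mk I) (star_star x)
      star_mul := by
        rintro ⟨x⟩ ⟨y⟩
        exact congrArg (Ideal.Quotient.mk I) (star_mul x y)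
      star_add := by
        rintro ⟨x⟩ ⟨y⟩
        exact congrArg (Ideal.Quotient.mk I) (star_add x y) }
  let : StarModule ℂ (E ⧸ I) :=
    { star_smul := by
        rintro c ⟨x⟩
        exact congrArg (Ideal.Quotient.mk I) (star_smul c x) }
  let q : E →⋆ₐ[ℂ] (E ⧸ I) := { toAlgHom := Ideal.Quotient.mkₐ ℂ I, map_star' _ := rfl }
  have hq (x : E) : ‖q x‖ ≤ ‖x‖ := Submodule.Quotient.norm_mk_le I x
  have key {r c : ℝ} (hc : 0 ≤ c) {x : E ⧸ I} (h : ∀ a, q a = x → r ≤ ‖a‖ * c) : r ≤ ‖x‖ * c := by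
    refine le_of_forall_pos_le_add fun ε hε => ?_
    obtain ⟨a, ha, h1⟩ := Submodule.Quotient.norm_mk_lt (S := I) x (div_pos hε (by linarith : 0 < c + 1))
    have h2 : ε / (c + 1) * c ≤ ε := by
      rw [div_mul_eq_mul_div, div_le_iff₀ (by linarith)]; nlinarith
    nlinarith [h a ha, mul_le_mul_of_nonneg_right h1.le hc]
  have hmul (x y : E ⧸ I) : ‖x * y‖ ≤ ‖x‖ * ‖y‖ := by
    refine key (norm_nonneg _) fun a ha => ?_
    rw [mul_comm ‖a‖]
    refine key (norm_nonneg _) fun b hb => ?_
    rw [← ha, ← hb, ← map_mul, mul_comm ‖b‖]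
    exact (hq _).trans (norm_mul_le _ _)
  let : NormedRing (E ⧸ I) :=
    { __ : Ring (E ⧸ I) := inferInstance
      __ : NormedAddCommGroup (E ⧸ I) := inferInstance
      norm_mul_le := hmul }
  let : CStarAlgebra (E ⧸ I) :=
    { __ : NormedRing (E ⧸ I) := inferInstance
      __ : StarRing (E ⧸ I) := inferInstance
      __ : Algebra ℂ (E ⧸ I) := inferInstance
      __ : StarModule ℂ (E ⧸ I) := inferInstance
      toCompleteSpace := Submodule.Quotient.completeSpace I
      norm_mul_self_le := fun x => by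
        obtain ⟨x, rfl⟩ : ∃ a, q a = x := Ideal.Quotient.mk_surjective x
        rw [← mul_one ‖star (q x) * q x‖]
        refine key zero_le_one fun a ha => le_of_forall_pos_le_add fun ε hε => ?_
        have hj : star x * x - a ∈ I := Ideal.Quotient.eq.1 (by
          change q _ = q _
          rw [ha, map_mul, map_star])
        obtain ⟨m, h1, h2, h3, h4⟩ := quot_unit I hj hε
        have h5 : q x = q (x * m) := Ideal.Quotient.eq.2 (by
          rw [← mul_one_sub]; exact I.mul_mem_left _ h3)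
        have h6 : ‖q x‖ ≤ ‖x * m‖ := h5 ▸ hq _
        refine (mul_self_le_mul_self (norm_nonneg _) h6).trans ?_
        have h7 : star (x * m) * (x * m) = m * (a * m + (star x * x - a) * m) := by
          rw [star_mul, h1]; noncomm_ring
        rw [← CStarRing.norm_star_mul_self, h7]
        refine (norm_mul_le _ _).trans ((mul_le_of_le_one_left (norm_nonneg _) h2).trans
          ((norm_add_le _ _).trans (add_le_add ((norm_mul_le _ _).trans ?_) h4)))
        gcongr
      norm_smul_le := fun c x => norm_smul_le c x }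
  exact ⟨E ⧸ I, inferInstance, q, Ideal.Quotient.mk_surjective,
    fun x => Ideal.Quotient.eq_zero_iff_mem, fun x => QuotientAddGroup.norm_mk x⟩

end Vale.Agent.P101.F
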