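import Vale.Agent.P101.FFull
import Vale.Agent.P101.FJoin

/-! P101 task R: the number of summands in the relations goes down to one. -/

namespace Vale.Agent.P101.F

open Filter Topology
open scoped Kronecker ComplexOrder

universe u

variable {D E : Type u} [CStarAlgebra D] [CStarAlgebra E]
variable {ι κ : Type} [Fintype ι] [DecidableEq ι] [Fintype κ] [DecidableEq κ]

theorem rw_pp (α : OZ ι E) (i0 : ι) :
    α.φ (Matrix.single i0 i0 1) * α.φ (Matrix.single i0 i0 1) =
      α.φ 1 * α.φ (Matrix.single i0 i0 1) := by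
  rw [α.mul', Matrix.single_mul_single_same, one_mul]

theorem rw_kill {Y c m : E} (hm : IsSelfAdjoint m) (h : m * m ≤ c) (hY : Y * c = 0) :
    Y * m = 0 := by
  have h1 := star_right_conjugate_le_conjugate h Y
  rw [hY, zero_mul] at h1
  rw [← CStarRing.mul_star_self_eq_zero_iff]
  refine le_antisymm ?_ (mul_star_self_nonneg _)
  rwa [star_mul, hm.star_eq, mul_assoc, ← mul_assoc m, ← mul_assoc]

theorem rw_orth {A B C : E} (h1 : star A * B = 0) (h2 : star A * C = 0) (h3 : star C * B = 0) :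
    star (A + B + C) * (A + B + C) = star A * A + star B * B + star C * C := by
  have k1 : star B * A = 0 := by simpa using congrArg star h1
  have k2 : star C * A = 0 := by simpa using congrArg star h2
  have k3 : star B * C = 0 := by simpa using congrArg star h3
  simp [mul_add, add_mul, h1, h2, h3, k1, k2, k3]

theorem rw_init (α : OZ ι E) (hα : Full {α.φ 1}) (i0 : ι) : ∃ n, RWn ι i0 (n + 1) E := by
  set p := α.φ (Matrix.single i0 i0 1) with hp
  have hs : star (Matrix.single i0 i0 (1 : ℂ)) = Matrix.single i0 i0 1 := by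
    rw [Matrix.star_eq_conjTranspose, Matrix.conjTranspose_single, star_one]
  have hm : Matrix.single i0 i0 (1 : ℂ) * Matrix.single i0 i0 1 = Matrix.single i0 i0 1 := by
    rw [Matrix.single_mul_single_same, one_mul]
  have p0 : 0 ≤ p := α.proj_nonneg hs hm
  have p1 : ‖p‖ ≤ 1 := (CStarAlgebra.norm_le_one_iff_of_nonneg p p0).2
    ((α.proj_le hs hm).trans α.le_one)
  have pp : p * p = α.φ 1 * p := rw_pp α i0
  have sa := α.sa
  have h1 : Full {p * p} := fun Q _ _ q => by
    refine ⟨_, rfl, fun h => ?_⟩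
    obtain ⟨_, rfl, h2⟩ := hα Q q
    refine h2 ((α.map q).unit_eq_zero i0 i0 ?_)
    rw [map_mul] at h
    rwa [← CStarRing.star_mul_self_eq_zero_iff, OZ.star_single]
  obtain ⟨δ, hδ, h2⟩ := h1.unif
  have hd : 0 < δ / 2 := half_pos hδ
  let f : ℝ → ℝ := fun t => max (t - δ / 2) 0
  let g : ℝ → ℝ := fun t => (max t (δ / 2))⁻¹
  have hf : Continuous f := by fun_prop
  have hg : Continuous g := (continuous_id.max continuous_const).inv₀ fun t =>
    (lt_max_of_lt_right hd).ne'
  have h3 : ‖cfc f (α.φ 1) * p - p * p‖ ≤ δ / 2 := by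
    rw [pp, ← sub_mul]
    refine (norm_mul_le _ _).trans ((mul_le_of_le_one_right (norm_nonneg _) p1).trans ?_)
    have e : cfc f (α.φ 1) - α.φ 1 = cfc (fun t => f t - t) (α.φ 1) := by
      rw [cfc_sub f (fun t => t) (α.φ 1) hf.continuousOn continuous_id.continuousOn,
        cfc_id' ℝ (α.φ 1)]
    rw [e]
    refine norm_cfc_le hd.le fun t ht => ?_
    have := spectrum_nonneg_of_nonneg α.nonneg ht
    rw [Real.norm_eq_abs, abs_le]
    simp only [f]
    constructor
    · linarith [le_max_left (t - δ / 2) 0]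
    · have := max_le (by linarith : t - δ / 2 ≤ t) this
      linarith
  have h4 : Full {cfc f (α.φ 1) * p} := fun Q _ _ q => by
    refine ⟨_, rfl, fun h => ?_⟩
    obtain ⟨_, rfl, h5⟩ := h2 Q q
    have h6 := (NonUnitalStarAlgHom.norm_apply_le q _).trans h3
    rw [map_sub, h, zero_sub, norm_neg] at h6
    linarith
  obtain ⟨β, hβ⟩ := α.exists_scale g hg fun t t0 _ => by
    have h0 : 0 < max t (δ / 2) := lt_max_of_lt_right hd
    exact ⟨mul_nonneg (inv_pos.2 h0).le t0, (inv_mul_le_one₀ h0).2 (le_max_left _ _)⟩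
  have h5 : β.φ (Matrix.single i0 i0 1) * (cfc f (α.φ 1) * p) = cfc f (α.φ 1) * p := by
    have c : Commute p (cfc f (α.φ 1)) := ((α.comm _).cfc_real f).symm
    rw [hβ, ← hp, c.mul_mul_mul_comm, pp, ← mul_assoc]
    congr 1
    conv_lhs => enter [2]; rw [← cfc_id' ℝ (α.φ 1)]
    rw [← cfc_mul g f (α.φ 1) hg.continuousOn hf.continuousOn,
      ← cfc_mul (fun t => g t * f t) (fun t => t) (α.φ 1) (hg.mul hf).continuousOn
        continuous_id.continuousOn]
    refine cfc_congr fun t _ => ?_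
    simp only [f, g]
    rcases le_total t (δ / 2) with h | h
    · rw [max_eq_right (sub_nonpos.2 h), mul_zero, zero_mul]
    · have : t ≠ 0 := (hd.trans_le h).ne'
      rw [max_eq_left h]
      field_simp
  obtain ⟨n, r, hr⟩ := h4.exists_star_sum
  obtain ⟨w, w0, ww⟩ := oz_sqrt (sub_nonneg.2 β.le_one)
  refine ⟨n, β, Fin.cons 0 fun i => cfc f (α.φ 1) * p * r i * w, ?_, fun i => ?_⟩
  · rw [Fin.sum_univ_succ, ← ww, show w * w = w * 1 * w by rw [mul_one], ← hr, Finset.mul_sum,
      Finset.sum_mul]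
    simp only [Fin.cons_zero, Fin.cons_succ, mul_zero, zero_add, star_mul,
      w0.isSelfAdjoint.star_eq, mul_assoc]
  · induction i using Fin.cases with
    | zero => simp
    | succ i => rw [Fin.cons_succ, ← mul_assoc, ← mul_assoc, h5]

theorem rw_step {i0 : ι} {n : ℕ} (π π' : D →⋆ₐ[ℂ] E) (hc : Com π π') (h : RWn ι i0 (n + 2) D) :
    RWn ι i0 (n + 1) E := by
  obtain ⟨α, s0, h1, h2⟩ := h
  obtain ⟨w, w0, ww⟩ := oz_sqrt (add_nonneg zero_le_one α.nonneg)
  have wc : Commute w (1 - α.φ 1) := oz_comm w0 (by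
    rw [ww]
    exact (Commute.one_left _).add_left ((Commute.one_right _).sub_right (Commute.refl _)))
  obtain ⟨s, hs⟩ : ∃ s : Fin (n + 2) → D, s = fun r => s0 r * w := ⟨_, rfl⟩
  have s1 : ∑ r, star (s r) * s r = 1 - α.φ 1 * α.φ 1 := by
    have : ∑ r, star (s r) * s r = w * (∑ r, star (s0 r) * s0 r) * w := by
      simp only [hs, Finset.mul_sum, Finset.sum_mul, star_mul, w0.isSelfAdjoint.star_eq,
        mul_assoc]
    rw [this, h1, wc.eq, mul_assoc, ww]
    noncomm_ring
  have s2 : ∀ r, α.φ (Matrix.single i0 i0 1) * s r = s r := fun r => by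
    simp only [hs, ← mul_assoc, h2]
  have s3 : ∀ r, α.φ 1 * s r = s r := fun r => by
    rw [← s2 r, ← mul_assoc, ← rw_pp, mul_assoc, s2, s2]
  have s4 : ∀ z : D, α.φ 1 * z = z → (1 - α.φ 1 * α.φ 1) * z = 0 := fun z hz => by
    rw [sub_mul, one_mul, mul_assoc, hz, hz, sub_self]
  obtain ⟨k, k0, kk⟩ := oz_sqrt (oz_sq_le α.nonneg α.le_one)
  obtain ⟨m, m0, mm⟩ := oz_sqrt (star_mul_self_nonneg (s (Fin.last (n + 1))))
  have ks : ∀ r, k * s r = 0 := fun r => oz_kill k0.isSelfAdjoint (by rw [kk, s4 _ (s3 r)])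
  have mc : m * m ≤ 1 - α.φ 1 * α.φ 1 := by
    rw [mm, ← s1]
    exact Finset.single_le_sum (f := fun r => star (s r) * s r)
      (fun r _ => star_mul_self_nonneg _) (Finset.mem_univ _)
  obtain ⟨χ, V, j1, -, j2, j3, j4⟩ := (α.map π).exists_join (α.map π') fun _ _ => hc _ _
  simp only [OZ.map_φ] at j1 j2 j3 j4
  have sk : IsSelfAdjoint (π' k) := k0.isSelfAdjoint.map π'
  have sm : IsSelfAdjoint (π m) := m0.isSelfAdjoint.map π
  have hV : ∀ r, star (π (s r)) * V * π m = 0 := fun r => by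
    refine rw_kill (c := π (1 - α.φ 1 * α.φ 1)) sm
      (by rw [← map_mul]; exact OrderHomClass.mono π mc) ?_
    have c : Commute V (π (1 - α.φ 1 * α.φ 1)) := by
      rw [map_sub, map_one, map_mul]
      exact (Commute.one_right _).sub_right (j3.mul_right j3)
    have e : star (s r) * (1 - α.φ 1 * α.φ 1) = 0 := by
      simpa [α.sa.star_eq] using congrArg star (s4 _ (s3 r))
    rw [mul_assoc, c.eq, ← mul_assoc, ← map_star, ← map_mul, e, map_zero, zero_mul]
  have hy : ∀ r, π' (α.φ 1) * (π' (s r) * π m) = π' (s r) * π m := fun r => by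
    rw [← mul_assoc, ← map_mul, s3]
  have hz : ∀ r z, π (α.φ 1) * (π (s r) * z) = π (s r) * z := fun r z => by
    rw [← mul_assoc, ← map_mul, s3]
  have hB : ∀ r r' z, star (π (s r) * z) * (V * (π' (s r') * π m)) = 0 := fun r r' z => by
    rw [star_mul, ← (hc m _).eq, mul_assoc, ← mul_assoc V, ← mul_assoc (star (π (s r))),
      ← mul_assoc (star (π (s r))), hV, zero_mul, mul_zero]
  refine ⟨χ, fun r => π (s r.castSucc) * π' k + V * (π' (s r.castSucc) * π m) +
    if r = 0 then π (s (Fin.last _)) * π' (s (Fin.last _)) else 0, ?_, fun r => ?_⟩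
  · have e1 : ∀ r, star (π (s r) * π' k) * (π (s r) * π' k) =
        π (star (s r) * s r) * π' (1 - α.φ 1 * α.φ 1) := fun r => by
      rw [star_mul, sk.star_eq, mul_assoc, ← mul_assoc (star _), ← map_star, ← map_mul,
        ← mul_assoc, ← (hc _ k).eq, mul_assoc, ← map_mul, kk]
    have e2 : ∀ r, star (V * (π' (s r) * π m)) * (V * (π' (s r) * π m)) =
        π (m * m) * π' (star (s r) * s r) := fun r => by
      rw [star_mul V, mul_assoc, (j4 _ (hy r)).1, star_mul, sm.star_eq, mul_assoc,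
        ← mul_assoc (star _), ← map_star, ← map_mul, ← (hc m _).eq, ← mul_assoc, ← map_mul]
    have e3 : ∀ r, star (π (s r) * π' (s r)) * (π (s r) * π' (s r)) =
        π (star (s r) * s r) * π' (star (s r) * s r) := fun r => by
      rw [star_mul, mul_assoc, ← mul_assoc (star (π (s r))), ← map_star, ← map_star, ← map_mul,
        ← mul_assoc, ← (hc _ _).eq, mul_assoc, ← map_mul]
    have e4 : ∀ r r', star (π (s r) * π' k) * (π (s r') * π' (s r')) = 0 := fun r r' => by
      rw [star_mul, sk.star_eq, mul_assoc, ← mul_assoc (star _), ← map_star, ← map_mul,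
        ← mul_assoc, ← (hc _ k).eq, mul_assoc, ← map_mul, ks, map_zero, mul_zero]
    have e5 : ∑ r : Fin (n + 1), star (s r.castSucc) * s r.castSucc =
        1 - α.φ 1 * α.φ 1 - m * m := by
      rw [← s1, Fin.sum_univ_castSucc (n := n + 1), mm, add_sub_cancel_right]
    rw [Finset.sum_congr rfl fun r _ => rw_orth (hB _ _ _) (by split_ifs; exacts [e4 _ _, mul_zero _])
      (by split_ifs; exacts [hB _ _ _, by rw [star_zero, zero_mul]])]
    simp only [e1, e2, Finset.sum_add_distrib, ← Finset.sum_mul, ← Finset.mul_sum, ← map_sum, e5]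
    rw [Finset.sum_eq_single 0 (fun r _ hr => by rw [if_neg hr, mul_zero]) (by simp), if_pos rfl,
      e3, ← mm, j1]
    simp only [map_sub, map_mul, map_one]
    noncomm_ring
  · have f1 : ∀ r z, χ.φ (Matrix.single i0 i0 1) * (π (s r) * z) = π (s r) * z := fun r z => by
      rw [j2 _ (hz r z), ← mul_assoc, ← map_mul, s2]
    beta_reduce
    rw [mul_add, mul_add, f1, (j4 _ (hy _)).2, ← mul_assoc (π' _), ← map_mul, s2]
    split_ifs
    · rw [f1]
    · rw [mul_zero]

theorem exists_rw_one {P : ∀ (E : Type u) [CStarAlgebra E], Prop} (hP : Closed3 P) (hD : P D)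
    (α : OZ ι D) (hα : Full {α.φ 1}) (i0 : ι) :
    ∃ (E : Type u) (_ : CStarAlgebra E), P E ∧ RWn ι i0 1 E := by
  have key : ∀ (n : ℕ) (D : Type u) [CStarAlgebra D], P D → RWn ι i0 (n + 1) D →
      ∃ (E : Type u) (_ : CStarAlgebra E), P E ∧ RWn ι i0 1 E := by
    intro n
    induction n with
    | zero => exact fun D _ h1 h2 => ⟨D, _, h1, h2⟩
    | succ n ih =>
      intro D _ h1 h2
      obtain ⟨E, _, hE, π, hπ⟩ := hP D h1
      exact ih E hE (rw_step (π 0) (π 1) (hπ.1 0 1 (by decide)) h2)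
  obtain ⟨n, hn⟩ := rw_init α hα i0
  exact key n D hD hn

end Vale.Agent.P101.F
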