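import Vale.Agent.P101.FBasic
import Vale.Agent.P101.Ultra

/-! P101 task I: commuting copies in the central sequence algebra. -/

namespace Vale.Agent.P101.F

open Filter Topology TopologicalSpace

universe u

theorem reind_sep_adjoin {X : Type u} [CStarAlgebra X] {T : Set X} (hT : IsSeparable T) :
    IsSeparable (StarAlgebra.adjoin ℂ T : Set X) := by
  obtain ⟨c, hc, hTc⟩ := hT
  have h1 : IsSeparable (StarAlgebra.adjoin ℂ c : Set X) := by
    have e : (StarAlgebra.adjoin ℂ c : Set X) =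
        Submodule.span ℂ (Submonoid.closure (c ∪ star c) : Set X) := by
      rw [← Algebra.adjoin_eq_span, ← StarAlgebra.adjoin_toSubalgebra]
      rfl
    rw [e]
    refine IsSeparable.span (Set.Countable.isSeparable ?_)
    have hG : (c ∪ star c).Countable := by
      refine hc.union (Set.Countable.mono (fun x hx => ?_) (hc.image star))
      exact ⟨star x, hx, star_star x⟩
    generalize c ∪ star c = G at hG
    have := hG.to_subtype
    refine (Set.countable_range fun l : List G => (l.map Subtype.val).prod).mono fun S hS => ?_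
    obtain ⟨l, hl, rfl⟩ := Submonoid.exists_list_of_mem_closure hS
    exact ⟨l.attachWith _ hl, by simp⟩
  refine h1.closure.mono ?_
  have h2 : StarAlgebra.adjoin ℂ T ≤ (StarAlgebra.adjoin ℂ c).topologicalClosure :=
    StarAlgebra.adjoin_le (hTc.trans (closure_mono (StarAlgebra.subset_adjoin ℂ c)))
  exact h2

/-- reindexing of bounded sequences -/
noncomputable def reindMap (A : Type u) [CStarAlgebra A] (m : ℕ → ℕ) :
    BoundedContinuousFunction ℕ A →⋆ₐ[ℂ] BoundedContinuousFunction ℕ A where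
  toFun x := BoundedContinuousFunction.ofNormedAddCommGroupDiscrete (fun n => x (m n)) ‖x‖
    fun n => x.norm_coe_le_norm (m n)
  map_one' := by ext n; rfl
  map_mul' x y := by ext n; rfl
  map_zero' := by ext n; rfl
  map_add' x y := by ext n; rfl
  commutes' c := by ext n; rfl
  map_star' x := by ext n; rfl

theorem reindMap_apply {A : Type u} [CStarAlgebra A] (m : ℕ → ℕ)
    (x : BoundedContinuousFunction ℕ A) (n : ℕ) : reindMap A m x n = x (m n) := rfl

theorem reind_cont {A B : Type u} [CStarAlgebra A] [CStarAlgebra B] (f : A →⋆ₐ[ℂ] B) :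
    Continuous f :=
  AddMonoidHomClass.continuous_of_bound f 1 fun x => by
    rw [one_mul]; exact NonUnitalStarAlgHom.norm_apply_le f x

theorem reind_copy {A D : Type u} [CStarAlgebra A] [SeparableSpace A] [CStarAlgebra D]
    [SeparableSpace D] (ω : Ultrafilter ℕ) (hω : (ω : Filter ℕ) ≤ cofinite)
    (ι : D →⋆ₐ[ℂ] centralSeq A ω) {T : Set (Ultrapower A ω)} (hT : IsSeparable T) :
    ∃ π : D →⋆ₐ[ℂ] centralSeq A ω, ∀ d, ∀ t ∈ T, Commute (π d : Ultrapower A ω) t := by
  have hω' : (ω : Filter ℕ) ≤ atTop := by rwa [← Nat.cofinite_eq_atTop]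
  have h0 : Tendsto (fun n : ℕ => 1 / ((n : ℝ) + 1)) (ω : Filter ℕ) (𝓝 0) :=
    tendsto_one_div_add_atTop_nhds_zero_nat.mono_left hω'
  choose y hy using fun d : D => umk_surjective (ω := ω) (ι d : Ultrapower A ω)
  obtain ⟨c, hc, hcd⟩ := exists_countable_dense D
  set G0 : StarSubalgebra ℂ (D × BoundedContinuousFunction ℕ A) :=
    StarAlgebra.adjoin ℂ ((fun d => (d, y d)) '' c) with hG0
  have hG0s : SeparableSpace G0 :=
    (reind_sep_adjoin (hc.image fun d => (d, y d)).isSeparable).separableSpace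
  have hG0e : ∀ g ∈ G0, umk ω g.2 = ι g.1 := fun g hg =>
    StarAlgHom.adjoin_le_equalizer ((umk ω).comp (StarAlgHom.snd ℂ _ _))
      (((centralSeq A ω).subtype.comp ι).comp (StarAlgHom.fst ℂ _ _))
      (by rintro _ ⟨d, -, rfl⟩; exact hy d) hg
  have : Nonempty G0 := ⟨0⟩
  set g : ℕ → G0 := denseSeq G0 with hg
  have hgd : DenseRange g := denseRange_denseSeq G0
  obtain ⟨c', hc', hTc⟩ := hT.union (isSeparable_range (reind_cont (uconst (A := A) ω)))
  obtain ⟨t, ht⟩ := (hc'.insert 0).exists_eq_range (Set.insert_nonempty _ _)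
  choose z hz using fun j => umk_surjective (ω := ω) (t j)
  have key : ∀ n : ℕ, ∃ m : ℕ, ∀ k ∈ Set.Iic n, ‖(g k).1.2 m‖ < ‖(g k).1.1‖ + 1 / ((n : ℝ) + 1) ∧
      ∀ j ∈ Set.Iic n, ‖z j n * (g k).1.2 m - (g k).1.2 m * z j n‖ < 1 / ((n : ℝ) + 1) := by
    intro n
    refine Eventually.exists (f := (ω : Filter ℕ)) ?_
    refine (eventually_all_finite (Set.finite_Iic n)).2 fun k _ => Eventually.and ?_
      ((eventually_all_finite (Set.finite_Iic n)).2 fun j _ => ?_)
    · refine (tendsto_norm_umk (g k).1.2).eventually (gt_mem_nhds ?_)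
      rw [hG0e _ (g k).2]
      have h1 : ‖(ι (g k).1.1 : Ultrapower A ω)‖ ≤ ‖(g k).1.1‖ :=
        NonUnitalStarAlgHom.norm_apply_le ι _
      have h2 : (0 : ℝ) < 1 / ((n : ℝ) + 1) := Nat.one_div_pos_of_nat
      linarith
    · have h1 : umk ω (g k).1.2 ∈ centralSeq A ω := by
        rw [hG0e _ (g k).2]; exact (ι _).2
      exact (umk_mem_centralSeq.1 h1 (z j n)).eventually (gt_mem_nhds Nat.one_div_pos_of_nat)
  choose m hm using key
  let Φ : BoundedContinuousFunction ℕ A →⋆ₐ[ℂ] Ultrapower A ω := (umk ω).comp (reindMap A m)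
  have hΦ : Continuous Φ := reind_cont Φ
  have hb : ∀ x : G0, ‖Φ x.1.2‖ ≤ 1 * ‖x.1.1‖ := fun x => by
    refine hgd.induction_on (p := fun x : G0 => ‖Φ x.1.2‖ ≤ 1 * ‖x.1.1‖) x
      (isClosed_le (by fun_prop) (by fun_prop)) fun k => ?_
    have h1 := (tendsto_const_nhds (x := ‖(g k).1.1‖) (f := (ω : Filter ℕ))).add h0
    rw [add_zero] at h1
    rw [one_mul]
    refine le_of_tendsto_of_tendsto (tendsto_norm_umk (reindMap A m (g k).1.2)) h1 ?_
    filter_upwards [hω' (eventually_ge_atTop k)] with n hn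
    exact (hm n k hn).1.le
  have hcm : ∀ x : G0, ∀ j, t j * Φ x.1.2 = Φ x.1.2 * t j := fun x j => by
    refine hgd.induction_on (p := fun x : G0 => t j * Φ x.1.2 = Φ x.1.2 * t j) x
      (isClosed_eq (by fun_prop) (by fun_prop)) fun k => ?_
    change t j * umk ω (reindMap A m (g k).1.2) = umk ω (reindMap A m (g k).1.2) * t j
    rw [← hz j, ← map_mul, ← map_mul, umk_eq_iff]
    refine squeeze_zero' (Eventually.of_forall fun _ => norm_nonneg _) ?_ h0
    filter_upwards [hω' (eventually_ge_atTop k), hω' (eventually_ge_atTop j)] with n hn hn'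
    exact ((hm n k hn).2 j hn').le
  let P : (D × BoundedContinuousFunction ℕ A) →⋆ₐ[ℂ] (D × Ultrapower A ω) :=
    (StarAlgHom.fst ℂ _ _).prod (Φ.comp (StarAlgHom.snd ℂ _ _))
  have hmem : ∀ d ∈ c, (d, y d) ∈ G0 := fun d hd => StarAlgebra.subset_adjoin ℂ _ ⟨d, hd, rfl⟩
  obtain ⟨Ψ, hΨ⟩ := ext_graph (G0.map P) 1 (by rintro _ ⟨x, hx, rfl⟩; exact hb ⟨x, hx⟩)
    (hcd.mono fun d hd => ⟨P (d, y d), ⟨_, hmem d hd, rfl⟩, rfl⟩)
  have hΨc : Continuous Ψ := reind_cont Ψ
  have hfin : ∀ d, ∀ s ∈ T ∪ Set.range (uconst ω), s * Ψ d = Ψ d * s := fun d s hs => by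
    refine hcd.induction (P := fun d => s * Ψ d = Ψ d * s) (fun d hd => ?_)
      (isClosed_eq (by fun_prop) (by fun_prop)) d
    have h1 : Ψ d = Φ (y d) := hΨ (P (d, y d)) ⟨_, hmem d hd, rfl⟩
    rw [h1]
    refine closure_minimal (t := {s | s * Φ (y d) = Φ (y d) * s}) (fun s hs => ?_)
      (isClosed_eq (by fun_prop) (by fun_prop)) (hTc hs)
    obtain ⟨j, rfl⟩ : s ∈ Set.range t := ht ▸ Set.mem_insert_of_mem _ hs
    exact hcm ⟨_, hmem d hd⟩ j
  refine ⟨Ψ.codRestrict _ fun d => mem_centralSeq.2 fun a => hfin d _ (Or.inr ⟨a, rfl⟩),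
    fun d s hs => (hfin d s (Or.inl hs)).symm⟩

theorem reind_gen {B D : Type u} [CStarAlgebra B] [CStarAlgebra D] [SeparableSpace D]
    (π : Fin 3 → (D →⋆ₐ[ℂ] B)) (h : ∀ i j, i ≠ j → Com (π i) (π j)) :
    ∃ (E : Type u) (_ : CStarAlgebra E), (SeparableSpace E ∧ Nonempty (E →⋆ₐ[ℂ] B)) ∧
      ∃ π : Fin 3 → (D →⋆ₐ[ℂ] E), Gen3 π := by
  let E := (StarAlgebra.adjoin ℂ (⋃ i, Set.range (π i))).topologicalClosure
  have hE : IsClosed (E : Set B) := StarSubalgebra.isClosed_topologicalClosure _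
  have hm : ∀ i d, π i d ∈ E := fun i d => StarSubalgebra.le_topologicalClosure _
    (StarAlgebra.subset_adjoin ℂ _ (Set.mem_iUnion.2 ⟨i, d, rfl⟩))
  refine ⟨E, inferInstance, ⟨?_, ⟨E.subtype⟩⟩, fun i => (π i).codRestrict E (hm i),
    fun i j hij x y => Subtype.ext (h i j hij x y), ?_⟩
  · exact (reind_sep_adjoin (IsSeparable.iUnion fun i =>
      isSeparable_range (reind_cont (π i)))).closure.separableSpace
  · refine eq_top_iff.2 fun x _ => ?_
    change x ∈ closure _
    rw [IsEmbedding.subtypeVal.closure_eq_preimage_closure_image]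
    have e := StarAlgHom.map_adjoin E.subtype (⋃ i, Set.range ((π i).codRestrict E (hm i)))
    have e2 : E.subtype '' (⋃ i, Set.range ((π i).codRestrict E (hm i))) =
        ⋃ i, Set.range (π i) := by
      rw [Set.image_iUnion]
      refine Set.iUnion_congr fun i => ?_
      rw [← Set.range_comp]
      rfl
    rw [e2] at e
    have e3 := congrArg (fun S : StarSubalgebra ℂ B => closure (S : Set B)) e
    exact e3.symm.subset x.2

theorem closed3_centralSeq {A : Type u} [CStarAlgebra A] [TopologicalSpace.SeparableSpace A]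
    (ω : Ultrafilter ℕ) (hω : (ω : Filter ℕ) ≤ cofinite) :
    Closed3 fun (D : Type u) _ =>
      TopologicalSpace.SeparableSpace D ∧ Nonempty (D →⋆ₐ[ℂ] centralSeq A ω) := by
  rintro D _ ⟨hD, ⟨ι⟩⟩
  have hs : ∀ π : D →⋆ₐ[ℂ] centralSeq A ω,
      IsSeparable (Set.range ((centralSeq A ω).subtype.comp π)) := fun π =>
    isSeparable_range (reind_cont _)
  obtain ⟨π1, h1⟩ := reind_copy ω hω ι (hs ι)
  obtain ⟨π2, h2⟩ := reind_copy ω hω ι ((hs ι).union (hs π1))
  have h10 : Com π1 ι := fun x y => Subtype.ext (h1 x _ ⟨y, rfl⟩)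
  have h20 : Com π2 ι := fun x y => Subtype.ext (h2 x _ (Or.inl ⟨y, rfl⟩))
  have h21 : Com π2 π1 := fun x y => Subtype.ext (h2 x _ (Or.inr ⟨y, rfl⟩))
  refine reind_gen ![ι, π1, π2] fun i j hij => ?_
  fin_cases i <;> fin_cases j
  · exact absurd rfl hij
  · exact fun x y => (h10 y x).symm
  · exact fun x y => (h20 y x).symm
  · exact h10
  · exact absurd rfl hij
  · exact fun x y => (h21 y x).symm
  · exact h20
  · exact h21
  · exact absurd rfl hij

end Vale.Agent.P101.F
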