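import Mathlib

/-!
The Rordam-Winter relations, the interface between the two halves of the proof.
-/

namespace Vale.Agent.P101

/-- `φ i j` are the images of the matrix units under an order zero map `M_n → C` with
`φ(1) = 1 - v* v`, and `φ(e_{00}) v = v`. -/
structure RW {C : Type*} [Ring C] [StarRing C] {n : Type*} [Fintype n] [DecidableEq n] (o : n)
    (φ : n → n → C) (v : C) : Prop where
  star_eq : ∀ i j, star (φ i j) = φ j i
  mul_eq : ∀ i j k l, φ i j * φ k l = if j = k then (1 - star v * v) * φ i l else 0
  sum_eq : ∑ i, φ i i = 1 - star v * v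
  mul_v : φ o o * v = v

end Vale.Agent.P101
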