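import Vale.Agent.P101.FSplit
import Vale.Agent.P101.FRW
import Vale.Agent.P101.FReind
import Vale.Agent.P101.RWDefs

/-! P101: no characters on the central sequence algebra give the Rordam-Winter relations. -/

namespace Vale.Agent.P101

open F

theorem exists_RW {A : Type*} [CStarAlgebra A] [TopologicalSpace.SeparableSpace A]
    (ω : Ultrafilter ℕ) (hω : (ω : Filter ℕ) ≤ Filter.cofinite) (h : NoCharacter A ω) (n : ℕ) :
    ∃ (φ : Fin (n + 1) → Fin (n + 1) → centralSeq A ω) (v : centralSeq A ω), RW 0 φ v := by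
  have h0 : IsEmpty (centralSeq A ω →⋆ₐ[ℂ] ℂ) := ⟨fun χ => by
    have := congrArg (fun f : centralSeq A ω →⋆ₙₐ[ℂ] ℂ => f 1) (h χ.toNonUnitalStarAlgHom)
    exact one_ne_zero ((map_one χ).symm.trans this)⟩
  obtain ⟨D, _, hD1, hD2, hD3⟩ := exists_sep_nil (full_nil h0)
  have hP := closed3_centralSeq (A := A) ω hω
  obtain ⟨E, _, hE, α, hα⟩ := exists_fullOZ hP ⟨hD1, hD2⟩ hD3 (n + 1) n.succ_pos
  obtain ⟨E', _, ⟨-, ⟨θ⟩⟩, β, s, h1, h2⟩ := exists_rw_one hP hE α hα 0
  rw [Fin.sum_univ_one] at h1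
  have h3 : β.φ 1 = 1 - star (s 0) * s 0 := by rw [h1, sub_sub_cancel]
  have h4 : θ (β.φ 1) = 1 - star (θ (s 0)) * θ (s 0) := by
    rw [h3, map_sub, map_one, map_mul, map_star]
  refine ⟨fun i j => θ (β.φ (Matrix.single i j 1)), θ (s 0), fun i j => ?_, fun i j k l => ?_,
    ?_, ?_⟩
  · rw [← map_star, ← β.star', Matrix.star_eq_conjTranspose, Matrix.conjTranspose_single, star_one]
  · rw [← map_mul, β.mul', map_mul, h4]
    split_ifs with e
    · rw [e, Matrix.single_mul_single_same, one_mul]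
    · rw [Matrix.single_mul_single_of_ne _ _ _ _ e, map_zero, map_zero, mul_zero]
  · rw [← h4, ← map_sum, ← map_sum, Matrix.sum_single_one]
  · rw [← map_mul, h2]

end Vale.Agent.P101
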