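import Vale.Agent.P101.FMerge
import Vale.Agent.P101.FJoin

/-! P101 task S: full order zero maps. -/

namespace Vale.Agent.P101.F

open Filter Topology
open scoped Kronecker ComplexOrder

universe u

variable {D E : Type u} [CStarAlgebra D] [CStarAlgebra E]

theorem Full.of_imp {S T : Set E} (h : Full S)
    (hST : ∀ (Q : Type u) [CStarAlgebra Q] (q : E →⋆ₐ[ℂ] Q), (∀ t ∈ T, q t = 0) →
      ∀ s ∈ S, q s = 0) : Full T := fun Q _ _ q => by
  by_contra hc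
  push Not at hc
  obtain ⟨s, hs, h1⟩ := h Q q
  exact h1 (hST Q q hc s hs)

theorem Full.map_one_elt {e : D} (h : Full {e}) (π : D →⋆ₐ[ℂ] E) : Full {π e} := by
  simpa using h.map π

theorem Full.cancel {e : D} (h : Full {e}) (ρ : D →⋆ₐ[ℂ] E) {z : E} (hz : ∀ x, Commute z (ρ x))
    (h0 : z * ρ e = 0) : z = 0 := by
  obtain ⟨n, x, s, y, hs, h1⟩ := h.exists_sum
  rw [← mul_one z, ← map_one ρ, ← h1, map_sum, Finset.mul_sum]
  refine Finset.sum_eq_zero fun i _ => ?_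
  rw [show s i = e from hs i, map_mul, map_mul, ← mul_assoc, ← mul_assoc, (hz _).eq,
    mul_assoc _ z, h0, mul_zero, zero_mul]

section

variable {ι κ : Type} [Fintype ι] [DecidableEq ι] [Fintype κ] [DecidableEq κ]

theorem OZ.eq_zero (α : OZ ι E) (h : α.φ 1 = 0) (x : Matrix ι ι ℂ) : α.φ x = 0 := by
  rw [← CStarRing.star_mul_self_eq_zero_iff, ← α.star', α.mul', h, zero_mul]

theorem split_sq {t : E} (ht : IsSelfAdjoint t) (h : t * t = 0) : t = 0 := by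
  rwa [← CStarRing.star_mul_self_eq_zero_iff, ht.star_eq]

theorem split_join (α β : OZ ι E) (h : ∀ x y, Commute (α.φ x) (β.φ y)) : ∃ χ : OZ ι E,
    (∀ z, (∀ x, Commute z (α.φ x)) → (∀ x, Commute z (β.φ x)) → ∀ x, Commute z (χ.φ x)) ∧
    ∀ (Q : Type u) [CStarAlgebra Q] (q : E →⋆ₐ[ℂ] Q), q (χ.φ 1) = 0 →
      q (α.φ 1) = 0 ∧ q (β.φ 1) = 0 := by
  obtain ⟨χ, -, h1, h2, -⟩ := α.exists_join β h
  refine ⟨χ, h2, fun Q _ q hq => ?_⟩
  rw [h1] at hq
  simp only [map_sub, map_mul, map_one] at hq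
  have a0 : 0 ≤ q (α.φ 1) := (α.map q).nonneg
  have b0 : 0 ≤ q (β.φ 1) := (β.map q).nonneg
  have b1 : q (β.φ 1) ≤ 1 := (β.map q).le_one
  have c : Commute (q (α.φ 1)) (q (β.φ 1)) := (h 1 1).map q
  have p1 : 0 ≤ q (α.φ 1) * q (α.φ 1) := (Commute.refl _).mul_nonneg a0 a0
  have p2 : 0 ≤ q (β.φ 1) * q (β.φ 1) := (Commute.refl _).mul_nonneg b0 b0
  have k := c.mul_left c
  have h3 := oz_mul_le (sub_le_self 1 p1) (oz_sq_le b0 b1)
    ((Commute.one_left _).sub_left ((Commute.one_right _).sub_right (k.mul_right k)))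
  rw [← sub_eq_zero.1 hq, le_sub_self_iff] at h3
  have h4 := split_sq b0.isSelfAdjoint (le_antisymm h3 p2)
  rw [h4, mul_zero, sub_zero, mul_one, sub_sub_cancel] at hq
  exact ⟨split_sq a0.isSelfAdjoint hq, h4⟩

theorem split_join3 {π : Fin 3 → (D →⋆ₐ[ℂ] E)} (hπ : Gen3 π) (α : OZ ι D) : ∃ χ : OZ ι E,
    ∀ (Q : Type u) [CStarAlgebra Q] (q : E →⋆ₐ[ℂ] Q), q (χ.φ 1) = 0 →
      ∀ p, q (π p (α.φ 1)) = 0 := by
  obtain ⟨χ, h1, h2⟩ := split_join (α.map (π 0)) (α.map (π 1))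
    fun x y => hπ.1 0 1 (by decide) _ _
  obtain ⟨χ', -, h3⟩ := split_join χ (α.map (π 2)) fun x y =>
    (h1 _ (fun _ => hπ.1 2 0 (by decide) _ _) (fun _ => hπ.1 2 1 (by decide) _ _) x).symm
  refine ⟨χ', fun Q _ q hq p => ?_⟩
  obtain ⟨h4, h5⟩ := h3 Q q hq
  obtain ⟨h6, h7⟩ := h2 Q q h4
  fin_cases p
  exacts [h6, h7, h5]

theorem split_corner (α : OZ ι E) (hα : Full {α.φ 1}) (f : κ ↪ ι) (i : κ) :
    ∃ β : OZ κ E, Full {β.φ 1} := by
  obtain ⟨β, hβ⟩ := α.exists_corner f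
  refine ⟨β, hα.of_imp fun Q _ q hq s hs => ?_⟩
  rw [show s = α.φ 1 from hs]
  refine (α.map q).unit_eq_zero (f i) (f i) ?_
  rw [OZ.map_φ, ← hβ]
  exact (β.map q).eq_zero (hq _ rfl) _

end

theorem split_family (hn : Full {x : E | x * x = 0}) :
    ∃ (n : ℕ) (a : Fin (n + 1) → OZ (Fin 2) E), Full (Set.range fun i => (a i).φ 1) := by
  obtain ⟨n, x, s, y, hs, h1⟩ := hn.exists_sum
  choose α c hc hα using fun i => OZ.exists_ofNil (hs i)
  obtain ⟨α0, -⟩ := OZ.exists_ofNil (mul_zero (0 : E))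
  refine ⟨n, Fin.cons α0 α, (full_of_sum (S := Set.range s) x s y (fun i => ⟨i, rfl⟩) h1).of_imp
    fun Q _ q hq => ?_⟩
  rintro _ ⟨i, rfl⟩
  have h2 := ((α i).map q).eq_zero (hq _ ⟨i.succ, rfl⟩) (Matrix.single 0 1 1)
  rw [OZ.map_φ, hα, map_smul, smul_eq_zero] at h2
  exact h2.resolve_left (Complex.ofReal_ne_zero.2 (hc i).ne')

/-- an orthogonal pair that is full modulo `n` order zero maps -/
def SplitQ (n : ℕ) (E : Type u) [CStarAlgebra E] : Prop :=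
  Full {x : E | x * x = 0} ∧ ∃ (a : Fin n → OZ (Fin 2) E) (e f : E), 0 ≤ e ∧ 0 ≤ f ∧ e * f = 0 ∧
    Full ((Set.range fun i => (a i).φ 1) ∪ {e}) ∧ Full ((Set.range fun i => (a i).φ 1) ∪ {f})

theorem split_step {n : ℕ} {π : Fin 3 → (D →⋆ₐ[ℂ] E)} (hπ : Gen3 π) (h : SplitQ (n + 1) D) :
    SplitQ n E := by
  obtain ⟨hn, a, e, f, he, hf, hef, h1, h2⟩ := h
  refine ⟨(hn.map (π 0)).mono ?_, ?_⟩
  · rintro _ ⟨x, hx, rfl⟩
    show π 0 x * π 0 x = 0
    rw [← map_mul, show x * x = 0 from hx, map_zero]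
  have hx : (a (Fin.last n)).φ (Matrix.single 0 1 1) * (a (Fin.last n)).φ (Matrix.single 0 1 1)
      = 0 := by
    rw [OZ.mul', Matrix.single_mul_single_of_ne _ _ _ _ (by decide), map_zero, mul_zero]
  have key : ∀ {g : D}, Full ((Set.range fun i => (a i).φ 1) ∪ {g}) →
      Full ((Set.range fun i : Fin n => (a i.castSucc).φ 1) ∪
        {(a (Fin.last n)).φ (Matrix.single 0 1 1), g}) := fun {g} h => h.of_imp fun Q _ q hq => by
    rintro _ (⟨i, rfl⟩ | rfl)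
    · induction i using Fin.lastCases with
      | last => exact ((a _).map q).unit_eq_zero 0 1 (hq _ (Or.inr (Or.inl rfl)))
      | cast i => exact hq _ (Or.inl ⟨i, rfl⟩)
    · exact hq _ (Or.inr (Or.inr rfl))
  obtain ⟨e', f', he', hf', hef', h3, h4⟩ := merge hπ _ hx he hf hef (key h1) (key h2)
  choose χ hχ using fun i : Fin n => split_join3 hπ (a i.castSucc)
  have key2 : ∀ {g : E},
      Full ((⋃ p, π p '' Set.range fun i : Fin n => (a i.castSucc).φ 1) ∪ {g}) →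
      Full ((Set.range fun i => (χ i).φ 1) ∪ {g}) := fun {g} h => h.of_imp fun Q _ q hq => by
    rintro s (hs | rfl)
    · obtain ⟨p, _, ⟨i, rfl⟩, rfl⟩ := Set.mem_iUnion.1 hs
      exact hχ i Q q (hq _ (Or.inl ⟨i, rfl⟩)) p
    · exact hq _ (Or.inr rfl)
  exact ⟨χ, e', f', he', hf', hef', key2 h3, key2 h4⟩

theorem split_scale {e : E} (he : 0 ≤ e) (h : Full {e}) :
    ∃ c : ℝ, 0 ≤ c • e ∧ c • e ≤ 1 ∧ Full {c • e} := by
  have hc : 0 < (‖e‖ + 1)⁻¹ := by positivity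
  have h0 : 0 ≤ (‖e‖ + 1)⁻¹ • e := smul_nonneg hc.le he
  refine ⟨_, h0, (CStarAlgebra.norm_le_one_iff_of_nonneg _ h0).1 ?_, h.of_imp fun Q _ q hq => ?_⟩
  · rw [norm_smul, Real.norm_of_nonneg hc.le, inv_mul_le_iff₀ (by positivity)]
    linarith
  · rintro _ rfl
    have := hq _ rfl
    rw [← Complex.coe_smul, map_smul, smul_eq_zero] at this
    exact this.resolve_left (Complex.ofReal_ne_zero.2 hc.ne')

theorem exists_split {P : ∀ (E : Type u) [CStarAlgebra E], Prop} (hP : Closed3 P) (hD : P D)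
    (hn : Full {x : D | x * x = 0}) :
    ∃ (E : Type u) (_ : CStarAlgebra E), P E ∧ Full {x : E | x * x = 0} ∧
      ∃ e f : E, 0 ≤ e ∧ e ≤ 1 ∧ 0 ≤ f ∧ f ≤ 1 ∧ e * f = 0 ∧ Full {e} ∧ Full {f} := by
  have key : ∀ (n : ℕ) (D : Type u) [CStarAlgebra D], P D → SplitQ n D →
      ∃ (E : Type u) (_ : CStarAlgebra E), P E ∧ SplitQ 0 E := by
    intro n
    induction n with
    | zero => exact fun D _ h1 h2 => ⟨D, _, h1, h2⟩
    | succ n ih =>
      intro D _ h1 h2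
      obtain ⟨E, _, hE, π, hπ⟩ := hP D h1
      exact ih E hE (split_step hπ h2)
  obtain ⟨n, a, ha⟩ := split_family hn
  obtain ⟨E, _, hE, h1, a', e, f, he, hf, hef, h2, h3⟩ := key (n + 1) D hD
    ⟨hn, a, 0, 0, le_rfl, le_rfl, mul_zero 0, ha.mono Set.subset_union_left,
      ha.mono Set.subset_union_left⟩
  rw [Set.range_eq_empty, Set.empty_union] at h2 h3
  obtain ⟨c, c1, c2, c3⟩ := split_scale he h2
  obtain ⟨d, d1, d2, d3⟩ := split_scale hf h3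
  exact ⟨E, _, hE, h1, c • e, d • f, c1, c2, d1, d2, by rw [smul_mul_smul_comm, hef, smul_zero],
    c3, d3⟩

/-- an orthogonal full pair and `n + 1` jointly full order zero maps -/
def SplitR (n : ℕ) (E : Type u) [CStarAlgebra E] : Prop :=
  (∃ e f : E, 0 ≤ e ∧ e ≤ 1 ∧ 0 ≤ f ∧ f ≤ 1 ∧ e * f = 0 ∧ Full {e} ∧ Full {f}) ∧
    ∃ a : Fin (n + 1) → OZ (Fin 2) E, Full (Set.range fun i => (a i).φ 1)

theorem split_pos (π : D →⋆ₐ[ℂ] E) {e : D} (h0 : 0 ≤ e) (h1 : e ≤ 1) : 0 ≤ π e ∧ π e ≤ 1 := by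
  have h2 := OrderHomClass.mono π h0
  have h3 := OrderHomClass.mono π h1
  rw [map_zero] at h2
  rw [map_one π] at h3
  exact ⟨h2, h3⟩

theorem splitR_step {n : ℕ} (π π' : D →⋆ₐ[ℂ] E) (hc : Com π π') (h : SplitR (n + 1) D) :
    SplitR n E := by
  obtain ⟨⟨e, f, he, he1, hf, hf1, hef, h1, h2⟩, a, ha⟩ := h
  obtain ⟨e0, e1⟩ := split_pos π' he he1
  obtain ⟨f0, f1⟩ := split_pos π' hf hf1
  have ef : π' e * π' f = 0 := by rw [← map_mul, hef, map_zero]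
  have fe : π' f * π' e = 0 := by
    simpa [e0.isSelfAdjoint.star_eq, f0.isSelfAdjoint.star_eq] using congrArg star ef
  refine ⟨⟨π' e, π' f, e0, e1, f0, f1, ef, h1.map_one_elt _, h2.map_one_elt _⟩, ?_⟩
  obtain ⟨γ, hγ⟩ := OZ.exists_sum2 ((a 0).map π) ((a 1).map π) e0 e1 f0 f1 ef
    (fun _ => (hc _ _).symm) (fun _ => (hc _ _).symm) (fun _ => (hc _ _).symm)
    (fun _ => (hc _ _).symm)
  have key : ∀ (Q : Type u) [CStarAlgebra Q] (q : E →⋆ₐ[ℂ] Q) (g z : D), 0 ≤ π' g → Full {g} →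
      q (π z * π' g * π' g) = 0 → q (π z) = 0 := fun Q _ q g z g0 hg h0 => by
    have c : ∀ x, Commute (q (π z)) (q (π' x)) := fun x => (hc z x).map q
    refine hg.cancel (q.comp π') c ?_
    rw [map_mul, map_mul, mul_assoc, ((c g).mul_right (c g)).eq] at h0
    exact (c g).eq.trans (oz_kill (g0.isSelfAdjoint.map q) h0)
  refine ⟨Fin.cons γ fun i => (a i.succ.succ).map π, (ha.map π).of_imp fun Q _ q hq => ?_⟩
  have h3 : q (γ.φ 1) = 0 := hq _ ⟨0, rfl⟩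
  rintro _ ⟨_, ⟨i, rfl⟩, rfl⟩
  induction i using Fin.cases with
  | zero =>
    refine key Q q e _ e0 h1 ?_
    have : γ.φ 1 * π' e = π ((a 0).φ 1) * π' e * π' e := by
      rw [hγ, add_mul, mul_assoc _ (π' f), fe, mul_zero, add_zero, OZ.map_φ]
    rw [← this, map_mul, h3, zero_mul]
  | succ i =>
    induction i using Fin.cases with
    | zero =>
      refine key Q q f _ f0 h2 ?_
      have : γ.φ 1 * π' f = π ((a 1).φ 1) * π' f * π' f := by
        rw [hγ, add_mul, mul_assoc _ (π' e), ef, mul_zero, zero_add, OZ.map_φ]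
      exact (congrArg q this).symm.trans (by rw [map_mul, h3, zero_mul])
    | succ i => exact hq _ ⟨i.succ, rfl⟩

theorem exists_fullOZ {P : ∀ (E : Type u) [CStarAlgebra E], Prop} (hP : Closed3 P) (hD : P D)
    (hn : Full {x : D | x * x = 0}) (k : ℕ) (hk : 0 < k) :
    ∃ (E : Type u) (_ : CStarAlgebra E), P E ∧ ∃ α : OZ (Fin k) E, Full {α.φ 1} := by
  have key : ∀ (n : ℕ) (D : Type u) [CStarAlgebra D], P D → SplitR n D →
      ∃ (E : Type u) (_ : CStarAlgebra E), P E ∧ SplitR 0 E := by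
    intro n
    induction n with
    | zero => exact fun D _ h1 h2 => ⟨D, _, h1, h2⟩
    | succ n ih =>
      intro D _ h1 h2
      obtain ⟨E, _, hE, π, hπ⟩ := hP D h1
      exact ih E hE (splitR_step (π 0) (π 1) (hπ.1 0 1 (by decide)) h2)
  obtain ⟨E, _, hE, h1, h2⟩ := exists_split hP hD hn
  obtain ⟨n, a, ha⟩ := split_family h1
  obtain ⟨E', _, hE', -, a', ha'⟩ := key n E hE ⟨h2, a, ha⟩
  replace ha' : Full {(a' 0).φ 1} := ha'.mono (by
    rintro _ ⟨i, rfl⟩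
    rw [Fin.fin_one_eq_zero i]
    rfl)
  have key2 : ∀ m : ℕ, ∃ (E : Type u) (_ : CStarAlgebra E), P E ∧
      (∃ α : OZ (Fin (m + 1)) E, Full {α.φ 1}) ∧ ∃ β : OZ (Fin 2) E, Full {β.φ 1} := by
    intro m
    induction m with
    | zero => exact ⟨E', _, hE', split_corner _ ha' (Fin.castLEEmb one_le_two) 0, _, ha'⟩
    | succ m ih =>
      obtain ⟨A, _, hA, ⟨α, hα⟩, β, hβ⟩ := ih
      obtain ⟨B, _, hB, π, hπ⟩ := hP A hA
      have hc := hπ.1 0 1 (by decide)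
      obtain ⟨Γ, hΓ, -⟩ := (α.map (π 0)).exists_tensor (β.map (π 1)) fun _ _ => hc _ _
      have h3 : Full {Γ.φ 1} := (hα.map_one_elt (π 0)).of_imp fun Q _ q hq => by
        rintro _ rfl
        refine hβ.cancel (q.comp (π 1)) (fun x => (hc _ x).map q) ?_
        have := hq _ rfl
        rwa [← Matrix.one_kronecker_one, hΓ, map_mul] at this
      obtain ⟨f⟩ : Nonempty (Fin (m + 1 + 1) ↪ Fin (m + 1) × Fin 2) :=
        Function.Embedding.nonempty_of_card_le (by simp)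
      exact ⟨B, _, hB, split_corner Γ h3 f 0, β.map (π 0), hβ.map_one_elt _⟩
  obtain ⟨m, rfl⟩ := Nat.exists_eq_succ_of_ne_zero hk.ne'
  obtain ⟨A, _, hA, h, -⟩ := key2 m
  exact ⟨A, _, hA, h⟩

end Vale.Agent.P101.F
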