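import Mathlib

/-!
Definitions used in the statement of the Kirchberg-Rordam character theorem.
-/

namespace Vale.Agent.P101.S

open Filter Topology
open scoped Kronecker

/-- `x` is a bounded sequence in `A` that asymptotically commutes (along `ω`) with every element
of `A`: a representative of an element of `F_ω(A) = A_ω ∩ A'`. -/
def IsCentral {A : Type*} [CStarAlgebra A] (ω : Ultrafilter ℕ) (x : ℕ → A) : Prop :=
  (∃ C : ℝ, ∀ n, ‖x n‖ ≤ C) ∧ ∀ a : A, Tendsto (fun n => ‖x n * a - a * x n‖) (ω : Filter ℕ) (𝓝 0)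

/-- `φ` is a `*`-homomorphism (not necessarily unital) on the `*`-subalgebra `S`. -/
def IsStarHomOn {X Y : Type*} [Add X] [Mul X] [SMul ℂ X] [Star X] [Add Y] [Mul Y] [SMul ℂ Y]
    [Star Y] (S : Set X) (φ : X → Y) : Prop :=
  ∀ x ∈ S, (∀ y ∈ S, φ (x + y) = φ x + φ y ∧ φ (x * y) = φ x * φ y) ∧
    (∀ c : ℂ, φ (c • x) = c • φ x) ∧ φ (star x) = star (φ x)

/-- `F_ω(A)`, the quotient of the central sequences by the `ω`-null sequences, has no character:
every `*`-homomorphism from the central sequences to `ℂ` that kills the null sequences is zero. -/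
def NoCharacter (A : Type*) [CStarAlgebra A] (ω : Ultrafilter ℕ) : Prop :=
  ∀ χ : (ℕ → A) → ℂ, IsStarHomOn {x | IsCentral ω x} χ →
    (∀ x, IsCentral ω x → Tendsto (fun n => ‖x n‖) (ω : Filter ℕ) (𝓝 0) → χ x = 0) →
    ∀ x, IsCentral ω x → χ x = 0

/-- The dimension drop algebra
`Z_{p,q} = {f ∈ C([0,1], M_p ⊗ M_q) : f 0 ∈ M_p ⊗ 1, f 1 ∈ 1 ⊗ M_q}`. -/
def dimDrop (p q : ℕ) : Set (unitInterval → Matrix (Fin p × Fin q) (Fin p × Fin q) ℂ) :=
  {f | Continuous f ∧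
    (∃ a : Matrix (Fin p) (Fin p) ℂ, f 0 = a ⊗ₖ (1 : Matrix (Fin q) (Fin q) ℂ)) ∧
    ∃ b : Matrix (Fin q) (Fin q) ℂ, f 1 = (1 : Matrix (Fin p) (Fin p) ℂ) ⊗ₖ b}

/-- `φ f = u* diag (f ∘ ξ 1, …, f ∘ ξ k) u` for a continuous path of unitaries `u` and continuous
paths `ξ i` in `[0,1]` of oscillation at most `δ`. -/
def IsDiagonalForm {J J' : Type} [Fintype J'] [DecidableEq J']
    (φ : (unitInterval → Matrix J J ℂ) → unitInterval → Matrix J' J' ℂ) (δ : ℝ) : Prop :=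
  ∃ (k : ℕ) (e : J × Fin k ≃ J') (u : unitInterval → Matrix J' J' ℂ)
    (ξ : Fin k → unitInterval → unitInterval),
    Continuous u ∧ (∀ x, star (u x) * u x = 1 ∧ u x * star (u x) = 1) ∧
    (∀ i, Continuous (ξ i)) ∧ (∀ i x y, |(ξ i x : ℝ) - (ξ i y : ℝ)| ≤ δ) ∧
    ∀ f x, φ f x = star (u x) * Matrix.reindex e e (Matrix.blockDiagonal fun i => f (ξ i x)) * u x

/-- `Z` is the Jiang-Su algebra (Jiang-Su 1999, Proposition 2.5 and Theorem 2.9): the inductive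
limit of a sequence of prime dimension drop algebras `Z_{p n, q n}` whose connecting maps
`φ_{m,n}` are injective, unital and of the form `u* diag (f ∘ ξ i) u` with paths `ξ i` of
oscillation at most `2 ^ (m - n)`. -/
def IsJiangSu (Z : Type*) [CStarAlgebra Z] : Prop :=
  ∃ (p q : ℕ → ℕ)
    (ι : ∀ n, (unitInterval → Matrix (Fin (p n) × Fin (q n)) (Fin (p n) × Fin (q n)) ℂ) → Z),
    (∀ n, 2 ≤ p n ∧ 2 ≤ q n ∧ Nat.Coprime (p n) (q n)) ∧
    (∀ n, IsStarHomOn (dimDrop (p n) (q n)) (ι n) ∧ ι n 1 = 1 ∧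
      Set.InjOn (ι n) (dimDrop (p n) (q n))) ∧
    Dense (⋃ n, ι n '' dimDrop (p n) (q n)) ∧
    ∀ m n, m < n → ∃ φ, IsDiagonalForm φ ((1 / 2 : ℝ) ^ (n - m)) ∧
      ∀ f ∈ dimDrop (p m) (q m), φ f ∈ dimDrop (p n) (q n) ∧ ι n (φ f) = ι m f

/-- `A` is `*`-isomorphic to the C*-subalgebra of `B` generated by `S`. -/
def IsoToGenerated (A : Type*) {B : Type*} [CStarAlgebra A] [CStarAlgebra B] (S : Set B) : Prop :=
  ∃ φ : A →⋆ₐ[ℂ] B, Function.Injective φ ∧
    Set.range φ = closure (StarAlgebra.adjoin ℂ S : Set B)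

end Vale.Agent.P101.S
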