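import Vale.Agent.P101.ZLimit
import Vale.Agent.P101.ZHalf

/-!
Existence of the Jiang-Su algebra.
-/

namespace Vale.Agent.P101

open Filter Topology
open scoped Matrix.Norms.L2Operator

/-- block diagonal matrices, general index type -/
noncomputable def blk {J J' K : Type*} [Fintype J] [DecidableEq J] [Fintype J'] [DecidableEq J']
    [Fintype K] [DecidableEq K] (e : J × K ≃ J') : (K → Matrix J J ℂ) →⋆ₐ[ℂ] Matrix J' J' ℂ where
  toFun x := Matrix.reindex e e (Matrix.blockDiagonal x)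
  map_one' := by rw [Matrix.blockDiagonal_one]; simp
  map_mul' x y := by
    rw [show x * y = fun i => x i * y i from rfl, Matrix.blockDiagonal_mul]
    simp
  map_zero' := by rw [Matrix.blockDiagonal_zero]; simp
  map_add' x y := by rw [Matrix.blockDiagonal_add]; rfl
  commutes' c := by
    rw [Algebra.algebraMap_eq_smul_one, Algebra.algebraMap_eq_smul_one, Matrix.blockDiagonal_smul,
      Matrix.blockDiagonal_one]
    simp [Matrix.submatrix_smul]
  map_star' x := by
    rw [Matrix.star_eq_conjTranspose, Matrix.conjTranspose_reindex,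
      Matrix.blockDiagonal_conjTranspose]
    rfl

section blk

variable {J J' J'' K L : Type*} [Fintype J] [DecidableEq J] [Fintype J'] [DecidableEq J']
  [Fintype J''] [DecidableEq J''] [Fintype K] [DecidableEq K] [Fintype L] [DecidableEq L]

lemma blk_apply (e : J × K ≃ J') (x : K → Matrix J J ℂ) (a b : J × K) :
    blk e x (e a) (e b) = if a.2 = b.2 then x a.2 a.1 b.1 else 0 := by
  change Matrix.reindex e e (Matrix.blockDiagonal x) (e a) (e b) = _
  simp [Matrix.blockDiagonal_apply]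

omit [Fintype J'] [DecidableEq J'] in
lemma matrix_ext_equiv {α : Type*} (e : α ≃ J') {X Y : Matrix J' J' ℂ}
    (h : ∀ a b, X (e a) (e b) = Y (e a) (e b)) : X = Y := by
  ext a b
  simpa using h (e.symm a) (e.symm b)

lemma blk_blk (e : J × K ≃ J') (e' : J' × L ≃ J'') (x : L → K → Matrix J J ℂ) :
    blk e' (fun l => blk e (x l)) =
      blk (((Equiv.prodAssoc J K L).symm.trans (e.prodCongr (Equiv.refl L))).trans e')
        (fun w => x w.2 w.1) := by
  refine matrix_ext_equiv (((Equiv.prodAssoc J K L).symm.trans (e.prodCongr (Equiv.refl L))).trans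
    e') ?_
  rintro ⟨a, k, l⟩ ⟨b, k', l'⟩
  rw [blk_apply]
  change blk e' _ (e' (e (a, k), l)) (e' (e (b, k'), l')) = _
  rw [blk_apply]
  dsimp only
  rw [blk_apply]
  by_cases h : l = l' <;> by_cases h' : k = k' <;> simp [h, h']

lemma blk_equiv (e : J × K ≃ J') (κ : L ≃ K) (x : K → Matrix J J ℂ) :
    blk e x = blk (((Equiv.refl J).prodCongr κ).trans e) (fun l => x (κ l)) := by
  refine matrix_ext_equiv (((Equiv.refl J).prodCongr κ).trans e) ?_
  rintro ⟨a, k⟩ ⟨b, k'⟩
  rw [blk_apply]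
  change blk e _ (e (a, κ k)) (e (b, κ k')) = _
  rw [blk_apply]
  simp

lemma blk_injective (e : J × K ≃ J') : Function.Injective (blk e) := by
  intro x y h
  ext k a b
  have := congrFun (congrFun h (e (a, k))) (e (b, k))
  simpa [blk_apply] using this

end blk

/-- diagonal form with Lipschitz paths -/
def IsLipForm {p q p' q' : ℕ} (φ : dimDrop p q →⋆ₐ[ℂ] dimDrop p' q') (c : ℝ) : Prop :=
  ∃ (K : Type) (_ : Fintype K) (_ : DecidableEq K) (e : (Fin p × Fin q) × K ≃ Fin p' × Fin q')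
    (u : C(unitInterval, Matrix (Fin p' × Fin q') (Fin p' × Fin q') ℂ))
    (ξ : K → C(unitInterval, unitInterval)),
    (∀ x, u x ∈ unitary (Matrix (Fin p' × Fin q') (Fin p' × Fin q') ℂ)) ∧
    (∀ i x y, |(ξ i x : ℝ) - (ξ i y : ℝ)| ≤ c * |(x : ℝ) - y|) ∧
    ∀ (f : dimDrop p q) (x : unitInterval),
      (φ f).1 x = star (u x) * blk e (fun i => f.1 (ξ i x)) * u x

lemma IsLipForm.isDiagonalForm {p q p' q' : ℕ} {φ : dimDrop p q →⋆ₐ[ℂ] dimDrop p' q'} {c : ℝ}
    (hc : 0 ≤ c) (h : IsLipForm φ c) : IsDiagonalForm φ c := by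
  obtain ⟨K, _, _, e, u, ξ, hu, hξ, hφ⟩ := h
  refine ⟨Fintype.card K, ((Equiv.refl _).prodCongr (Fintype.equivFin K).symm).trans e, u,
    fun i => ξ ((Fintype.equivFin K).symm i), hu, fun i x y => (hξ _ x y).trans ?_,
    fun f x => ?_⟩
  · refine mul_le_of_le_one_right hc (abs_le.2 ⟨?_, ?_⟩) <;> linarith [x.2.1, x.2.2, y.2.1, y.2.2]
  · rw [hφ, blk_equiv e (Fintype.equivFin K).symm]
    rfl

lemma IsLipForm.comp {p q p' q' p'' q'' : ℕ} {φ : dimDrop p q →⋆ₐ[ℂ] dimDrop p' q'}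
    {ψ : dimDrop p' q' →⋆ₐ[ℂ] dimDrop p'' q''} {c d : ℝ} (hc : 0 ≤ c) (h : IsLipForm φ c)
    (h' : IsLipForm ψ d) : IsLipForm (ψ.comp φ) (c * d) := by
  obtain ⟨K, _, _, e, u, ξ, hu, hξ, hφ⟩ := h
  obtain ⟨L, _, _, e', v, η, hv, hη, hψ⟩ := h'
  have hb := continuous_starAlgHom (blk e')
  refine ⟨K × L, inferInstance, inferInstance,
    ((Equiv.prodAssoc _ K L).symm.trans (e.prodCongr (Equiv.refl L))).trans e',
    ⟨fun x => blk e' (fun l => u (η l x)) * v x, by fun_prop⟩,
    fun w => (ξ w.1).comp (η w.2), fun x => ?_, fun w x y => ?_, fun f x => ?_⟩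
  · refine mul_mem (map_mem_unitary _ ⟨?_, ?_⟩) (hv x)
    · exact funext fun l => (hu _).1
    · exact funext fun l => (hu _).2
  · rw [mul_assoc]
    exact (hξ _ _ _).trans (mul_le_mul_of_nonneg_left (hη _ _ _) hc)
  · rw [StarAlgHom.comp_apply, hψ]
    have e1 : (fun l => (φ f).1 (η l x)) = star (fun l => u (η l x)) *
        (fun l => blk e fun i => f.1 (ξ i (η l x))) * fun l => u (η l x) :=
      funext fun l => hφ f _
    rw [e1, map_mul, map_mul, map_star, blk_blk]
    simp only [ContinuousMap.coe_mk, star_mul, mul_assoc, ContinuousMap.comp_apply]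

lemma exists_path_permM {J : Type*} [Fintype J] [DecidableEq J] (T : Equiv.Perm J) :
    ∃ u : C(unitInterval, Matrix J J ℂ), (∀ x, u x ∈ unitary (Matrix J J ℂ)) ∧ u 0 = 1 ∧
      u 1 = permM T := by
  induction T using Equiv.Perm.swap_induction_on with
  | one =>
    refine ⟨1, fun _ => one_mem _, rfl, ?_⟩
    ext a b
    simp [permM_apply, Matrix.one_apply, eq_comm]
  | swap_mul T a b _ ih =>
    obtain ⟨u, h1, h2, h3⟩ := ih
    have hc := continuous_flipPath (permM (Equiv.swap a b))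
    refine ⟨⟨fun x => u x * flipPath (permM (Equiv.swap a b)) x, by fun_prop⟩, fun x => ?_, ?_, ?_⟩
    · exact mul_mem (h1 x) (flipPath_mem_unitary (star_permM rfl) (permM_sq rfl) _)
    · simp [h2]
    · simp only [ContinuousMap.coe_mk, h3, Set.Icc.coe_one, flipPath_one, permM_mul]
      ext x y
      rw [Matrix.submatrix_apply, permM_apply, permM_apply]
      rfl

lemma star_permM' {J : Type*} [DecidableEq J] (T : J ≃ J) : star (permM T) = permM T.symm := by
  ext x y
  rw [Matrix.star_apply, permM_apply, permM_apply]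
  have : x = T y ↔ y = T.symm x := by rw [Equiv.eq_symm_apply, eq_comm]
  by_cases h : y = T.symm x
  · rw [if_pos h, if_pos (this.2 h), star_one]
  · rw [if_neg h, if_neg (mt this.1 h), star_zero]

/-- the index bijection at an end point -/
def endEquiv {J J₀ R S R' B : Type*} (eJ : J ≃ J₀ × R) (h₁ : R × S ≃ R') :
    J × (S ⊕ R' × B) ≃ (J₀ ⊕ J × B) × R' where
  toFun w := match w with
    | (j, Sum.inl s) => (Sum.inl (eJ j).1, h₁ ((eJ j).2, s))
    | (j, Sum.inr (r, b)) => (Sum.inr (j, b), r)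
  invFun w := match w with
    | (Sum.inl j, r) => (eJ.symm (j, (h₁.symm r).1), Sum.inl (h₁.symm r).2)
    | (Sum.inr (j, b), r) => (j, Sum.inr (r, b))
  left_inv := by
    rintro ⟨j, s | ⟨r, b⟩⟩ <;> simp
  right_inv := by
    rintro ⟨j | ⟨j, b⟩, r⟩ <;> simp

lemma end_cond {J J₀ R S R' B J' J₀' K : Type*} [Fintype J] [DecidableEq J] [Fintype J']
    [DecidableEq J'] [Fintype K] [DecidableEq K] [DecidableEq R] [DecidableEq R'] [DecidableEq B]
    (eJ : J ≃ J₀ × R) (eJ' : J' ≃ J₀' × R') (κ : S ⊕ R' × B ≃ K) (h₀ : J₀ ⊕ J × B ≃ J₀')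
    (h₁ : R × S ≃ R') :
    ∃ e : J × K ≃ J', ∀ (a : Matrix J₀ J₀ ℂ) (y : Matrix J J ℂ) (x : K → Matrix J J ℂ),
      (∀ s, x (κ (Sum.inl s)) = kap eJ a) → (∀ w, x (κ (Sum.inr w)) = y) →
      ∃ c, blk e x = kap eJ' c := by
  let e : J × K ≃ J' := ((Equiv.refl J).prodCongr κ.symm).trans ((endEquiv eJ h₁).trans
    ((h₀.prodCongr (Equiv.refl R')).trans eJ'.symm))
  refine ⟨e, fun a y x h1 h2 => ⟨Matrix.reindex h₀ h₀
    (Matrix.fromBlocks a 0 0 (Matrix.blockDiagonal fun _ : B => y)), ?_⟩⟩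
  refine matrix_ext_equiv (((Equiv.refl J).prodCongr κ).trans e) ?_
  rintro ⟨j, w⟩ ⟨j', w'⟩
  change blk e x (e (j, κ w)) (e (j', κ w')) = kap eJ' _ (e (j, κ w)) (e (j', κ w'))
  rw [blk_apply, kap_apply]
  rcases w with s | ⟨r, b⟩ <;> rcases w' with s' | ⟨r', b'⟩
  · by_cases hs : s = s' <;> by_cases hj : (eJ j).2 = (eJ j').2 <;>
      simp [e, endEquiv, h1, kap_apply, hs, hj]
  · simp [e, endEquiv]
  · simp [e, endEquiv]
  · by_cases hr : r = r' <;> by_cases hb : b = b' <;>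
      simp [e, endEquiv, h2, Matrix.blockDiagonal_apply, hr, hb]

/-- `x ↦ (x + c) / 2` -/
noncomputable def halfMap (c : unitInterval) : C(unitInterval, unitInterval) :=
  ⟨fun x => ⟨((x : ℝ) + c) / 2, by
    constructor <;> linarith [x.2.1, x.2.2, c.2.1, c.2.2]⟩, by fun_prop⟩

theorem exists_step {p q : ℕ} (hp : 2 ≤ p) (hq : 2 ≤ q) (hpq : Nat.Coprime p q) :
    ∃ p' q' : ℕ, (2 ≤ p' ∧ 2 ≤ q' ∧ Nat.Coprime p' q') ∧
      ∃ φ : dimDrop p q →⋆ₐ[ℂ] dimDrop p' q', Function.Injective φ ∧ IsLipForm φ (1 / 2) := by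
  obtain ⟨r, hr⟩ : ∃ r, q * (p * (q + 1)) = r + 1 := Nat.exists_eq_succ_of_ne_zero (by positivity)
  set k₀ := q + 1 with hk₀
  set k₁ := p * k₀ + 1 with hk₁
  refine ⟨p * k₀, q * k₁, ⟨by nlinarith, by nlinarith, ?_⟩, ?_⟩
  · refine Nat.Coprime.mul_right (Nat.Coprime.mul_left hpq ?_) ?_
    · rw [hk₀]; simp
    · rw [hk₁]; simp
  let K := Fin k₁ ⊕ Fin k₀ ⊕ Fin r
  let ξ : K → C(unitInterval, unitInterval) :=
    Sum.elim (fun _ => halfMap 0) (Sum.elim (fun _ => halfMap 1)
      fun _ => ContinuousMap.const _ (halfMap 0 1))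
  let b₀ : Fin (q * k₁) × Unit ≃ Fin k₀ ⊕ Fin r := Fintype.equivOfCardEq (by
    simp only [Fintype.card_prod, Fintype.card_fin, Fintype.card_unit, Fintype.card_sum]
    rw [hk₁, mul_add, hr, hk₀]; ring)
  let b₁ : Fin (p * k₀) × Fin k₀ ≃ Fin k₁ ⊕ Fin r := Fintype.equivOfCardEq (by
    simp only [Fintype.card_prod, Fintype.card_fin, Fintype.card_sum]
    rw [hk₁]
    calc p * k₀ * k₀ = q * (p * k₀) + p * k₀ := by rw [hk₀]; ring
      _ = _ := by rw [hr]; ring)
  let sw : Fin k₀ ⊕ Fin k₁ ⊕ Fin r ≃ K :=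
    ((Equiv.sumAssoc _ _ _).symm.trans ((Equiv.sumComm _ _).sumCongr (Equiv.refl _))).trans
      (Equiv.sumAssoc _ _ _)
  obtain ⟨e₀, he₀⟩ := end_cond (K := K) (Equiv.refl (Fin p × Fin q))
    (Equiv.refl (Fin (p * k₀) × Fin (q * k₁))) ((Equiv.refl (Fin k₁)).sumCongr b₀)
    (Fintype.equivOfCardEq (by simp [hk₀]; ring)) finProdFinEquiv
  obtain ⟨e₁, he₁⟩ := end_cond (K := K) (Equiv.prodComm (Fin p) (Fin q))
    (Equiv.prodComm (Fin (p * k₀)) (Fin (q * k₁))) (((Equiv.refl (Fin k₀)).sumCongr b₁).trans sw)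
    (Fintype.equivOfCardEq (by simp [hk₁]; ring)) finProdFinEquiv
  obtain ⟨u, hu, hu0, hu1⟩ := exists_path_permM (e₀.symm.trans e₁)
  have hb := continuous_starAlgHom (blk e₀)
  have hh : halfMap 1 0 = halfMap 0 1 := Subtype.ext (by simp [halfMap])
  have h00 : halfMap 0 0 = 0 := Subtype.ext (by simp [halfMap])
  have h11 : halfMap 1 1 = 1 := Subtype.ext (by simp [halfMap])
  let F : dimDrop p q → dimDrop (p * k₀) (q * k₁) := fun f =>
    ⟨⟨fun x => star (u x) * blk e₀ (fun i => f.1 (ξ i x)) * u x, by fun_prop⟩, by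
      obtain ⟨⟨c₀, h0⟩, c₁, h1⟩ := mem_dimDrop.1 f.2
      refine mem_dimDrop.2 ⟨?_, ?_⟩
      · simp only [ContinuousMap.coe_mk, hu0, star_one, one_mul, mul_one]
        refine he₀ c₀ (f.1 (halfMap 0 1)) _ (fun s => ?_) fun w => ?_
        · change f.1 (halfMap 0 0) = _
          rw [h00, h0]
        · change f.1 (ξ (Sum.inr (b₀ w)) 0) = _
          rcases b₀ w with s | s
          · exact congrArg f.1 hh
          · rfl
      · have e : ∀ y, star (u 1) * blk e₀ y * u 1 = blk e₁ y := by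
          intro y
          rw [hu1, star_permM', permM_mul, mul_permM]
          refine matrix_ext_equiv e₁ fun a b => ?_
          rw [blk_apply, ← blk_apply e₀]
          simp
        simp only [ContinuousMap.coe_mk, e]
        refine he₁ c₁ (f.1 (halfMap 0 1)) _ (fun s => ?_) fun w => ?_
        · change f.1 (halfMap 1 1) = _
          rw [h11, h1]
        · change f.1 (ξ (sw (Sum.inr (b₁ w))) 1) = _
          rcases b₁ w with s | s <;> rfl⟩
  have hF : ∀ f x, (F f).1 x = star (u x) * blk e₀ (fun i => f.1 (ξ i x)) * u x := fun _ _ => rfl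
  let φ : dimDrop p q →⋆ₐ[ℂ] dimDrop (p * k₀) (q * k₁) :=
    { toFun := F
      map_one' := Subtype.ext (ContinuousMap.ext fun x => by
        rw [hF]
        change star (u x) * blk e₀ 1 * u x = 1
        rw [map_one, mul_one, (hu x).1])
      map_mul' := fun f g => Subtype.ext (ContinuousMap.ext fun x => by
        change _ = (F f).1 x * (F g).1 x
        rw [hF, hF, hF]
        change star (u x) * blk e₀ ((fun i => f.1 (ξ i x)) * fun i => g.1 (ξ i x)) * u x = _
        rw [map_mul]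
        calc _ = star (u x) * blk e₀ (fun i => f.1 (ξ i x)) * (u x * star (u x)) *
              blk e₀ (fun i => g.1 (ξ i x)) * u x := by rw [(hu x).2]; noncomm_ring
          _ = _ := by noncomm_ring)
      map_zero' := Subtype.ext (ContinuousMap.ext fun x => by
        rw [hF]
        change star (u x) * blk e₀ 0 * u x = 0
        rw [map_zero, mul_zero, zero_mul])
      map_add' := fun f g => Subtype.ext (ContinuousMap.ext fun x => by
        change _ = (F f).1 x + (F g).1 x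
        rw [hF, hF, hF]
        change star (u x) * blk e₀ ((fun i => f.1 (ξ i x)) + fun i => g.1 (ξ i x)) * u x = _
        rw [map_add, mul_add (star (u x)), add_mul (star (u x) * _)])
      commutes' := fun c => Subtype.ext (ContinuousMap.ext fun x => by
        rw [hF]
        change star (u x) * blk e₀ (algebraMap ℂ _ c) * u x = algebraMap ℂ _ c
        rw [AlgHomClass.commutes, ← Algebra.commutes, mul_assoc, (hu x).1, mul_one])
      map_star' := fun f => Subtype.ext (ContinuousMap.ext fun x => by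
        change _ = star ((F f).1 x)
        rw [hF, hF]
        change star (u x) * blk e₀ (star fun i => f.1 (ξ i x)) * u x = _
        rw [map_star, star_mul, star_mul, star_star, mul_assoc]) }
  refine ⟨φ, (injective_iff_map_eq_zero _).2 fun f hf => ?_, K, inferInstance, inferInstance, e₀,
    u, ξ, hu, ?_, hF⟩
  · have h1 : ∀ x i, f.1 (ξ i x) = 0 := by
      intro x i
      have h2 : star (u x) * blk e₀ (fun i => f.1 (ξ i x)) * u x = 0 :=
        congrArg (fun g : dimDrop (p * k₀) (q * k₁) => g.1 x) hf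
      have h3 : blk e₀ (fun i => f.1 (ξ i x)) = blk e₀ 0 := by
        calc _ = (u x * star (u x)) * blk e₀ (fun i => f.1 (ξ i x)) * (u x * star (u x)) := by
              rw [(hu x).2, one_mul, mul_one]
          _ = u x * (star (u x) * blk e₀ (fun i => f.1 (ξ i x)) * u x) * star (u x) := by
              noncomm_ring
          _ = _ := by rw [h2, map_zero, mul_zero, zero_mul]
      exact congrFun (blk_injective e₀ h3) i
    refine Subtype.ext (ContinuousMap.ext fun y => ?_)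
    rcases le_total (2 * (y : ℝ)) 1 with hy | hy
    · have := h1 ⟨2 * y, by linarith [y.2.1], hy⟩ (Sum.inl 0)
      rwa [show ξ (Sum.inl 0) ⟨2 * y, by linarith [y.2.1], hy⟩ = y from
        Subtype.ext (by simp [ξ, halfMap])] at this
    · have := h1 ⟨2 * y - 1, by linarith, by linarith [y.2.2]⟩ (Sum.inr (Sum.inl 0))
      rwa [show ξ (Sum.inr (Sum.inl 0)) ⟨2 * y - 1, by linarith, by linarith [y.2.2]⟩ = y from
        Subtype.ext (by simp [ξ, halfMap])] at this
  · have hm : ∀ c x y, |(halfMap c x : ℝ) - halfMap c y| ≤ 1 / 2 * |(x : ℝ) - y| := by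
      intro c x y
      change |((x : ℝ) + c) / 2 - ((y : ℝ) + c) / 2| ≤ _
      rw [show ((x : ℝ) + c) / 2 - ((y : ℝ) + c) / 2 = 1 / 2 * (x - y) by ring, abs_mul]
      simp
    rintro (i | i | i) x y
    · exact hm 0 x y
    · exact hm 1 x y
    · simp [ξ]

theorem exists_isJiangSu : ∃ (Z : Type) (_ : CStarAlgebra Z), IsJiangSu Z := by
  let T := {w : ℕ × ℕ // 2 ≤ w.1 ∧ 2 ≤ w.2 ∧ Nat.Coprime w.1 w.2}
  have h : ∀ w : T, ∃ w' : T, ∃ φ : dimDrop w.1.1 w.1.2 →⋆ₐ[ℂ] dimDrop w'.1.1 w'.1.2,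
      Function.Injective φ ∧ IsLipForm φ (1 / 2) := by
    rintro ⟨⟨p, q⟩, hp, hq, hpq⟩
    obtain ⟨p', q', h', hφ⟩ := exists_step hp hq hpq
    exact ⟨⟨(p', q'), h'⟩, hφ⟩
  choose nx ψ hψ hψ' using h
  let w : ℕ → T := fun n => Nat.rec ⟨(2, 3), by norm_num⟩ (fun _ => nx) n
  have hn : ∀ n, Nontrivial (dimDrop (w n).1.1 (w n).1.2) := by
    intro n
    obtain ⟨h1, h2, -⟩ := (w n).2
    refine ⟨⟨0, 1, fun h => ?_⟩⟩
    have h3 := congrArg (fun f : dimDrop (w n).1.1 (w n).1.2 =>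
      f.1 0 (⟨0, by omega⟩, ⟨0, by omega⟩) (⟨0, by omega⟩, ⟨0, by omega⟩)) h
    simp at h3
  let φ : ∀ n, dimDrop (w n).1.1 (w n).1.2 →⋆ₐ[ℂ] dimDrop (w (n + 1)).1.1 (w (n + 1)).1.2 :=
    fun n => ψ (w n)
  obtain ⟨Z, _, ι, h1, h2, h3⟩ := exists_limit (D := fun n => dimDrop (w n).1.1 (w n).1.2) φ
    fun n => hψ (w n)
  refine ⟨Z, inferInstance, fun n => (w n).1.1, fun n => (w n).1.2, ι, fun n => (w n).2, h1, h2,
    fun m n hmn => ⟨chainMap (D := fun n => dimDrop (w n).1.1 (w n).1.2) φ hmn.le, h3 m n hmn.le,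
      IsLipForm.isDiagonalForm (by positivity) ?_⟩⟩
  induction n, hmn using Nat.le_induction with
  | base =>
    rw [chainMap_succ _ le_rfl, chainMap_self, show m.succ - m = 1 by omega, pow_one]
    exact hψ' (w m)
  | succ k hk ih =>
    rw [chainMap_succ _ (Nat.le_of_succ_le hk), show k + 1 - m = k - m + 1 by omega, pow_succ]
    exact IsLipForm.comp (by positivity) ih (hψ' (w k))

end Vale.Agent.P101
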