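import Vale.Agent.P083.State

/-!
The Gelfand-Naimark theorem: every unital C*-algebra has a faithful unital representation.
-/

namespace Vale.Agent.P101

universe u

theorem exists_faithful_rep (B : Type u) [CStarAlgebra B] :
    ∃ (H : Type u) (_ : NormedAddCommGroup H) (_ : InnerProductSpace ℂ H) (_ : CompleteSpace H)
      (π : B →⋆ₐ[ℂ] (H →L[ℂ] H)), Function.Injective π := by
  classical
  rcases subsingleton_or_nontrivial B with hB | hB
  · refine ⟨EuclideanSpace ℂ PEmpty.{u + 1}, inferInstance, inferInstance, inferInstance,
      { toFun := fun _ => 0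
        map_one' := Subsingleton.elim _ _
        map_mul' := fun _ _ => Subsingleton.elim _ _
        map_zero' := rfl
        map_add' := fun _ _ => Subsingleton.elim _ _
        commutes' := fun _ => Subsingleton.elim _ _
        map_star' := fun _ => Subsingleton.elim _ _ }, fun _ _ _ => Subsingleton.elim _ _⟩
  choose H i1 i2 i3 π h h1 h2 using fun q : B => Vale.Agent.P083.exists_rep q
  let T : B → lp H 2 →L[ℂ] lp H 2 := fun a =>
    lp.mapCLM 2 (fun q => π q a) (norm_nonneg a) fun q => NonUnitalStarAlgHom.norm_apply_le (π q) a
  have hT : ∀ a x q, T a x q = π q a (x q) := fun _ _ _ => rfl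
  have hext : ∀ S S' : lp H 2 →L[ℂ] lp H 2, (∀ x q, S x q = S' x q) → S = S' := fun S S' h =>
    ContinuousLinearMap.ext fun x => lp.ext (funext fun q => h x q)
  refine ⟨lp H 2, inferInstance, inferInstance, inferInstance,
    { toFun := T
      map_one' := hext _ _ fun x q => by rw [hT, map_one]; rfl
      map_mul' := fun a b => hext _ _ fun x q => by rw [hT, map_mul]; rfl
      map_zero' := hext _ _ fun x q => by rw [hT, map_zero]; rfl
      map_add' := fun a b => hext _ _ fun x q => by rw [hT, map_add]; rfl
      commutes' := fun c => hext _ _ fun x q => by rw [hT, AlgHomClass.commutes]; rfl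
      map_star' := fun a => ?_ }, ?_⟩
  · rw [ContinuousLinearMap.star_eq_adjoint, ContinuousLinearMap.eq_adjoint_iff]
    intro x y
    rw [lp.inner_eq_tsum, lp.inner_eq_tsum]
    refine tsum_congr fun q => ?_
    rw [hT, hT, map_star, ContinuousLinearMap.star_eq_adjoint,
      ContinuousLinearMap.adjoint_inner_left]
  · refine (injective_iff_map_eq_zero _).2 fun a ha => ?_
    have h3 : T a (lp.single 2 a (h a)) a = 0 := by
      rw [show T a = 0 from ha]; rfl
    rw [hT, lp.single_apply_self] at h3
    rw [← norm_eq_zero, ← h2 a, h3, norm_zero]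

end Vale.Agent.P101
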