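import Vale.Agent.P101.ZAbsorb
import Vale.Agent.P101.ZSpatial
import Vale.Agent.P101.ZRW

/-!
From the Rordam-Winter relations in the central sequence algebra to Jiang-Su stability.
-/

namespace Vale.Agent.P101

theorem stable_of_RW {A Z H K : Type*} [CStarAlgebra A] [TopologicalSpace.SeparableSpace A]
    (ω : Ultrafilter ℕ)
    (h : ∀ n : ℕ, ∃ (φ : Fin (n + 1) → Fin (n + 1) → centralSeq A ω) (v : centralSeq A ω),
      RW 0 φ v)
    [CStarAlgebra Z] (hZ : IsJiangSu Z)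
    [NormedAddCommGroup H] [InnerProductSpace ℂ H] [CompleteSpace H]
    [NormedAddCommGroup K] [InnerProductSpace ℂ K] [CompleteSpace K]
    (π : A →⋆ₐ[ℂ] (H →L[ℂ] H)) (σ : Z →⋆ₐ[ℂ] (K →L[ℂ] K))
    (hπ : Function.Injective π) (hσ : Function.Injective σ) :
    Nonempty (A ≃⋆ₐ[ℂ] spatialTensor π σ) := by
  have := hZ.nontrivial
  obtain ⟨θ, β, hθ, hc, hd⟩ := exists_embeddings π σ hπ hσ
  refine nonempty_equiv_of_dimDrop ω hZ (fun p q hp hq hpq => ?_) θ hθ β hc hd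
  obtain ⟨k, hk1, hk2⟩ := Nat.chineseRemainder hpq 0 (q - 1)
  have hk : p ∣ k := (Nat.modEq_zero_iff_dvd).1 hk1
  have hk' : q ∣ k + 1 := by
    have h1 : k + 1 ≡ q - 1 + 1 [MOD q] := hk2.add_right 1
    rw [Nat.sub_add_cancel (by omega)] at h1
    exact (Nat.modEq_zero_iff_dvd).1 (h1.trans (Nat.modEq_zero_iff_dvd.2 dvd_rfl))
  obtain _ | n := k
  · exact absurd (Nat.le_of_dvd one_pos hk') (by omega)
  · obtain ⟨φ, v, hφ⟩ := h n
    exact exists_hom_of_RW hφ hk hk'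

end Vale.Agent.P101
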