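import Vale.Agent.P101.SBridge
import Vale.Agent.P101.ZMain
import Vale.Agent.P101.FSide
import Vale.Agent.P101.ZExist
import Vale.Agent.P101.ZFaith

/-! The main theorem in terms of the unbundled definitions. -/

namespace Vale.Agent.P101

open scoped TensorProduct

theorem S_main {A Z H K : Type*} [CStarAlgebra A] [Nontrivial A]
    [TopologicalSpace.SeparableSpace A]
    (ω : Ultrafilter ℕ) (hω : (ω : Filter ℕ) ≤ Filter.cofinite) (h : S.NoCharacter A ω)
    [CStarAlgebra Z] (hZ : S.IsJiangSu Z)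
    [NormedAddCommGroup H] [InnerProductSpace ℂ H] [CompleteSpace H]
    [NormedAddCommGroup K] [InnerProductSpace ℂ K] [CompleteSpace K]
    (π : A →⋆ₐ[ℂ] (H →L[ℂ] H)) (σ : Z →⋆ₐ[ℂ] (K →L[ℂ] K))
    (hπ : Function.Injective π) (hσ : Function.Injective σ) :
    S.IsoToGenerated A
      {T : UniformSpace.Completion (H ⊗[ℂ] K) →L[ℂ] UniformSpace.Completion (H ⊗[ℂ] K) |
        ∃ a z, T = (TensorProduct.mapL (π a) (σ z)).completion} :=
  isoToGenerated_of π σ
    (stable_of_RW ω (exists_RW ω hω (noCharacter_of_S h)) (isJiangSu_of_S hZ) π σ hπ hσ)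

theorem S_exists : ∃ (Z : Type) (_ : CStarAlgebra Z), S.IsJiangSu Z := by
  obtain ⟨Z, i, h⟩ := exists_isJiangSu
  exact ⟨Z, i, S_isJiangSu_of h⟩

end Vale.Agent.P101
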