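import Vale.Agent.P101.Ultra
import Vale.Agent.P101.RWDefs

/-!
Shared definitions for the Jiang-Su side.
-/

namespace Vale.Agent.P101

open scoped Matrix.Norms.L2Operator

/-- the coordinate function on `[0,1]` -/
noncomputable def tt : C(unitInterval, ℂ) := ⟨fun t => ((t : ℝ) : ℂ), by fun_prop⟩

@[simp] lemma tt_apply (t : unitInterval) : tt t = ((t : ℝ) : ℂ) := rfl

/-- `F = (1 - t) F(0) + t F(1) + t (1 - t) g` -/
def IsRep {M : Type*} [CStarAlgebra M] (F g : C(unitInterval, M)) : Prop :=
  F = (1 - tt) • ContinuousMap.const unitInterval (F 0) +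
    tt • ContinuousMap.const unitInterval (F 1) + (tt * (1 - tt)) • g

/-- the amplification `c ↦ c ⊗ 1` along a bijection `J ≃ J₀ × R` -/
def kap {J J₀ R B : Type*} [DecidableEq R] [Zero B] (e : J ≃ J₀ × R) (c : Matrix J₀ J₀ B) :
    Matrix J J B :=
  Matrix.of fun x y => if (e x).2 = (e y).2 then c (e x).1 (e y).1 else 0

lemma kap_apply {J J₀ R B : Type*} [DecidableEq R] [Zero B] (e : J ≃ J₀ × R)
    (c : Matrix J₀ J₀ B) (x y : J) :
    kap e c x y = if (e x).2 = (e y).2 then c (e x).1 (e y).1 else 0 := rfl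

/-- the amplification as a `*`-homomorphism -/
noncomputable def kapHom {J J₀ R : Type*} (B : Type*) [Fintype J] [DecidableEq J] [Fintype J₀]
    [DecidableEq J₀] [Fintype R] [DecidableEq R] [Ring B] [StarRing B] [Algebra ℂ B]
    (e : J ≃ J₀ × R) : Matrix J₀ J₀ B →⋆ₐ[ℂ] Matrix J J B where
  toFun := kap e
  map_one' := by
    ext x y
    simp only [kap_apply, Matrix.one_apply]
    by_cases h : x = y
    · simp [h]
    · have : ¬ ((e x).2 = (e y).2 ∧ (e x).1 = (e y).1) := fun h' =>
        h (e.injective (Prod.ext h'.2 h'.1))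
      rw [if_neg h]
      split_ifs with h1 h2
      · exact absurd ⟨h1, h2⟩ this
      · rfl
      · rfl
  map_mul' c d := by
    ext x y
    simp only [kap_apply, Matrix.mul_apply]
    rw [← e.symm.sum_comp, Fintype.sum_prod_type]
    simp only [Equiv.apply_symm_apply, ite_mul, zero_mul, mul_ite, mul_zero]
    split_ifs with h
    · refine Finset.sum_congr rfl fun j _ => ?_
      simp [← h]
    · refine (Finset.sum_eq_zero fun j _ => Finset.sum_eq_zero fun r _ => ?_).symm
      split_ifs with h1 h2
      · exact absurd (h2.trans h1) h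
      · rfl
      · rfl
  map_zero' := by ext x y; simp [kap_apply]
  map_add' c d := by
    ext x y
    simp only [kap_apply, Matrix.add_apply]
    split_ifs <;> simp
  commutes' r := by
    ext x y
    simp only [kap_apply, Matrix.algebraMap_matrix_apply]
    by_cases h : x = y
    · simp [h]
    · have : ¬ ((e x).2 = (e y).2 ∧ (e x).1 = (e y).1) := fun h' =>
        h (e.injective (Prod.ext h'.2 h'.1))
      rw [if_neg h]
      split_ifs with h1 h2
      · exact absurd ⟨h1, h2⟩ this
      · rfl
      · rfl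
  map_star' c := by
    ext x y
    simp only [kap_apply, Matrix.star_apply]
    by_cases h : (e x).2 = (e y).2
    · simp [h]
    · simp [h, Ne.symm h]

@[simp] lemma kapHom_apply {J J₀ R : Type*} (B : Type*) [Fintype J] [DecidableEq J] [Fintype J₀]
    [DecidableEq J₀] [Fintype R] [DecidableEq R] [Ring B] [StarRing B] [Algebra ℂ B]
    (e : J ≃ J₀ × R) (c : Matrix J₀ J₀ B) : kapHom B e c = kap e c := rfl

lemma mem_dimDrop {p q : ℕ} {f : C(unitInterval, Matrix (Fin p × Fin q) (Fin p × Fin q) ℂ)} :
    f ∈ dimDrop p q ↔ (∃ c, f 0 = kap (Equiv.refl (Fin p × Fin q)) c) ∧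
      ∃ c, f 1 = kap (Equiv.prodComm (Fin p) (Fin q)) c := by
  change (∃ a, _) ∧ (∃ b, _) ↔ _
  refine and_congr (exists_congr fun a => ?_) (exists_congr fun b => ?_)
  · refine Eq.congr_right ?_
    ext x y
    by_cases h : x.2 = y.2 <;> simp [kap_apply, Matrix.kroneckerMap_apply, Matrix.one_apply, h]
  · refine Eq.congr_right ?_
    ext x y
    by_cases h : x.1 = y.1 <;> simp [kap_apply, Matrix.kroneckerMap_apply, Matrix.one_apply, h]

lemma isClosed_range_kap {J J₀ R B : Type*} [DecidableEq R] [Zero B] [TopologicalSpace B]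
    [T2Space B] [Nonempty R] (e : J ≃ J₀ × R) :
    IsClosed {x : Matrix J J B | ∃ c, x = kap e c} := by
  obtain ⟨r⟩ := ‹Nonempty R›
  have : {x : Matrix J J B | ∃ c, x = kap e c} =
      {x | x = kap e (Matrix.of fun j k => x (e.symm (j, r)) (e.symm (k, r)))} := by
    ext x
    constructor
    · rintro ⟨c, rfl⟩
      change kap e c = kap e _
      congr 1
      ext j k
      simp [kap_apply]
    · intro h
      exact ⟨_, h⟩
  rw [this]
  refine isClosed_eq continuous_id ?_
  refine continuous_matrix fun x y => ?_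
  simp only [kap_apply, Matrix.of_apply]
  split_ifs
  · exact Continuous.matrix_elem continuous_id _ _
  · exact continuous_const

instance isClosed_dimDrop (p q : ℕ) :
    IsClosed (dimDrop p q : Set C(unitInterval, Matrix (Fin p × Fin q) (Fin p × Fin q) ℂ)) := by
  rcases isEmpty_or_nonempty (Fin p × Fin q) with h | ⟨⟨i, j⟩⟩
  · exact isClosed_discrete _
  · have : Nonempty (Fin p) := ⟨i⟩
    have : Nonempty (Fin q) := ⟨j⟩
    have : (dimDrop p q : Set C(unitInterval, Matrix (Fin p × Fin q) (Fin p × Fin q) ℂ)) =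
        (fun f => f 0) ⁻¹' {x | ∃ c, x = kap (Equiv.refl (Fin p × Fin q)) c} ∩
        (fun f => f 1) ⁻¹' {x | ∃ c, x = kap (Equiv.prodComm (Fin p) (Fin q)) c} := by
      ext f
      exact mem_dimDrop
    rw [this]
    exact ((isClosed_range_kap _).preimage (continuous_eval_const _)).inter
      ((isClosed_range_kap _).preimage (continuous_eval_const _))

noncomputable instance cstarAlgebraDimDrop (p q : ℕ) : CStarAlgebra (dimDrop p q) :=
  StarSubalgebra.cstarAlgebra _

/-- the path of unitaries from `1` to a self-adjoint unitary `σ` -/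
noncomputable def flipPath {M : Type*} [Ring M] [Algebra ℂ M] (σ : M) (θ : ℝ) : M :=
  (1 / 2 : ℂ) • (1 + σ) + (Complex.exp (θ * Real.pi * Complex.I) / 2) • (1 - σ)

section flip

variable {M : Type*} [CStarAlgebra M] {σ : M}

@[simp] lemma flipPath_zero (σ : M) : flipPath σ 0 = 1 := by
  simp only [flipPath, Complex.ofReal_zero, zero_mul, Complex.exp_zero]
  module

@[simp] lemma flipPath_one (σ : M) : flipPath σ 1 = σ := by
  simp only [flipPath, Complex.ofReal_one, one_mul, Complex.exp_pi_mul_I]
  module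

lemma continuous_flipPath (σ : M) : Continuous (flipPath σ) := by
  unfold flipPath
  fun_prop

lemma Commute.flipPath_left {y : M} (h : Commute σ y) (θ : ℝ) : Commute (flipPath σ θ) y :=
  (((Commute.one_left y).add_left h).smul_left _).add_left
    (((Commute.one_left y).sub_left h).smul_left _)

lemma flipPath_mem_unitary (hs : star σ = σ) (h2 : σ * σ = 1) (θ : ℝ) :
    flipPath σ θ ∈ unitary M := by
  set w : ℂ := Complex.exp (θ * Real.pi * Complex.I) with hw
  have hw1 : star w * w = 1 := by
    rw [hw, Complex.star_def, ← Complex.exp_conj, ← Complex.exp_add]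
    simp
  have e1 : (1 + σ) * (1 + σ) = (2 : ℂ) • (1 + σ) := by
    rw [two_smul]; noncomm_ring; rw [h2]; abel
  have e2 : (1 - σ) * (1 - σ) = (2 : ℂ) • (1 - σ) := by
    rw [two_smul]; noncomm_ring; rw [h2]; abel
  have e3 : (1 + σ) * (1 - σ) = 0 := by
    noncomm_ring; rw [h2]; abel
  have e4 : (1 - σ) * (1 + σ) = 0 := by
    noncomm_ring; rw [h2]; abel
  have hst : star (flipPath σ θ) = (1 / 2 : ℂ) • (1 + σ) + (star w / 2) • (1 - σ) := by
    simp [flipPath, hs, hw]
  have key : ∀ a b : ℂ, a * b = 1 →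
      ((1 / 2 : ℂ) • (1 + σ) + (a / 2) • (1 - σ)) *
        ((1 / 2 : ℂ) • (1 + σ) + (b / 2) • (1 - σ)) = 1 := by
    intro a b hab
    rw [add_mul, mul_add, mul_add]
    simp only [smul_mul_assoc, mul_smul_comm, e1, e2, e3, e4, smul_zero,
      smul_smul, add_zero, zero_add]
    rw [show b / 2 * (a / 2 * 2) = 1 / 2 by linear_combination hab / 2]
    module
  refine ⟨?_, ?_⟩
  · rw [hst]; exact key _ _ hw1
  · rw [hst]; exact key _ _ (by rw [mul_comm]; exact hw1)

end flip

end Vale.Agent.P101
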