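import Vale.Agent.P101.ZGlue

/-!
The universal property of dimension drop algebras with coefficients.
-/

namespace Vale.Agent.P101

open Filter Topology

variable {M B C : Type*} [CStarAlgebra M] [CStarAlgebra B] [CStarAlgebra C]
  {J J₀ J₁ R₀ R₁ : Type*} [Fintype J] [DecidableEq J] [Fintype J₀] [DecidableEq J₀]
  [Fintype J₁] [DecidableEq J₁] [Fintype R₀] [DecidableEq R₀] [Fintype R₁] [DecidableEq R₁]

/-- `a`, `b`, `m` are the intended images of `(1 - t) e_{jk} ⊗ 1`, `t e_{jk} ⊗ 1` and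
`t (1 - t) e_{xy}`. -/
structure MData (Γ : C(unitInterval, B) →⋆ₐ[ℂ] C) (e₀ : J ≃ J₀ × R₀) (e₁ : J ≃ J₁ × R₁) (z : C)
    (a : J₀ → J₀ → C) (b : J₁ → J₁ → C) (m : J → J → C) : Prop where
  z_eq : Γ (tt • 1) = z
  a_star : ∀ j k, star (a j k) = a k j
  a_mul : ∀ j k l n, a j k * a l n = if k = l then (1 - z) * a j n else 0
  a_sum : ∑ j, a j j = 1 - z
  a_comm : ∀ x j k, Commute (Γ (ContinuousMap.const unitInterval x)) (a j k)
  b_star : ∀ j k, star (b j k) = b k j
  b_mul : ∀ j k l n, b j k * b l n = if k = l then z * b j n else 0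
  b_sum : ∑ j, b j j = z
  b_comm : ∀ x j k, Commute (Γ (ContinuousMap.const unitInterval x)) (b j k)
  m_star : ∀ x y, star (m x y) = m y x
  m_mul : ∀ x y v w, m x y * m v w = if y = v then z * (1 - z) * m x w else 0
  m_comm : ∀ g x y, Commute (Γ g) (m x y)
  z_a : ∀ j k, z * a j k = ∑ r, m (e₀.symm (j, r)) (e₀.symm (k, r))
  z_b : ∀ j k, (1 - z) * b j k = ∑ r, m (e₁.symm (j, r)) (e₁.symm (k, r))

/-- the matrix entry of `π ∘ g` as a continuous function -/
def entryMap (π : M →⋆ₐ[ℂ] Matrix J J B) (hπ : ∀ x y, Continuous fun u => π u x y)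
    (g : C(unitInterval, M)) (x y : J) : C(unitInterval, B) :=
  ⟨fun t => π (g t) x y, (hπ x y).comp g.continuous⟩

@[simp] lemma entryMap_apply (π : M →⋆ₐ[ℂ] Matrix J J B) (hπ : ∀ x y, Continuous fun u => π u x y)
    (g : C(unitInterval, M)) (x y : J) (t : unitInterval) :
    entryMap π hπ g x y t = π (g t) x y := rfl

namespace ZData

open scoped CStarAlgebra

/-- pairing of a matrix of coefficients with a matrix system -/
def sm (a : J → J → C) (c : Matrix J J C) : C := ∑ j, ∑ k, c j k * a j k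

omit [DecidableEq J] in
lemma sm_add (a : J → J → C) (c d : Matrix J J C) : sm a (c + d) = sm a c + sm a d := by
  simp [sm, add_mul, Finset.sum_add_distrib]

omit [DecidableEq J] in
lemma sm_smul (a : J → J → C) (r : ℂ) (c : Matrix J J C) : sm a (r • c) = r • sm a c := by
  simp [sm, Finset.smul_sum]

lemma sm_one (a : J → J → C) : sm a 1 = ∑ j, a j j := by
  simp [sm, Matrix.one_apply]

omit [DecidableEq J] in
lemma sm_star {a : J → J → C} (ha : ∀ j k, star (a j k) = a k j) {c : Matrix J J C}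
    (hc : ∀ j k, Commute (star c j k) (a j k)) : star (sm a c) = sm a (star c) := by
  simp only [sm, star_sum, star_mul, ha]
  rw [Finset.sum_comm]
  exact Finset.sum_congr rfl fun j _ => Finset.sum_congr rfl fun k _ => (hc j k).eq.symm

omit [DecidableEq J] in
lemma mul_sm (a : J → J → C) {w : C} {c : Matrix J J C} (hw : ∀ j k, Commute w (c j k)) :
    w * sm a c = sm (fun j k => w * a j k) c := by
  simp only [sm, Finset.mul_sum]
  refine Finset.sum_congr rfl fun j _ => Finset.sum_congr rfl fun k _ => ?_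
  rw [← mul_assoc, (hw j k).eq, mul_assoc]

lemma sm_mul {a : J → J → C} {w : C}
    (ha : ∀ j k l n, a j k * a l n = if k = l then w * a j n else 0) {c d : Matrix J J C}
    (hd : ∀ j k l n, Commute (d l n) (a j k)) (hw : ∀ j k, Commute w ((c * d) j k)) :
    sm a c * sm a d = w * sm a (c * d) := by
  rw [mul_sm a hw]
  simp only [sm, Matrix.mul_apply, Finset.sum_mul]
  refine Finset.sum_congr rfl fun j _ => ?_
  rw [Finset.sum_comm (f := fun n k => c j k * d k n * (w * a j n))]
  refine Finset.sum_congr rfl fun k _ => ?_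
  have : ∀ l n, c j k * a j k * (d l n * a l n) =
      if k = l then c j k * d l n * (w * a j n) else 0 := by
    intro l n
    rw [mul_assoc, ← mul_assoc (a j k), ← (hd j k l n).eq, mul_assoc, ha, ← mul_assoc]
    split_ifs <;> simp
  simp only [Finset.mul_sum, this]
  rw [Finset.sum_comm]
  simp

omit [DecidableEq J] [DecidableEq J₀] in
lemma sm_kap (m : J → J → C) (e : J ≃ J₀ × R₀) (c : Matrix J₀ J₀ C) :
    sm m (kap e c) = sm (fun j k => ∑ r, m (e.symm (j, r)) (e.symm (k, r))) c := by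
  simp only [sm, kap_apply]
  rw [← e.symm.sum_comp, Fintype.sum_prod_type]
  refine Finset.sum_congr rfl fun j _ => ?_
  simp only [Finset.mul_sum]
  rw [Finset.sum_comm (s := Finset.univ (α := J₀))]
  refine Finset.sum_congr rfl fun r _ => ?_
  rw [← e.symm.sum_comp, Fintype.sum_prod_type]
  simp

/-- constant functions -/
noncomputable def cst (B : Type*) [CStarAlgebra B] : B →⋆ₐ[ℂ] C(unitInterval, B) where
  toFun := ContinuousMap.const unitInterval
  map_one' := rfl
  map_mul' _ _ := rfl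
  map_zero' := rfl
  map_add' _ _ := rfl
  commutes' _ := by ext; simp [Algebra.algebraMap_eq_smul_one]
  map_star' _ := rfl

lemma comm_z (Γ : C(unitInterval, B) →⋆ₐ[ℂ] C) (g : C(unitInterval, B)) :
    Commute (Γ (tt • 1)) (Γ g) := by
  refine Commute.map ?_ Γ
  ext t
  simp

/-- the boundary maps -/
noncomputable def bdry (ι : B →⋆ₐ[ℂ] C) (e : J ≃ J₀ × R₀) (r : R₀) (a : J₀ → J₀ → C)
    (π : M →⋆ₐ[ℂ] Matrix J J B) (hπ : ∀ x y, Continuous fun u => π u x y) : M →L[ℂ] C where
  toFun u := sm a (Matrix.of fun j k => ι (π u (e.symm (j, r)) (e.symm (k, r))))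
  map_add' u v := by
    rw [← sm_add]; congr 1; ext j k; simp
  map_smul' r u := by
    rw [RingHom.id_apply, ← sm_smul]; congr 1; ext j k; simp
  cont := continuous_finsetSum _ fun j _ => continuous_finsetSum _ fun k _ =>
    ((map_continuous ι).comp (hπ _ _)).mul continuous_const

lemma bdry_eq (ι : B →⋆ₐ[ℂ] C) (e : J ≃ J₀ × R₀) (r : R₀) (a : J₀ → J₀ → C)
    (π : M →⋆ₐ[ℂ] Matrix J J B) (hπ : ∀ x y, Continuous fun u => π u x y) {u : M}
    {c : Matrix J₀ J₀ B} (h : π u = kapHom B e c) : bdry ι e r a π hπ u = sm a (c.map ι) := by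
  change sm a _ = _
  congr 1
  ext j k
  simp [h, kap_apply]

/-- the matrix of entries -/
noncomputable def ent (π : M →⋆ₐ[ℂ] Matrix J J B) (hπ : ∀ x y, Continuous fun u => π u x y)
    (g : C(unitInterval, M)) : Matrix J J C(unitInterval, B) := Matrix.of (entryMap π hπ g)

/-- the interior map -/
noncomputable def inr (Γ : C(unitInterval, B) →⋆ₐ[ℂ] C) (m : J → J → C)
    (π : M →⋆ₐ[ℂ] Matrix J J B) (hπ : ∀ x y, Continuous fun u => π u x y) :
    C(unitInterval, M) →L[ℂ] C where
  toFun g := sm m ((ent π hπ g).map Γ)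
  map_add' u v := by
    rw [← sm_add]; congr 1; ext j k
    simp only [Matrix.map_apply, Matrix.add_apply, ← map_add]
    congr 1; ext t; simp [ent]
  map_smul' r u := by
    rw [RingHom.id_apply, ← sm_smul]; congr 1; ext j k
    simp only [Matrix.map_apply, Matrix.smul_apply, ← map_smul]
    congr 1; ext t; simp [ent]
  cont := continuous_finsetSum _ fun j _ => continuous_finsetSum _ fun k _ =>
    ((map_continuous Γ).comp (ContinuousMap.continuous_postcomp
      (⟨fun u => π u j k, hπ j k⟩ : C(M, B)))).mul continuous_const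

lemma inr_apply (Γ : C(unitInterval, B) →⋆ₐ[ℂ] C) (m : J → J → C)
    (π : M →⋆ₐ[ℂ] Matrix J J B) (hπ : ∀ x y, Continuous fun u => π u x y)
    (g : C(unitInterval, M)) : inr Γ m π hπ g = sm m ((ent π hπ g).map Γ) := rfl

omit [Fintype J] [DecidableEq J] in
lemma map_star' (ι : B →⋆ₐ[ℂ] C) (c : Matrix J J B) : star (c.map ι) = (star c).map ι := by
  ext j k; simp [Matrix.star_apply, map_star]

lemma bdry_props {Γ : C(unitInterval, B) →⋆ₐ[ℂ] C} (e : J ≃ J₀ × R₀) (r : R₀) {a : J₀ → J₀ → C}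
    {m : J → J → C} {w w' : C} (hw : ∀ g, Commute w (Γ g)) (hw' : ∀ g, Commute w' (Γ g))
    (a_star : ∀ j k, star (a j k) = a k j)
    (a_mul : ∀ j k l n, a j k * a l n = if k = l then w * a j n else 0)
    (a_sum : ∑ j, a j j = w)
    (a_comm : ∀ x j k, Commute (Γ (ContinuousMap.const unitInterval x)) (a j k))
    (z_a : ∀ j k, w' * a j k = ∑ r, m (e.symm (j, r)) (e.symm (k, r)))
    (π : M →⋆ₐ[ℂ] Matrix J J B) (hπ : ∀ x y, Continuous fun u => π u x y) :
    let A := bdry (Γ.comp (cst B)) e r a π hπ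
    let N := (kapHom B e).range.comap π
    (∀ x ∈ N, ∀ y ∈ N, A x * A y = w * A (x * y)) ∧ (∀ x ∈ N, star (A x) = A (star x)) ∧
      A 1 = w ∧ ∀ x ∈ N, w' * A x = inr Γ m π hπ (ContinuousMap.const unitInterval x) := by
  intro A N
  refine ⟨?_, ?_, ?_, ?_⟩
  · rintro x ⟨c, hc⟩ y ⟨d, hd⟩
    have h1 : π x = kapHom B e c := hc.symm
    have h2 : π y = kapHom B e d := hd.symm
    have h3 : π (x * y) = kapHom B e (c * d) := by rw [map_mul, map_mul, h1, h2]
    rw [bdry_eq _ e r a π hπ h1, bdry_eq _ e r a π hπ h2, bdry_eq _ e r a π hπ h3,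
      Matrix.map_mul]
    refine sm_mul a_mul (fun j k l n => a_comm _ j k) fun j k => ?_
    rw [← Matrix.map_mul]
    exact hw _
  · rintro x ⟨c, hc⟩
    have h1 : π x = kapHom B e c := hc.symm
    have h3 : π (star x) = kapHom B e (star c) := by rw [map_star, map_star, h1]
    rw [bdry_eq _ e r a π hπ h1, bdry_eq _ e r a π hπ h3, sm_star a_star, map_star']
    intro j k
    rw [map_star']
    exact a_comm _ j k
  · have h3 : π 1 = kapHom B e 1 := by rw [map_one, map_one]
    rw [bdry_eq _ e r a π hπ h3, Matrix.map_one _ (map_zero _) (map_one _), sm_one, a_sum]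
  · rintro x ⟨c, hc⟩
    have h1 : π x = kapHom B e c := hc.symm
    have h2 : (ent π hπ (ContinuousMap.const unitInterval x)).map Γ =
        kap e (c.map (Γ.comp (cst B))) := by
      ext j k
      have : ent π hπ (ContinuousMap.const unitInterval x) j k = cst B (π x j k) := rfl
      rw [Matrix.map_apply, this, h1, kapHom_apply, kap_apply, kap_apply]
      split_ifs
      · rfl
      · simp
    rw [bdry_eq _ e r a π hπ h1, inr_apply, h2, sm_kap, mul_sm a]
    · simp only [z_a]
    · exact fun j k => hw' _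

end ZData

open ZData

theorem MData.exists_hom [Nonempty R₀] [Nonempty R₁] {Γ : C(unitInterval, B) →⋆ₐ[ℂ] C}
    {e₀ : J ≃ J₀ × R₀} {e₁ : J ≃ J₁ × R₁} {z : C} {a : J₀ → J₀ → C} {b : J₁ → J₁ → C}
    {m : J → J → C} (h : MData Γ e₀ e₁ z a b m) (π : M →⋆ₐ[ℂ] Matrix J J B)
    (hπ : ∀ x y, Continuous fun u => π u x y) (S : StarSubalgebra ℂ C(unitInterval, M))
    (hS : ∀ F, F ∈ S ↔ (∃ c, π (F 0) = kap e₀ c) ∧ ∃ c, π (F 1) = kap e₁ c) :
    ∃ Φ : S →⋆ₐ[ℂ] C, Continuous Φ ∧
      ∀ (F : S) (g : C(unitInterval, M)) (c₀ : Matrix J₀ J₀ B) (c₁ : Matrix J₁ J₁ B),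
        IsRep F.1 g → π (F.1 0) = kap e₀ c₀ → π (F.1 1) = kap e₁ c₁ →
        Φ F = ∑ j, ∑ k, Γ (ContinuousMap.const unitInterval (c₀ j k)) * a j k +
          ∑ j, ∑ k, Γ (ContinuousMap.const unitInterval (c₁ j k)) * b j k +
          ∑ x, ∑ y, Γ (entryMap π hπ g x y) * m x y := by
  obtain ⟨r₀⟩ := ‹Nonempty R₀›
  obtain ⟨r₁⟩ := ‹Nonempty R₁›
  have hz : ∀ g, Commute z (Γ g) := fun g => h.z_eq ▸ comm_z Γ g
  have hz' : ∀ g, Commute (1 - z) (Γ g) := fun g => (Commute.one_left _).sub_left (hz g)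
  obtain ⟨a1, a2, a3, a4⟩ := bdry_props e₀ r₀ hz' hz h.a_star h.a_mul h.a_sum h.a_comm h.z_a π hπ
  obtain ⟨b1, b2, b3, b4⟩ := bdry_props e₁ r₁ hz hz' h.b_star h.b_mul h.b_sum h.b_comm h.z_b π hπ
  have G : GlueData _ _ z _ _ (inr Γ m π hπ) :=
    { z_sa := by
        rw [← h.z_eq, ← map_star]
        congr 1
        ext t
        simp
      M_mul := fun g g' => by
        have e : ent π hπ (g * g') = ent π hπ g * ent π hπ g' := by
          ext x y t
          simp [ent, Matrix.mul_apply]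
        rw [inr_apply, inr_apply, inr_apply, e, Matrix.map_mul]
        refine sm_mul h.m_mul (fun j k l n => h.m_comm _ j k) fun j k => ?_
        rw [← Matrix.map_mul]
        exact (hz _).mul_left (hz' _)
      M_star := fun g => by
        have e : ent π hπ (star g) = star (ent π hπ g) := by
          ext x y t
          simp [ent, Matrix.star_apply, map_star]
        rw [inr_apply, inr_apply, e, sm_star h.m_star, map_star']
        intro j k
        rw [map_star']
        exact h.m_comm _ j k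
      M_tt := fun g => by
        rw [inr_apply, inr_apply]
        simp only [sm, Finset.mul_sum, Matrix.map_apply, ← mul_assoc, ← h.z_eq, ← map_mul]
        refine Finset.sum_congr rfl fun j _ => Finset.sum_congr rfl fun k _ => ?_
        congr 2
        ext t
        simp [ent, -Complex.coe_smul]
      A_mul := a1
      A_star := a2
      A_one := a3
      z_A := a4
      B_mul := b1
      B_star := b2
      B_one := b3
      z_B := b4 }
  obtain ⟨Φ, h1, h2⟩ := G.exists_hom S fun F => (hS F).trans (and_congr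
    (exists_congr fun _ => eq_comm) (exists_congr fun _ => eq_comm))
  refine ⟨Φ, h1, fun F g c₀ c₁ hg h₀ h₁ => ?_⟩
  rw [h2 F g hg, bdry_eq _ e₀ r₀ a π hπ h₀, bdry_eq _ e₁ r₁ b π hπ h₁]
  rfl

end Vale.Agent.P101
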