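import Vale.Agent.P101.ZBasic

/-!
Gluing three linear maps to a `*`-homomorphism on an algebra of functions on `[0,1]` with
boundary conditions.
-/

namespace Vale.Agent.P101

open Filter Topology

variable {M C : Type*} [CStarAlgebra M] [CStarAlgebra C]

/-- `A x`, `B y`, `Mm g` are the intended images of `(1 - t) x`, `t y`, `t (1 - t) g`. -/
structure GlueData (N₀ N₁ : StarSubalgebra ℂ M) (z : C) (A B : M →L[ℂ] C)
    (Mm : C(unitInterval, M) →L[ℂ] C) : Prop where
  z_sa : star z = z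
  M_mul : ∀ g g', Mm g * Mm g' = z * (1 - z) * Mm (g * g')
  M_star : ∀ g, star (Mm g) = Mm (star g)
  M_tt : ∀ g, Mm (tt • g) = z * Mm g
  A_mul : ∀ x ∈ N₀, ∀ y ∈ N₀, A x * A y = (1 - z) * A (x * y)
  A_star : ∀ x ∈ N₀, star (A x) = A (star x)
  A_one : A 1 = 1 - z
  z_A : ∀ x ∈ N₀, z * A x = Mm (ContinuousMap.const unitInterval x)
  B_mul : ∀ x ∈ N₁, ∀ y ∈ N₁, B x * B y = z * B (x * y)
  B_star : ∀ x ∈ N₁, star (B x) = B (star x)
  B_one : B 1 = z
  z_B : ∀ x ∈ N₁, (1 - z) * B x = Mm (ContinuousMap.const unitInterval x)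

lemma isRep_of_eq {x y : M} {F g : C(unitInterval, M)}
    (h : F = (1 - tt) • ContinuousMap.const unitInterval x +
      tt • ContinuousMap.const unitInterval y + (tt * (1 - tt)) • g) :
    F 0 = x ∧ F 1 = y ∧ IsRep F g := by
  have h0 : F 0 = x := by rw [h]; simp
  have h1 : F 1 = y := by rw [h]; simp
  exact ⟨h0, h1, by rw [IsRep, h0, h1]; exact h⟩

/-- the functions with a representation are dense -/
theorem dense_isRep {N₀ N₁ : StarSubalgebra ℂ M} (S : StarSubalgebra ℂ C(unitInterval, M))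
    (hS : ∀ F, F ∈ S ↔ F 0 ∈ N₀ ∧ F 1 ∈ N₁) : Dense {F : S | ∃ g, IsRep F.1 g} := by
  intro F
  rw [Metric.mem_closure_iff]
  intro ε hε
  set F₀ : C(unitInterval, M) := F.1 - (1 - tt) • ContinuousMap.const unitInterval (F.1 0) -
    tt • ContinuousMap.const unitInterval (F.1 1) with hF₀
  have hK : IsCompact {t | ε / 2 ≤ ‖F₀ t‖} :=
    (isClosed_le continuous_const F₀.continuous.norm).isCompact
  obtain ⟨δ, hδ, hδK⟩ := hK.exists_forall_le' (f := fun t : unitInterval => (t : ℝ) * (1 - t))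
    (a := 0) (by fun_prop) (fun t ht => by
      have h0 : t ≠ 0 := by
        rintro rfl
        simp only [Set.mem_ofPred_eq, hF₀] at ht
        simp at ht
        linarith
      have h1 : t ≠ 1 := by
        rintro rfl
        simp only [Set.mem_ofPred_eq, hF₀] at ht
        simp at ht
        linarith
      exact mul_pos (unitInterval.pos_iff_ne_zero.2 h0)
        (sub_pos.2 (unitInterval.lt_one_iff_ne_one.2 h1)))
  let r : C(unitInterval, ℂ) := ⟨fun t => (((max ((t : ℝ) * (1 - t)) δ)⁻¹ : ℝ) : ℂ),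
    Complex.continuous_ofReal.comp (Continuous.inv₀ (by fun_prop)
      fun t => (lt_max_of_lt_right hδ).ne')⟩
  obtain ⟨h0, h1, h2⟩ := isRep_of_eq (x := F.1 0) (y := F.1 1) (g := r • F₀) rfl
  refine ⟨⟨_, (hS _).2 (by rw [h0, h1]; exact (hS _).1 F.2)⟩, ⟨_, h2⟩, ?_⟩
  rw [Subtype.dist_eq, dist_eq_norm]
  refine lt_of_le_of_lt ((ContinuousMap.norm_le _ (half_pos hε).le).2 fun t => ?_)
    (half_lt_self hε)
  have e : (F.1 - ((1 - tt) • ContinuousMap.const unitInterval (F.1 0) +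
      tt • ContinuousMap.const unitInterval (F.1 1) + (tt * (1 - tt)) • r • F₀)) t =
      ((1 - (t : ℝ) * (1 - t) * (max ((t : ℝ) * (1 - t)) δ)⁻¹ : ℝ) : ℂ) • F₀ t := by
    have : F.1 - ((1 - tt) • ContinuousMap.const unitInterval (F.1 0) +
      tt • ContinuousMap.const unitInterval (F.1 1) + (tt * (1 - tt)) • r • F₀) =
        F₀ - (tt * (1 - tt)) • r • F₀ := by rw [hF₀]; abel
    rw [this]
    simp [r, sub_smul, smul_smul]
  rw [e, norm_smul, Complex.norm_real, Real.norm_eq_abs]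
  have hm : 0 < max ((t : ℝ) * (1 - t)) δ := lt_max_of_lt_right hδ
  by_cases ht : ε / 2 ≤ ‖F₀ t‖
  · rw [max_eq_left (hδK t ht), mul_inv_cancel₀ (hδ.trans_le (hδK t ht)).ne']
    simpa using (half_pos hε).le
  · have a1 : (t : ℝ) * (1 - t) * (max ((t : ℝ) * (1 - t)) δ)⁻¹ ≤ 1 :=
      mul_inv_le_one_of_le₀ (le_max_left _ _) hm.le
    have a2 : 0 ≤ (t : ℝ) * (1 - t) * (max ((t : ℝ) * (1 - t)) δ)⁻¹ :=
      mul_nonneg (mul_nonneg t.2.1 (sub_nonneg.2 t.2.2)) (inv_nonneg.2 hm.le)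
    rw [abs_of_nonneg (by linarith)]
    nlinarith [norm_nonneg (F₀ t)]

lemma star_tt : star tt = tt := by ext t; simp

lemma star_fsmul (φ : C(unitInterval, ℂ)) (g : C(unitInterval, M)) :
    star (φ • g) = star φ • star g := by ext t; simp

lemma le_of_pow_succ_le {a r K : ℝ} (hr : 0 ≤ r) 
    (h : ∃ᶠ n : ℕ in atTop, a ^ (n + 1) ≤ K * r ^ n) :
    a ≤ r := by
  by_contra hlt
  push Not at hlt
  have ha : 0 < a := hr.trans_lt hlt
  have h1 : Tendsto (fun n : ℕ => K * (r / a) ^ n) atTop (𝓝 (K * 0)) :=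
    (tendsto_pow_atTop_nhds_zero_of_lt_one (div_nonneg hr ha.le)
      ((div_lt_one ha).2 hlt)).const_mul K
  rw [mul_zero] at h1
  obtain ⟨n, h2, h3⟩ := (h.and_eventually (h1.eventually (gt_mem_nhds ha))).exists
  rw [div_pow, ← mul_div_assoc, div_lt_iff₀ (pow_pos ha n), mul_comm a, ← pow_succ] at h3
  linarith

/-- the elements whose adjoint kills the kernel of `c` -/
def Nul (c : C) : Set C := {u | ∀ y, c * y = 0 → star u * y = 0}

lemma Nul.add {c u v : C} (hu : u ∈ Nul c) (hv : v ∈ Nul c) : u + v ∈ Nul c := fun y hy => by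
  rw [star_add, add_mul, hu y hy, hv y hy, add_zero]

lemma Nul.neg {c u : C} (hu : u ∈ Nul c) : -u ∈ Nul c := fun y hy => by
  rw [star_neg, neg_mul, hu y hy, neg_zero]

lemma Nul.mul_right {c u : C} (hu : u ∈ Nul c) (d : C) : u * d ∈ Nul c := fun y hy => by
  rw [star_mul, mul_assoc, hu y hy, mul_zero]

lemma Nul.mul_left {c u d : C} (hu : u ∈ Nul c) (hd : Commute c (star d)) : d * u ∈ Nul c :=
  fun y hy => by
    rw [star_mul, mul_assoc]
    exact hu _ (by rw [← mul_assoc, hd.eq, mul_assoc, hy, mul_zero])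

lemma isClosed_Nul (c : C) : IsClosed (Nul c) := by
  have : Nul c = ⋂ y, ⋂ (_ : c * y = 0), {u | star u * y = 0} := by
    ext u; simp [Nul]
  rw [this]
  exact isClosed_iInter fun y => isClosed_iInter fun _ =>
    isClosed_eq (by fun_prop) continuous_const

lemma star_mul_eq_zero_of {u w k y : C} (h : u * star u = k * w) (hw : w * y = 0) :
    star u * y = 0 := by
  rw [← CStarRing.star_mul_self_eq_zero_iff, star_mul, star_star]
  calc star y * u * (star u * y) = star y * (u * star u) * y := by noncomm_ring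
    _ = 0 := by rw [h, mul_assoc, mul_assoc, hw, mul_zero, mul_zero]

namespace GlueData

variable {N₀ N₁ : StarSubalgebra ℂ M} {z : C} {A B : M →L[ℂ] C}
  {Mm : C(unitInterval, M) →L[ℂ] C}

lemma comm_M (h : GlueData N₀ N₁ z A B Mm) (g : C(unitInterval, M)) : Commute z (Mm g) := by
  have h1 := congrArg star (h.M_tt (star g))
  rw [h.M_star, star_fsmul, star_tt, star_star, star_mul, h.M_star, star_star, h.z_sa,
    h.M_tt] at h1
  exact h1

lemma comm_A (h : GlueData N₀ N₁ z A B Mm) {x : M} (hx : x ∈ N₀) : Commute z (A x) := by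
  have h1 := congrArg star (h.z_A _ (star_mem hx))
  rw [star_mul, h.A_star _ (star_mem hx), star_star, h.z_sa, h.M_star] at h1
  change z * A x = A x * z
  rw [h1, h.z_A x hx]
  congr 1
  ext t
  simp

lemma comm_B (h : GlueData N₀ N₁ z A B Mm) {x : M} (hx : x ∈ N₁) : Commute z (B x) := by
  have h1 := congrArg star (h.z_B _ (star_mem hx))
  rw [star_mul, h.B_star _ (star_mem hx), star_star, star_sub, star_one, h.z_sa, h.M_star] at h1
  have h2 : Commute (1 - z) (B x) := by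
    change (1 - z) * B x = B x * (1 - z)
    rw [h1, h.z_B x hx]
    congr 1
    ext t
    simp
  simpa using (Commute.one_left (B x)).sub_left h2

lemma M_one_sub (h : GlueData N₀ N₁ z A B Mm) (g : C(unitInterval, M)) :
    Mm ((1 - tt) • g) = (1 - z) * Mm g := by
  rw [show (1 - tt) • g = g - tt • g by ext t; simp [sub_smul], map_sub, h.M_tt, sub_mul, one_mul]

lemma M_tau (h : GlueData N₀ N₁ z A B Mm) (g : C(unitInterval, M)) :
    Mm ((tt * (1 - tt)) • g) = z * (1 - z) * Mm g := by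
  rw [show (tt * (1 - tt)) • g = tt • (1 - tt) • g by ext t; simp [mul_smul], h.M_tt,
    h.M_one_sub, mul_assoc]

lemma norm_M_le (h : GlueData N₀ N₁ z A B Mm) (g : C(unitInterval, M)) :
    ‖Mm g‖ ≤ ‖(tt * (1 - tt)) • g‖ := by
  set τ : C(unitInterval, ℂ) := tt * (1 - tt) with hτ
  have hτs : star τ = τ := by rw [hτ, star_mul, star_sub, star_one, star_tt, mul_comm]
  set k := star (τ • g) * (τ • g) with hk
  set l := τ • (star g * g) with hl
  have hsm : ∀ (φ : C(unitInterval, ℂ)) (a b : C(unitInterval, M)), φ • (a * b) = (φ • a) * b :=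
    fun φ a b => by ext t; simp
  have hsm' : ∀ (φ : C(unitInterval, ℂ)) (a b : C(unitInterval, M)), φ • (a * b) = a * (φ • b) :=
    fun φ a b => by ext t; simp
  have hkl : k = τ • l := by rw [hk, hl, star_fsmul, hτs, ← hsm, ← hsm']
  have hy : star (Mm g) * Mm g = Mm l := by rw [h.M_star, h.M_mul, ← h.M_tau]
  have hpow : ∀ n : ℕ, (star (Mm g) * Mm g) ^ (n + 1) = Mm (k ^ n * l) := by
    intro n
    induction n with
    | zero => simp [hy]
    | succ n ih =>
      rw [pow_succ', ih, hy, h.M_mul, ← h.M_tau, hsm, ← hkl, pow_succ' k, mul_assoc k]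
  have h1 : ‖star (Mm g) * Mm g‖ ≤ ‖k‖ := by
    refine le_of_pow_succ_le (K := ‖Mm‖ * ‖l‖) (norm_nonneg _) (frequently_atTop.2 fun N => ?_)
    have hsa : IsSelfAdjoint (star (Mm g) * Mm g) := IsSelfAdjoint.star_mul_self _
    obtain ⟨n, hn⟩ : ∃ n, 2 ^ N = n + 1 := Nat.exists_eq_succ_of_ne_zero (by positivity)
    refine ⟨n, by have := Nat.lt_two_pow_self (n := N); omega, ?_⟩
    rw [← hn, ← hsa.norm_pow_two_pow, hn, hpow]
    · refine (Mm.le_opNorm _).trans ?_
      rw [mul_assoc]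
      refine mul_le_mul_of_nonneg_left ?_ (norm_nonneg _)
      rcases n with _ | n
      · simp
      · rw [mul_comm ‖l‖]
        exact (norm_mul_le _ _).trans
          (mul_le_mul_of_nonneg_right (norm_pow_le' _ n.succ_pos) (norm_nonneg _))
  have h2 : ‖k‖ = ‖τ • g‖ * ‖τ • g‖ := CStarRing.norm_star_mul_self
  rw [h2, CStarRing.norm_star_mul_self] at h1
  exact (mul_self_le_mul_self_iff (norm_nonneg _) (norm_nonneg _)).2 h1

lemma M_mem_Nul (h : GlueData N₀ N₁ z A B Mm) (g : C(unitInterval, M)) :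
    Mm g ∈ Nul (z * (1 - z)) := fun y hy =>
  star_mul_eq_zero_of (k := Mm (g * star g)) (by
    rw [h.M_star, h.M_mul]
    exact ((h.comm_M _).mul_left ((Commute.one_left _).sub_left (h.comm_M _))).eq) hy

lemma AB_mem_Nul (h : GlueData N₀ N₁ z A B Mm) {x y : M} (hx : x ∈ N₀) (hy : y ∈ N₁) :
    A x * B y ∈ Nul (z * (1 - z)) := fun w hw => by
  rw [star_mul, mul_assoc]
  refine star_mul_eq_zero_of (k := B (y * star y)) (w := z) ?_ ?_
  · rw [h.B_star y hy, h.B_mul y hy _ (star_mem hy)]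
    exact (h.comm_B (mul_mem hy (star_mem hy))).eq
  · rw [h.A_star x hx, ← mul_assoc, (h.comm_A (star_mem hx)).eq, mul_assoc, ← h.A_star x hx]
    refine star_mul_eq_zero_of (k := A (x * star x)) (w := 1 - z) ?_ ?_
    · rw [h.A_star x hx, h.A_mul x hx _ (star_mem hx)]
      exact ((Commute.one_left _).sub_left (h.comm_A (mul_mem hx (star_mem hx)))).eq
    · rw [← hw]; noncomm_ring

lemma BA_mem_Nul (h : GlueData N₀ N₁ z A B Mm) {x y : M} (hx : x ∈ N₀) (hy : y ∈ N₁) :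
    B y * A x ∈ Nul (z * (1 - z)) := fun w hw => by
  rw [star_mul, mul_assoc]
  refine star_mul_eq_zero_of (k := A (x * star x)) (w := 1 - z) ?_ ?_
  · rw [h.A_star x hx, h.A_mul x hx _ (star_mem hx)]
    exact ((Commute.one_left _).sub_left (h.comm_A (mul_mem hx (star_mem hx)))).eq
  · rw [h.B_star y hy, ← mul_assoc, ((Commute.one_left _).sub_left (h.comm_B (star_mem hy))).eq,
      mul_assoc, ← h.B_star y hy]
    refine star_mul_eq_zero_of (k := B (y * star y)) (w := z) ?_ ?_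
    · rw [h.B_star y hy, h.B_mul y hy _ (star_mem hy)]
      exact (h.comm_B (mul_mem hy (star_mem hy))).eq
    · rw [← hw, mul_assoc]

end GlueData

/-- the pairs `(F, g)` with `F = (1 - t) F(0) + t F(1) + t (1 - t) g` -/
def repSub (S : StarSubalgebra ℂ C(unitInterval, M)) :
    Submodule ℂ (C(unitInterval, M) × C(unitInterval, M)) where
  carrier := {w | w.1 ∈ S ∧ IsRep w.1 w.2}
  zero_mem' := by
    refine ⟨zero_mem S, ?_⟩
    change IsRep 0 0
    ext t
    simp
  add_mem' := by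
    rintro ⟨F, g⟩ ⟨F', g'⟩ ⟨k, h⟩ ⟨k', h'⟩
    refine ⟨add_mem k k', ?_⟩
    change IsRep (F + F') (g + g')
    ext t
    have e := DFunLike.congr_fun h t
    have e' := DFunLike.congr_fun h' t
    simp only [ContinuousMap.add_apply, ContinuousMap.smul_apply', ContinuousMap.const_apply,
      smul_add] at e e' ⊢
    rw [e, e']
    abel
  smul_mem' := by
    rintro c ⟨F, g⟩ ⟨k, h⟩
    refine ⟨S.smul_mem k c, ?_⟩
    change IsRep (c • F) (c • g)
    ext t
    have e := DFunLike.congr_fun h t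
    simp only [ContinuousMap.add_apply, ContinuousMap.smul_apply', ContinuousMap.const_apply,
      ContinuousMap.smul_apply] at e ⊢
    rw [e, smul_add, smul_add, smul_comm c, smul_comm c, smul_comm c]

lemma exists_extend {E S C : Type*} [AddCommGroup E] [Module ℂ E] [NormedAddCommGroup S]
    [NormedSpace ℂ S] [NormedAddCommGroup C] [NormedSpace ℂ C] [CompleteSpace C]
    (f : E →ₗ[ℂ] C) (e : E →ₗ[ℂ] S) (he : DenseRange e) (K : ℝ) (hb : ∀ x, ‖f x‖ ≤ K * ‖e x‖) :
    ∃ Φ : S →L[ℂ] C, ∀ x, Φ (e x) = f x :=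
  ⟨f.extendOfNorm e, LinearMap.extendOfNorm_eq he ⟨K, hb⟩⟩

lemma IsRep.norm_le {F g : C(unitInterval, M)} (hw : IsRep F g) :
    ‖(tt * (1 - tt)) • g‖ ≤ 3 * ‖F‖ := by
  have n0 := F.norm_coe_le_norm 0
  have n1 := F.norm_coe_le_norm 1
  refine (ContinuousMap.norm_le _ (by positivity)).2 fun t => ?_
  have e := DFunLike.congr_fun hw t
  have e' : ((tt * (1 - tt)) • g) t = F t - (((1 - t : ℝ) : ℂ) • F 0 + ((t : ℝ) : ℂ) • F 1) := by
    rw [e]; simp
  rw [e']
  have a1 : ‖((1 - t : ℝ) : ℂ) • F 0‖ ≤ ‖F‖ := by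
    rw [norm_smul, Complex.norm_real, Real.norm_of_nonneg (sub_nonneg.2 t.2.2)]
    nlinarith [t.2.1, t.2.2, norm_nonneg (F 0)]
  have a2 : ‖((t : ℝ) : ℂ) • F 1‖ ≤ ‖F‖ := by
    rw [norm_smul, Complex.norm_real, Real.norm_of_nonneg t.2.1]
    nlinarith [t.2.1, t.2.2, norm_nonneg (F 1)]
  have a3 := F.norm_coe_le_norm t
  have a4 := norm_add_le (((1 - t : ℝ) : ℂ) • F 0) (((t : ℝ) : ℂ) • F 1)
  exact (norm_sub_le _ _).trans (by linarith)

/-- first component -/
noncomputable def repFst (S : StarSubalgebra ℂ C(unitInterval, M)) :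
    repSub S →ₗ[ℂ] Subalgebra.toSubmodule S.toSubalgebra where
  toFun w := ⟨w.1.1, w.2.1⟩
  map_add' _ _ := rfl
  map_smul' _ _ := rfl

/-- the glued map on the dense subspace -/
noncomputable def repMap (S : StarSubalgebra ℂ C(unitInterval, M)) (A B : M →L[ℂ] C)
    (Mm : C(unitInterval, M) →L[ℂ] C) : repSub S →ₗ[ℂ] C where
  toFun w := A (w.1.1 0) + B (w.1.1 1) + Mm w.1.2
  map_add' w w' := by
    simp only [Submodule.coe_add, Prod.fst_add, Prod.snd_add, ContinuousMap.add_apply, map_add]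
    abel
  map_smul' c w := by
    simp only [Submodule.coe_smul, Prod.smul_fst, Prod.smul_snd, ContinuousMap.smul_apply,
      map_smul, smul_add, RingHom.id_apply]

theorem GlueData.exists_linear {N₀ N₁ : StarSubalgebra ℂ M} {z : C} {A B : M →L[ℂ] C}
    {Mm : C(unitInterval, M) →L[ℂ] C} (h : GlueData N₀ N₁ z A B Mm)
    (S : StarSubalgebra ℂ C(unitInterval, M)) (hS : ∀ F, F ∈ S ↔ F 0 ∈ N₀ ∧ F 1 ∈ N₁) :
    ∃ Φ : S →ₗ[ℂ] C, Continuous Φ ∧
      ∀ (F : S) (g : C(unitInterval, M)), IsRep F.1 g → Φ F = A (F.1 0) + B (F.1 1) + Mm g := by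
  have he : DenseRange (repFst S) := (dense_isRep S hS).mono (by
    rintro F ⟨g, hg⟩
    exact ⟨⟨(F.1, g), F.2, hg⟩, rfl⟩)
  have hb : ∀ w, ‖repMap S A B Mm w‖ ≤ (‖A‖ + ‖B‖ + 3) * ‖repFst S w‖ := by
    rintro ⟨⟨F, g⟩, hF, hw⟩
    have n0 := F.norm_coe_le_norm 0
    have n1 := F.norm_coe_le_norm 1
    have a1 := (A.le_opNorm (F 0)).trans (mul_le_mul_of_nonneg_left n0 (norm_nonneg _))
    have a2 := (B.le_opNorm (F 1)).trans (mul_le_mul_of_nonneg_left n1 (norm_nonneg _))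
    have a3 := (h.norm_M_le g).trans (IsRep.norm_le hw)
    have : ‖A (F 0) + B (F 1) + Mm g‖ ≤ (‖A‖ + ‖B‖ + 3) * ‖F‖ :=
      norm_add₃_le.trans (by linarith)
    exact this
  obtain ⟨Φ, hΦ⟩ := exists_extend (E := repSub S) (S := Subalgebra.toSubmodule S.toSubalgebra)
    (C := C) (repMap S A B Mm) (repFst S) he _ (fun w => by have := hb w; exact this)
  refine ⟨{ toFun := fun F => Φ ⟨F.1, F.2⟩
            map_add' := fun F G => map_add Φ ⟨F.1, F.2⟩ ⟨G.1, G.2⟩
            map_smul' := fun c F => map_smul Φ c ⟨F.1, F.2⟩ },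
    Φ.continuous.comp (continuous_subtype_val.subtype_mk _), fun F g hg => ?_⟩
  have := hΦ ⟨(F.1, g), F.2, hg⟩
  exact this

theorem GlueData.exists_hom {N₀ N₁ : StarSubalgebra ℂ M} {z : C} {A B : M →L[ℂ] C}
    {Mm : C(unitInterval, M) →L[ℂ] C} (h : GlueData N₀ N₁ z A B Mm)
    (S : StarSubalgebra ℂ C(unitInterval, M)) (hS : ∀ F, F ∈ S ↔ F 0 ∈ N₀ ∧ F 1 ∈ N₁) :
    ∃ Φ : S →⋆ₐ[ℂ] C, Continuous Φ ∧
      ∀ (F : S) (g : C(unitInterval, M)), IsRep F.1 g → Φ F = A (F.1 0) + B (F.1 1) + Mm g := by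
  obtain ⟨Φ, hΦc, hΦ⟩ := h.exists_linear S hS
  have hD := dense_isRep S hS
  have m0 : ∀ F : S, F.1 0 ∈ N₀ := fun F => ((hS _).1 F.2).1
  have m1 : ∀ F : S, F.1 1 ∈ N₁ := fun F => ((hS _).1 F.2).2
  have p1 : ∀ F : S, z * (1 - z) * Φ F = Mm F.1 := by
    intro F
    refine hD.induction (P := fun F : S => z * (1 - z) * Φ F = Mm F.1) ?_
      (isClosed_eq (by fun_prop) (by fun_prop)) F
    rintro F ⟨g, hg⟩
    rw [hΦ F g hg]
    conv_rhs => rw [hg]
    rw [map_add, map_add, h.M_tau, h.M_one_sub, h.M_tt, ← h.z_A _ (m0 F), ← h.z_B _ (m1 F)]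
    noncomm_ring
  have p2 : ∀ F : S, Commute z (Φ F) := by
    intro F
    refine hD.induction (P := fun F : S => z * Φ F = Φ F * z) ?_
      (isClosed_eq (by fun_prop) (by fun_prop)) F
    rintro F ⟨g, hg⟩
    rw [hΦ F g hg]
    exact (((h.comm_A (m0 F)).add_right (h.comm_B (m1 F))).add_right (h.comm_M g)).eq
  have p3 : ∀ F : S, Φ (star F) = star (Φ F) := by
    intro F
    have hst : Continuous fun F : S => star F :=
      (continuous_subtype_val.star).subtype_mk fun F => star_mem F.2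
    refine hD.induction (P := fun F : S => Φ (star F) = star (Φ F)) ?_
      (isClosed_eq (hΦc.comp hst) (by fun_prop)) F
    rintro F ⟨g, hg⟩
    have hg' : IsRep (star F).1 (star g) := by
      ext t
      have e := congrArg star (DFunLike.congr_fun hg t)
      simpa using e
    rw [hΦ F g hg, hΦ _ _ hg', star_add, star_add, h.A_star _ (m0 F), h.B_star _ (m1 F), h.M_star]
    rfl
  have p4 : ∀ F : S, Φ F - (A (F.1 0) + B (F.1 1)) ∈ Nul (z * (1 - z)) := by
    intro F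
    refine hD.induction (P := fun F : S => Φ F - (A (F.1 0) + B (F.1 1)) ∈ Nul (z * (1 - z))) ?_
      ((isClosed_Nul _).preimage (by fun_prop)) F
    rintro F ⟨g, hg⟩
    rw [hΦ F g hg, add_sub_cancel_left]
    exact h.M_mem_Nul g
  have hc : ∀ {d : C}, Commute z d → Commute (z * (1 - z)) d := fun hd =>
    hd.mul_left ((Commute.one_left _).sub_left hd)
  have hcs : star (z * (1 - z)) = z * (1 - z) := by
    rw [star_mul, star_sub, star_one, h.z_sa]; noncomm_ring
  have p5 : ∀ F G : S, Φ (F * G) = Φ F * Φ G := by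
    intro F G
    set c := z * (1 - z) with hcdef
    have q1 : c * (c * (Φ (F * G) - Φ F * Φ G)) = 0 := by
      have : c * (c * (Φ F * Φ G)) = (c * Φ F) * (c * Φ G) := by
        rw [← mul_assoc c (Φ F), (hc (p2 F)).eq, mul_assoc (Φ F), ← mul_assoc c (Φ F),
          (hc (p2 F)).eq]
      rw [mul_sub, mul_sub, this, p1, p1, p1, h.M_mul, sub_eq_zero]
      rfl
    have q2 : c * (Φ (F * G) - Φ F * Φ G) = 0 := by
      rw [← CStarRing.star_mul_self_eq_zero_iff, star_mul, hcs, mul_assoc, q1, mul_zero]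
    have q3 : Φ (F * G) - Φ F * Φ G ∈ Nul c := by
      have e1 : A (F.1 0 * G.1 0) - A (F.1 0) * A (G.1 0) =
          Mm (ContinuousMap.const unitInterval (F.1 0 * G.1 0)) := by
        rw [h.A_mul _ (m0 F) _ (m0 G), ← h.z_A _ (mul_mem (m0 F) (m0 G))]; noncomm_ring
      have e2 : B (F.1 1 * G.1 1) - B (F.1 1) * B (G.1 1) =
          Mm (ContinuousMap.const unitInterval (F.1 1 * G.1 1)) := by
        rw [h.B_mul _ (m1 F) _ (m1 G), ← h.z_B _ (mul_mem (m1 F) (m1 G))]; noncomm_ring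
      have e3 : Φ (F * G) - Φ F * Φ G =
          (Φ (F * G) - (A ((F * G).1 0) + B ((F * G).1 1))) +
          (A (F.1 0 * G.1 0) - A (F.1 0) * A (G.1 0)) +
          (B (F.1 1 * G.1 1) - B (F.1 1) * B (G.1 1)) + -(A (F.1 0) * B (G.1 1)) +
          -(B (F.1 1) * A (G.1 0)) + -((Φ F - (A (F.1 0) + B (F.1 1))) * Φ G) +
          -((A (F.1 0) + B (F.1 1)) * (Φ G - (A (G.1 0) + B (G.1 1)))) := by
        change _ = (Φ (F * G) - (A (F.1 0 * G.1 0) + B (F.1 1 * G.1 1))) + _ + _ + _ + _ + _ + _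
        noncomm_ring
      rw [e3, e1, e2]
      refine Nul.add (Nul.add (Nul.add (Nul.add (Nul.add (Nul.add (p4 _) (h.M_mem_Nul _))
        (h.M_mem_Nul _)) (Nul.neg (h.AB_mem_Nul (m0 F) (m1 G))))
        (Nul.neg (h.BA_mem_Nul (m0 G) (m1 F)))) (Nul.neg (Nul.mul_right (p4 F) _)))
        (Nul.neg (Nul.mul_left (p4 G) (hc ?_)))
      rw [star_add, h.A_star _ (m0 F), h.B_star _ (m1 F)]
      exact (h.comm_A (star_mem (m0 F))).add_right (h.comm_B (star_mem (m1 F)))
    rw [← sub_eq_zero, ← CStarRing.star_mul_self_eq_zero_iff]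
    exact q3 _ q2
  have p6 : Φ 1 = 1 := by
    have : IsRep (1 : S).1 0 := by
      ext t
      simp [sub_smul]
    rw [hΦ 1 0 this]
    change A 1 + B 1 + Mm 0 = 1
    rw [h.A_one, h.B_one, map_zero, add_zero, sub_add_cancel]
  exact ⟨{ AlgHom.ofLinearMap Φ p6 p5 with map_star' := p3 }, hΦc, hΦ⟩

end Vale.Agent.P101
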