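import Vale.Agent.P101.ZHalfAlg
import Vale.Agent.P101.FQuot

/-!
Inductive limits of sequences of C*-algebras with injective unital connecting maps.
-/

namespace Vale.Agent.P101

open Filter Topology
open scoped ENNReal

section

variable {D : ℕ → Type} [∀ n, CStarAlgebra (D n)]

/-- the composed connecting maps -/
noncomputable def chainMap (φ : ∀ n, D n →⋆ₐ[ℂ] D (n + 1)) {m n : ℕ} (h : m ≤ n) :
    D m →⋆ₐ[ℂ] D n :=
  Nat.leRec (motive := fun n _ => D m →⋆ₐ[ℂ] D n) (StarAlgHom.id ℂ (D m))
    (fun k _ ψ => (φ k).comp ψ) h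

lemma chainMap_self (φ : ∀ n, D n →⋆ₐ[ℂ] D (n + 1)) (m : ℕ) :
    chainMap φ (le_refl m) = StarAlgHom.id ℂ (D m) := Nat.leRec_self _ _

lemma chainMap_succ (φ : ∀ n, D n →⋆ₐ[ℂ] D (n + 1)) {m n : ℕ} (h : m ≤ n) (h' : m ≤ n + 1) :
    chainMap φ h' = (φ n).comp (chainMap φ h) := Nat.leRec_succ _ _ h

lemma chainMap_trans (φ : ∀ n, D n →⋆ₐ[ℂ] D (n + 1)) {m n k : ℕ} (h : m ≤ n) (h' : n ≤ k)
    (f : D m) : chainMap φ h' (chainMap φ h f) = chainMap φ (h.trans h') f := by
  induction k, h' using Nat.le_induction with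
  | base => rw [chainMap_self]; rfl
  | succ k hk ih =>
    rw [chainMap_succ φ hk, chainMap_succ φ (h.trans hk), StarAlgHom.comp_apply, ih]
    rfl

lemma chainMap_injective (φ : ∀ n, D n →⋆ₐ[ℂ] D (n + 1)) (hφ : ∀ n, Function.Injective (φ n))
    {m n : ℕ} (h : m ≤ n) : Function.Injective (chainMap φ h) := by
  induction n, h using Nat.le_induction with
  | base => rw [chainMap_self]; exact Function.injective_id
  | succ k hk ih =>
    rw [chainMap_succ φ hk]
    exact (hφ k).comp ih

theorem exists_limit [∀ n, Nontrivial (D n)] (φ : ∀ n, D n →⋆ₐ[ℂ] D (n + 1))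
    (hφ : ∀ n, Function.Injective (φ n)) :
    ∃ (Z : Type) (_ : CStarAlgebra Z) (ι : ∀ n, D n →⋆ₐ[ℂ] Z),
      (∀ n, Function.Injective (ι n)) ∧ Dense (⋃ n, Set.range (ι n)) ∧
      ∀ m n (h : m ≤ n) f, ι n (chainMap φ h f) = ι m f := by
  let : CStarAlgebra (lp D ∞) := {}
  let I : Ideal (lp D ∞) :=
    { carrier := {x | Tendsto (fun n => ‖x n‖) atTop (𝓝 0)}
      zero_mem' := by simp
      add_mem' := fun {x y} hx hy => squeeze_zero (fun _ => norm_nonneg _)
        (fun n => norm_add_le (x n) (y n)) (by simpa using hx.add hy)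
      smul_mem' := fun x y hy => squeeze_zero (fun _ => norm_nonneg _)
        (fun n => (norm_mul_le (x n) (y n)).trans (mul_le_mul_of_nonneg_right
          (lp.norm_apply_le_norm ENNReal.top_ne_zero x n) (norm_nonneg _)))
        (by simpa using Tendsto.const_mul ‖x‖ hy) }
  have hI : ∀ x, x ∈ I ↔ Tendsto (fun n => ‖x n‖) atTop (𝓝 0) := fun _ => Iff.rfl
  have : I.IsTwoSided := ⟨fun {x} y hx => squeeze_zero (fun _ => norm_nonneg _)
    (fun n => (norm_mul_le (x n) (y n)).trans (mul_le_mul_of_nonneg_left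
      (lp.norm_apply_le_norm ENNReal.top_ne_zero y n) (norm_nonneg _)))
    (by simpa using Tendsto.mul_const ‖y‖ ((hI x).1 hx))⟩
  have hIc : IsClosed (I : Set (lp D ∞)) := by
    refine isClosed_of_closure_subset fun x hx => (hI x).2 ?_
    rw [Metric.tendsto_nhds]
    intro ε hε
    obtain ⟨y, hy, hxy⟩ := Metric.mem_closure_iff.1 hx (ε / 2) (half_pos hε)
    filter_upwards [Metric.tendsto_nhds.1 ((hI y).1 hy) (ε / 2) (half_pos hε)] with n hn
    rw [dist_zero_right, norm_norm] at hn ⊢
    have h2 : ‖x n - y n‖ ≤ ‖x - y‖ := lp.norm_apply_le_norm ENNReal.top_ne_zero (x - y) n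
    rw [dist_eq_norm] at hxy
    have h3 := norm_add_le (x n - y n) (y n)
    rw [sub_add_cancel] at h3
    linarith
  obtain ⟨Q, _, π, -, hπ, -⟩ := F.exists_quot I hIc
  have heq : ∀ x y : lp D ∞, (∀ᶠ n in atTop, x n = y n) → π x = π y := by
    intro x y h
    rw [← sub_eq_zero, ← map_sub, hπ, hI]
    refine tendsto_const_nhds.congr' ?_
    filter_upwards [h] with n hn
    change 0 = ‖x n - y n‖
    rw [hn, sub_self, norm_zero]
  let s : ∀ m, D m → lp D ∞ := fun m f =>
    ⟨fun n => if h : m ≤ n then chainMap φ h f else 0, memℓp_infty ⟨‖f‖, by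
      rintro _ ⟨n, rfl⟩
      dsimp only
      split_ifs with h
      · exact NonUnitalStarAlgHom.norm_apply_le _ f
      · simp⟩⟩
  have hs : ∀ m n (h : m ≤ n) f, s m f n = chainMap φ h f := fun m n h f => dif_pos h
  have hev : ∀ {m : ℕ} {P : ℕ → Prop}, (∀ n, m ≤ n → P n) → ∀ᶠ n in atTop, P n :=
    fun {m} _ h => (eventually_ge_atTop m).mono h
  let j : ∀ m, D m →⋆ₐ[ℂ] Q := fun m =>
    { toFun := fun f => π (s m f)
      map_one' := by
        rw [← map_one π]
        exact heq _ _ (hev fun n h => by rw [hs m n h, map_one]; rfl)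
      map_mul' := fun f g => by
        rw [← map_mul π]
        exact heq _ _ (hev fun n h => by
          rw [lp.infty_coeFn_mul, Pi.mul_apply, hs m n h, hs m n h, hs m n h, map_mul])
      map_zero' := by
        rw [← map_zero π]
        exact heq _ _ (hev fun n h => by rw [hs m n h, map_zero]; rfl)
      map_add' := fun f g => by
        rw [← map_add π]
        exact heq _ _ (hev fun n h => by
          rw [lp.coeFn_add, Pi.add_apply, hs m n h, hs m n h, hs m n h, map_add])
      commutes' := fun c => by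
        rw [← π.commutes]
        exact heq _ _ (hev fun n h => by rw [hs m n h, AlgHomClass.commutes]; rfl)
      map_star' := fun f => by
        rw [← map_star π]
        exact heq _ _ (hev fun n h => by rw [lp.star_apply, hs m n h, hs m n h, map_star]) }
  have hj : ∀ m n (h : m ≤ n) f, j n (chainMap φ h f) = j m f := fun m n h f =>
    heq _ _ (hev (m := n) fun k hk => by rw [hs n k hk, hs m k (h.trans hk), chainMap_trans])
  have hinj : ∀ m, Function.Injective (j m) := by
    intro m
    refine (injective_iff_map_eq_zero _).2 fun f hf => ?_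
    have h1 : Tendsto (fun n => ‖s m f n‖) atTop (𝓝 0) := (hI _).1 ((hπ _).1 hf)
    have h2 : Tendsto (fun n => ‖s m f n‖) atTop (𝓝 ‖f‖) :=
      tendsto_const_nhds.congr' (hev fun n h => by
        change ‖f‖ = ‖s m f n‖
        rw [hs m n h, NonUnitalStarAlgHom.norm_map _ (chainMap_injective φ hφ h)])
    exact norm_eq_zero.1 (tendsto_nhds_unique h2 h1)
  let S : StarSubalgebra ℂ Q := (⨆ m, (j m).range).topologicalClosure
  have hdir : Directed (· ≤ ·) fun m => (j m).range := by
    refine Monotone.directed_le fun m n h => ?_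
    rintro _ ⟨f, rfl⟩
    exact ⟨chainMap φ h f, hj m n h f⟩
  have hS : (S : Set Q) = closure (⋃ m, Set.range (j m)) := by
    rw [StarSubalgebra.topologicalClosure_coe, StarSubalgebra.coe_iSup_of_directed hdir]
    rfl
  have hSc : IsClosed (S : Set Q) := StarSubalgebra.isClosed_topologicalClosure _
  have hmem : ∀ m f, j m f ∈ S := fun m f => by
    rw [← SetLike.mem_coe, hS]
    exact subset_closure (Set.mem_iUnion.2 ⟨m, f, rfl⟩)
  refine ⟨S, inferInstance, fun m => (j m).codRestrict S (hmem m), fun m f g h =>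
    hinj m (congrArg Subtype.val h), ?_, fun m n h f => Subtype.ext (hj m n h f)⟩
  intro x
  rw [Topology.IsInducing.subtypeVal.closure_eq_preimage_closure_image]
  have hx : x.1 ∈ closure (⋃ m, Set.range (j m)) := hS ▸ x.2
  refine closure_mono ?_ hx
  rintro _ ⟨_, ⟨m, rfl⟩, f, rfl⟩
  exact ⟨⟨j m f, hmem m f⟩, Set.mem_iUnion.2 ⟨m, f, rfl⟩, rfl⟩

end

end Vale.Agent.P101
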